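import Crest.Agent.R215.Base
import Crest.Agent.R215.GainCell

-- ▼ part R215/CritGain
section

/-!
# Row 215: gain and half-space bounds for the cells of a critical configuration
-/

set_option autoImplicit false
set_option linter.unusedSectionVars false
set_option linter.style.haveILetI false

open MeasureTheory ProbabilityTheory Set Filter Topology
open scoped RealInnerProductSpace

namespace Crest.Agent.R215

open Crest.Agent.Lib.Ehrhard

variable {E : Type*} [NormedAddCommGroup E] [InnerProductSpace ℝ E] [FiniteDimensional ℝ E]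
  [MeasurableSpace E] [BorelSpace E]

/-- `χ(p) = I (I + b p)`, `b = Ψ p`, `I = φ b`. -/
noncomputable def chi (p : ℝ) : ℝ := phi (Psi p) * (Psi p * p + phi (Psi p))

section

variable {ι : Type*} [Fintype ι] [DecidableEq ι]

/-- `D_i(x) = X_i - max_{j ≠ i} X_j` -/
noncomputable def gapD (z : ι → E) (i : ι) (x : E) : ℝ :=
  ⟪z i, x⟫ - supI (fun j : {j // j ≠ i} => z j) x

lemma supI_midpoint {κ : Type*} [Finite κ] [Nonempty κ] (w : κ → E) (x y : E) :
    supI w ((2:ℝ)⁻¹ • (x + y)) ≤ (supI w x + supI w y) / 2 := by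
  refine supI_le w _ fun j => ?_
  rw [inner_smul_right, inner_add_right]
  have h1 := le_supI w x j
  have h2 := le_supI w y j
  linarith

lemma supI_lip {κ : Type*} [Fintype κ] [Nonempty κ] (w : κ → E) (x y : E) :
    |supI w x - supI w y| ≤ (∑ j, ‖w j‖) * ‖x - y‖ := by
  have key : ∀ x y : E, supI w x ≤ supI w y + (∑ j, ‖w j‖) * ‖x - y‖ := by
    intro x y
    refine supI_le w x fun j => ?_
    have h1 : ⟪w j, x⟫ = ⟪w j, y⟫ + ⟪w j, x - y⟫ := by rw [inner_sub_right]; ring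
    have h2 : ⟪w j, x - y⟫ ≤ ‖w j‖ * ‖x - y‖ := real_inner_le_norm _ _
    have h3 : ‖w j‖ ≤ ∑ j, ‖w j‖ :=
      Finset.single_le_sum (f := fun j => ‖w j‖) (fun j _ => norm_nonneg _) (Finset.mem_univ j)
    have h4 := le_supI w y j
    have h5 : ‖w j‖ * ‖x - y‖ ≤ (∑ j, ‖w j‖) * ‖x - y‖ :=
      mul_le_mul_of_nonneg_right h3 (norm_nonneg _)
    linarith
  rw [abs_le]
  have h1 := key x y
  have h2 := key y x
  rw [norm_sub_rev] at h2
  constructor <;> linarith

lemma gapD_lip (z : ι → E) (i : ι) [Nonempty {j // j ≠ i}] (x y : E) :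
    |gapD z i x - gapD z i y| ≤ (‖z i‖ + ∑ j : {j // j ≠ i}, ‖z j‖) * ‖x - y‖ := by
  have h1 : gapD z i x - gapD z i y = ⟪z i, x - y⟫ -
      (supI (fun j : {j // j ≠ i} => z j) x - supI (fun j : {j // j ≠ i} => z j) y) := by
    unfold gapD; rw [inner_sub_right]; ring
  rw [h1]
  refine (abs_sub _ _).trans ?_
  rw [add_mul]
  exact add_le_add (abs_real_inner_le_norm _ _) (supI_lip _ x y)

lemma gapD_midpoint (z : ι → E) (i : ι) [Nonempty {j // j ≠ i}] (x y : E) :
    (gapD z i x + gapD z i y) / 2 ≤ gapD z i ((2:ℝ)⁻¹ • (x + y)) := by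
  have h := supI_midpoint (fun j : {j // j ≠ i} => z j) x y
  unfold gapD
  rw [inner_smul_right, inner_add_right]
  linarith

lemma gapD_pos_iff (z : ι → E) (i : ι) [Nonempty {j // j ≠ i}] (x : E) :
    0 < gapD z i x ↔ x ∈ openCell z i := by
  unfold gapD openCell
  simp only [mem_ofPred_eq, sub_pos]
  constructor
  · intro h j hj
    exact (le_supI (fun j : {j // j ≠ i} => z j) x ⟨j, hj⟩).trans_lt h
  · intro h
    obtain ⟨j, hj⟩ := exists_eq_supI (fun j : {j // j ≠ i} => z j) x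
    rw [← hj]
    exact h j j.2

lemma max_gapD (z : ι → E) (i : ι) [Nonempty {j // j ≠ i}] (x : E) :
    max (gapD z i x) 0 = supI z x - supI (fun j : {j // j ≠ i} => z j) x := by
  haveI : Nonempty ι := ⟨i⟩
  unfold gapD
  have h1 : supI (fun j : {j // j ≠ i} => z j) x ≤ supI z x :=
    supI_le _ x fun j => le_supI z x j
  have h2 := le_supI z x i
  have h3 : supI z x ≤ max ⟪z i, x⟫ (supI (fun j : {j // j ≠ i} => z j) x) := by
    refine supI_le z x fun j => ?_
    by_cases hj : j = i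
    · rw [hj]; exact le_max_left _ _
    · exact (le_supI (fun j : {j // j ≠ i} => z j) x ⟨j, hj⟩).trans (le_max_right _ _)
  rcases le_total ⟪z i, x⟫ (supI (fun j : {j // j ≠ i} => z j) x) with h | h
  · rw [max_eq_right h] at h3
    rw [max_eq_right (by linarith)]
    linarith
  · rw [max_eq_left h] at h3
    rw [max_eq_left (by linarith)]
    linarith

lemma integral_max_gapD (z : ι → E) (i : ι) [Nonempty {j // j ≠ i}] :
    ∫ x, max (gapD z i x) 0 ∂stdGaussian E = F z - F (fun j : {j // j ≠ i} => z j) := by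
  simp_rw [max_gapD]
  rw [F, F, integral_sub (integrable_supI _) (integrable_supI _)]

end

namespace Crit

variable {ι : Type*} [Fintype ι] [DecidableEq ι] (c : Crit E ι)

lemma nonempty_ne (hk : 2 ≤ Fintype.card ι) (i : ι) : Nonempty {j // j ≠ i} := by
  haveI : Nontrivial ι := Fintype.one_lt_card_iff_nontrivial.1 (by omega)
  obtain ⟨j, hj⟩ := exists_ne i
  exact ⟨⟨j, hj⟩⟩

lemma gapD_add (hk : 2 ≤ Fintype.card ι) (i : ι) (x : E) (t : ℝ) :
    gapD c.z i (x + t • c.v i) = gapD c.z i x + t := by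
  haveI := nonempty_ne (ι := ι) hk i
  unfold gapD supI
  simp only [inner_add_right, inner_smul_right, c.inner_v]
  have h1 : ∀ j : {j // j ≠ i}, ⟪c.z j, x⟫ + t * ((if (j : ι) = i then (1:ℝ) else 0)
      - (Fintype.card ι : ℝ)⁻¹) = ⟪c.z j, x⟫ + (- t * (Fintype.card ι : ℝ)⁻¹) := by
    intro j
    rw [if_neg j.2]; ring
  simp_rw [h1]
  rw [← ciSup_add (Set.finite_range _).bddAbove]
  simp only [if_true]
  ring

/-- **Ehrhard gain bound** for a cell of a critical configuration. -/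
theorem gain_le (hk : 2 ≤ Fintype.card ι) (i : ι) :
    (1 - (Fintype.card ι : ℝ)⁻¹) * (c.V - F (fun j : {j // j ≠ i} => c.z j)) ≤ chi (c.p i) := by
  haveI := nonempty_ne (ι := ι) hk i
  have hset : {x | 0 < gapD c.z i x} = c.A i := by
    ext x
    exact gapD_pos_iff c.z i x
  have hflux : ∫ x in {x | 0 < gapD c.z i x}, ⟪c.v i, x⟫ ∂stdGaussian E
      = 1 - (Fintype.card ι : ℝ)⁻¹ := by
    rw [hset, c.integral_v_A]; simp
  have hpos : (0:ℝ) < 1 - (Fintype.card ι : ℝ)⁻¹ := by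
    have : (2:ℝ) ≤ Fintype.card ι := by exact_mod_cast hk
    have h2 : (Fintype.card ι : ℝ)⁻¹ ≤ 2⁻¹ := by gcongr
    linarith
  have key := GainCell.gain_cell (D := gapD c.z i) (gapD_lip c.z i) (gapD_midpoint c.z i)
    (v := c.v i) (c.gapD_add hk i) (by rw [hflux]; exact hpos)
  rw [hflux, integral_max_gapD, c.F_eq, hset] at key
  exact key

lemma p_pos (hk : 2 ≤ Fintype.card ι) (i : ι) : 0 < c.p i := by
  rcases eq_or_lt_of_le (c.p_nonneg i) with h | h
  · exfalso
    have h1 : stdGaussian E (c.A i) = 0 := (measureReal_eq_zero_iff (by finiteness)).1 h.symm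
    have h2 : mom (c.A i) = 0 := by
      unfold mom
      rw [Measure.restrict_eq_zero.2 h1, integral_zero_measure]
    rw [c.mom_A] at h2
    exact c.z_ne_zero i (by omega) h2
  · exact h

lemma p_le_half (hk : 2 ≤ Fintype.card ι) (i : ι) : c.p i ≤ 1 / 2 := by
  obtain ⟨⟨j, hj⟩⟩ := nonempty_ne (ι := ι) hk i
  have hneg : (stdGaussian E).real ((fun x : E => -x) ⁻¹' (c.A i)) = c.p i := by
    have h := stdGaussian_map (LinearIsometryEquiv.neg ℝ (E := E))
    have h2 : (stdGaussian E).map (fun x : E => -x) = stdGaussian E := h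
    unfold p
    conv_rhs => rw [← h2]
    rw [map_measureReal_apply (by fun_prop) (c.measurableSet_A i)]
  have hdisj : Disjoint (c.A i) ((fun x : E => -x) ⁻¹' (c.A i)) := by
    rw [Set.disjoint_left]
    intro x hx hx'
    have h1 := hx j hj
    have h2 : ⟪c.z j, -x⟫ < ⟪c.z i, -x⟫ := hx' j hj
    rw [inner_neg_right, inner_neg_right] at h2
    linarith
  have hm : MeasurableSet ((fun x : E => -x) ⁻¹' (c.A i)) :=
    (measurable_neg : Measurable fun x : E => -x) (c.measurableSet_A i)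
  have h3 := measureReal_union (μ := stdGaussian E) hdisj hm
  have h4 : (stdGaussian E).real (c.A i ∪ (fun x : E => -x) ⁻¹' (c.A i)) ≤ 1 := measureReal_le_one
  rw [h3, hneg] at h4
  unfold p at h4 ⊢
  linarith

/-- the half-space bound -/
theorem norm_z_le (hk : 2 ≤ Fintype.card ι) (i : ι) : ‖c.z i‖ ≤ phi (Psi (c.p i)) := by
  rw [← c.mom_A i]
  exact CM.norm_moment_le (c.p_pos hk i) (lt_of_le_of_lt (c.p_le_half hk i) (by norm_num))

/-- deletion inequality for one cell -/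
theorem gain_ge (hk : 2 ≤ Fintype.card ι) (i : ι) :
    c.V - √cC * √(c.V - (1 + ((Fintype.card ι : ℝ) - 1)⁻¹) * ‖c.z i‖ ^ 2) ≤
      c.V - F (fun j : {j // j ≠ i} => c.z j) := by
  haveI := nonempty_ne (ι := ι) hk i
  have h := (c.small i).dual.sub_mean (fun j : {j // j ≠ i} => c.z j)
  have e1 : ∑ j : {j // j ≠ i}, ‖c.z j‖ ^ 2 = c.V - ‖c.z i‖ ^ 2 := by
    rw [← c.sumsq, ← Finset.add_sum_erase _ _ (Finset.mem_univ i)]
    have : ∑ j ∈ Finset.univ.erase i, ‖c.z j‖ ^ 2 = ∑ j : {j // j ≠ i}, ‖c.z j‖ ^ 2 := by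
      apply Finset.sum_subtype
      intro x; simp
    rw [← this]; ring
  have e2 : ∑ j : {j // j ≠ i}, c.z j = - c.z i := by
    rw [eq_neg_iff_add_eq_zero]
    have : ∑ j ∈ Finset.univ.erase i, c.z j = ∑ j : {j // j ≠ i}, c.z j := by
      apply Finset.sum_subtype
      intro x; simp
    rw [← this, add_comm, Finset.add_sum_erase _ _ (Finset.mem_univ i), c.sum_z]
  have e3 : (Fintype.card {j // j ≠ i} : ℝ) = (Fintype.card ι : ℝ) - 1 := by
    rw [Fintype.card_subtype_compl, Fintype.card_subtype_eq, Nat.cast_sub (by omega)]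
    simp
  rw [e1, e2, e3, norm_neg] at h
  have e4 : c.V - ‖c.z i‖ ^ 2 - ‖c.z i‖ ^ 2 / ((Fintype.card ι : ℝ) - 1)
      = c.V - (1 + ((Fintype.card ι : ℝ) - 1)⁻¹) * ‖c.z i‖ ^ 2 := by
    rw [div_eq_mul_inv]; ring
  rw [e4] at h
  linarith

end Crit

end Crest.Agent.R215
end

-- ▼ part R215/Num
section

/-!
# Row 215: numerics of the normal density and distribution function

* `expT n u = ∑_{k ≤ n} (-u)^k / k!` and `exp (-u)` is between consecutive partial sums (`u ≥ 0`).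
* `phiT n x = ∑_{k ≤ n} (-1)^k x^(2k+1) / (2^k k! (2k+1))`: partial sums of `∫_0^x exp(-t²/2)`.
* bounds for `φ(0) = 1/√(2π)`.
-/

set_option autoImplicit false

open MeasureTheory ProbabilityTheory Set Filter Topology
open Crest.Agent.Lib.Ehrhard

namespace Crest.Agent.R215.Num

/-- partial sums of `exp (-u)` -/
noncomputable def expT (n : ℕ) (u : ℝ) : ℝ := ∑ k ∈ Finset.range (n + 1), (-u) ^ k / (k.factorial : ℝ)

lemma expT_zero (u : ℝ) : expT 0 u = 1 := by simp [expT]

lemma hasDerivAt_expT (n : ℕ) (u : ℝ) : HasDerivAt (expT (n + 1)) (-expT n u) u := by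
  have h : ∀ k ∈ Finset.range (n + 2), HasDerivAt (fun u : ℝ => (-u) ^ k / (k.factorial : ℝ))
      (if k = 0 then 0 else -((-u) ^ (k - 1) / ((k - 1).factorial : ℝ))) u := by
    intro k _
    rcases k with _ | k
    · simpa using hasDerivAt_const u (1 : ℝ)
    · have h1 : HasDerivAt (fun u : ℝ => -u) (-1) u := (hasDerivAt_id u).neg
      have h2 := (h1.fun_pow (k + 1)).div_const ((k + 1).factorial : ℝ)
      refine h2.congr_deriv ?_
      simp only [Nat.add_sub_cancel, Nat.succ_ne_zero, if_false, Nat.factorial_succ]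
      push_cast
      have : ((k:ℝ) + 1) ≠ 0 := by positivity
      have h3 : (k.factorial : ℝ) ≠ 0 := by positivity
      field_simp
  have h2 := HasDerivAt.fun_sum h
  unfold expT
  refine h2.congr_deriv ?_
  rw [Finset.sum_range_succ']
  simp

lemma exp_sub_expT (n : ℕ) : ∀ u : ℝ, 0 ≤ u → 0 ≤ (-1) ^ (n + 1) * (Real.exp (-u) - expT n u) := by
  induction n with
  | zero =>
    intro u hu
    rw [expT_zero]
    have : Real.exp (-u) ≤ 1 := Real.exp_le_one_iff.2 (by linarith)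
    simp only [zero_add, pow_one]
    linarith
  | succ n ih =>
    intro u hu
    set K : ℝ → ℝ := fun u => (-1) ^ (n + 1 + 1) * (Real.exp (-u) - expT (n + 1) u) with hK
    have hd : ∀ x, HasDerivAt K ((-1) ^ (n + 1) * (Real.exp (-x) - expT n x)) x := by
      intro x
      have h1 : HasDerivAt (fun u : ℝ => Real.exp (-u)) (-Real.exp (-x)) x := by
        simpa using ((hasDerivAt_id x).neg).exp
      refine ((h1.fun_sub (hasDerivAt_expT n x)).const_mul ((-1) ^ (n + 1 + 1))).congr_deriv ?_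
      rw [pow_succ]; ring
    have hc : Continuous K := continuous_iff_continuousAt.2 fun x => (hd x).continuousAt
    have hmono : MonotoneOn K (Ici 0) := by
      refine monotoneOn_of_deriv_nonneg (convex_Ici 0) hc.continuousOn
        (fun x _ => (hd x).differentiableAt.differentiableWithinAt) ?_
      intro x hx
      rw [interior_Ici] at hx
      rw [(hd x).deriv]
      exact ih x (le_of_lt hx)
    have h0 : K 0 = 0 := by
      simp only [hK, neg_zero, Real.exp_zero]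
      have : expT (n + 1) 0 = 1 := by
        unfold expT
        rw [Finset.sum_range_succ']
        simp
      rw [this]; ring
    have := hmono (mem_Ici.2 le_rfl) (mem_Ici.2 hu) hu
    rw [h0] at this
    exact this

lemma exp_le_expT {n : ℕ} (hn : Even n) {u : ℝ} (hu : 0 ≤ u) : Real.exp (-u) ≤ expT n u := by
  have := exp_sub_expT n u hu
  rw [hn.add_one.neg_one_pow] at this
  linarith

lemma expT_le_exp {n : ℕ} (hn : Odd n) {u : ℝ} (hu : 0 ≤ u) : expT n u ≤ Real.exp (-u) := by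
  have := exp_sub_expT n u hu
  rw [hn.add_one.neg_one_pow] at this
  linarith

/-- partial sums of `∫_0^x exp (-t²/2) dt` -/
noncomputable def phiT (n : ℕ) (x : ℝ) : ℝ :=
  ∑ k ∈ Finset.range (n + 1), (-1) ^ k * x ^ (2 * k + 1) / (2 ^ k * (k.factorial : ℝ) * (2 * k + 1))

lemma hasDerivAt_phiT (n : ℕ) (x : ℝ) : HasDerivAt (phiT n) (expT n (x ^ 2 / 2)) x := by
  have h : ∀ k ∈ Finset.range (n + 1), HasDerivAt
      (fun x : ℝ => (-1) ^ k * x ^ (2 * k + 1) / (2 ^ k * (k.factorial : ℝ) * (2 * k + 1)))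
      ((-(x ^ 2 / 2)) ^ k / (k.factorial : ℝ)) x := by
    intro k _
    have h2 := ((hasDerivAt_pow (2 * k + 1) x).const_mul ((-1 : ℝ) ^ k)).div_const
      (2 ^ k * (k.factorial : ℝ) * (2 * k + 1))
    refine h2.congr_deriv ?_
    have h3 : (k.factorial : ℝ) ≠ 0 := by positivity
    have h4 : (2 * (k:ℝ) + 1) ≠ 0 := by positivity
    have h5 : (-(x ^ 2 / 2)) ^ k = (-1) ^ k * (x ^ (2 * k) / 2 ^ k) := by
      rw [neg_pow, div_pow, ← pow_mul]
    rw [h5]
    simp only [Nat.add_sub_cancel]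
    push_cast
    field_simp
  unfold phiT expT
  exact HasDerivAt.fun_sum h

/-- `φ(0) = 1/√(2π)` -/
noncomputable def c0 : ℝ := (Real.sqrt (2 * Real.pi))⁻¹

lemma c0_pos : 0 < c0 := c_pos

lemma phi_eq_c0 (x : ℝ) : phi x = c0 * Real.exp (-(x ^ 2 / 2)) := by
  unfold phi c0; rw [neg_div]

lemma Phi_zero : Phi 0 = 1 / 2 := by
  have := Phi_neg 0
  rw [neg_zero] at this
  linarith

lemma phi_sub_phiT (n : ℕ) {x : ℝ} (hx : 0 ≤ x) :
    0 ≤ (-1) ^ (n + 1) * (Phi x - 1 / 2 - c0 * phiT n x) := by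
  set K : ℝ → ℝ := fun x => (-1) ^ (n + 1) * (Phi x - 1 / 2 - c0 * phiT n x) with hK
  have hd : ∀ x, HasDerivAt K ((-1) ^ (n + 1) * (phi x - c0 * expT n (x ^ 2 / 2))) x := by
    intro x
    exact (((hasDerivAt_Phi x).sub_const (1 / 2)).fun_sub
      ((hasDerivAt_phiT n x).const_mul c0)).const_mul _
  have hc : Continuous K := continuous_iff_continuousAt.2 fun x => (hd x).continuousAt
  have hmono : MonotoneOn K (Ici 0) := by
    refine monotoneOn_of_deriv_nonneg (convex_Ici 0) hc.continuousOn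
      (fun x _ => (hd x).differentiableAt.differentiableWithinAt) ?_
    intro x _
    rw [(hd x).deriv, phi_eq_c0]
    have h1 := exp_sub_expT n (x ^ 2 / 2) (by positivity)
    have h2 := mul_nonneg c0_pos.le h1
    calc (0:ℝ) ≤ c0 * ((-1) ^ (n + 1) * (Real.exp (-(x ^ 2 / 2)) - expT n (x ^ 2 / 2))) := h2
      _ = _ := by ring
  have h0 : K 0 = 0 := by
    simp only [hK, Phi_zero]
    have : phiT n 0 = 0 := by
      unfold phiT
      refine Finset.sum_eq_zero fun k _ => ?_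
      simp
    rw [this]; ring
  have := hmono (mem_Ici.2 le_rfl) (mem_Ici.2 hx) hx
  rw [h0] at this
  exact this

lemma Phi_le {n : ℕ} (hn : Even n) {x : ℝ} (hx : 0 ≤ x) : Phi x ≤ 1 / 2 + c0 * phiT n x := by
  have := phi_sub_phiT n hx
  rw [hn.add_one.neg_one_pow] at this
  linarith

lemma le_Phi {n : ℕ} (hn : Odd n) {x : ℝ} (hx : 0 ≤ x) : 1 / 2 + c0 * phiT n x ≤ Phi x := by
  have := phi_sub_phiT n hx
  rw [hn.add_one.neg_one_pow] at this
  linarith

/-- values at negative points -/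
lemma Phi_neg_le {n : ℕ} (hn : Odd n) {x : ℝ} (hx : 0 ≤ x) : Phi (-x) ≤ 1 / 2 - c0 * phiT n x := by
  rw [Phi_neg]; have := le_Phi hn hx; linarith

lemma le_Phi_neg {n : ℕ} (hn : Even n) {x : ℝ} (hx : 0 ≤ x) : 1 / 2 - c0 * phiT n x ≤ Phi (-x) := by
  rw [Phi_neg]; have := Phi_le hn hx; linarith

lemma sqrt_two_pi_gt : (2.5066282 : ℝ) < Real.sqrt (2 * Real.pi) := by
  rw [Real.lt_sqrt (by norm_num)]
  have := Real.pi_gt_d20
  norm_num at this ⊢
  linarith

lemma sqrt_two_pi_lt : Real.sqrt (2 * Real.pi) < (2.5066283 : ℝ) := by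
  rw [Real.sqrt_lt' (by norm_num)]
  have := Real.pi_lt_d20
  norm_num at this ⊢
  linarith

lemma c0_lt : c0 < 0.3989423 := by
  unfold c0
  rw [inv_lt_comm₀ (by positivity) (by norm_num)]
  refine lt_trans ?_ sqrt_two_pi_gt
  norm_num

lemma c0_gt : 0.3989422 < c0 := by
  unfold c0
  rw [lt_inv_comm₀ (by norm_num) (by positivity)]
  refine lt_trans sqrt_two_pi_lt ?_
  norm_num

end Crest.Agent.R215.Num
end

-- ▼ part R215/ChiFun
section

/-!
# Row 215: the function `chi (Phi b) = φ(b)(b Φ(b) + φ(b))`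

* `chi_Phi`, `sig`, `hasDerivAt_chib`, `chi_chord` (chord upper bound, `b ≤ 0`), `chi_mono`,
  `chi_le_sq` (`chi p ≤ p²`), `phi_sq_le_tangent`.
-/

set_option autoImplicit false

open MeasureTheory ProbabilityTheory Set Filter Topology
open Crest.Agent.Lib.Ehrhard

namespace Crest.Agent.R215


/-- derivative of `chi` with respect to `p` in terms of `b` -/
noncomputable def sig (b : ℝ) : ℝ := Phi b - b * (b * Phi b + phi b)

lemma hasDerivAt_W (b : ℝ) : HasDerivAt (fun b => b * Phi b + phi b) (Phi b) b :=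
  hasDerivAt_xPhi b

lemma hasDerivAt_chib (b : ℝ) :
    HasDerivAt (fun b => phi b * (b * Phi b + phi b)) (phi b * sig b) b := by
  refine ((hasDerivAt_phi b).fun_mul (hasDerivAt_W b)).congr_deriv ?_
  unfold sig; ring

lemma hasDerivAt_sig (b : ℝ) : HasDerivAt sig (-2 * b * Phi b) b := by
  have h := (hasDerivAt_Phi b).fun_sub ((hasDerivAt_id b).fun_mul (hasDerivAt_W b))
  refine h.congr_deriv ?_
  simp only [id]; ring

lemma sig_mono {a b : ℝ} (hab : a ≤ b) (hb : b ≤ 0) : sig a ≤ sig b := by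
  have hc : Continuous sig := continuous_iff_continuousAt.2 fun x => (hasDerivAt_sig x).continuousAt
  have : MonotoneOn sig (Iic 0) := by
    refine monotoneOn_of_deriv_nonneg (convex_Iic 0) hc.continuousOn
      (fun x _ => (hasDerivAt_sig x).differentiableAt.differentiableWithinAt) ?_
    intro x hx
    rw [interior_Iic] at hx
    rw [(hasDerivAt_sig x).deriv]
    have h1 := Phi_nonneg x
    simp only [mem_Iio] at hx
    nlinarith
  exact this (mem_Iic.2 (hab.trans hb)) (mem_Iic.2 hb) hab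

/-- **chord bound**: an affine function of `p` above `chi` at two points of `(0, 1/2]` is above `chi`
between them. -/
theorem chi_chord {b1 b2 m k : ℝ} (h2 : b2 ≤ 0)
    (e1 : phi b1 * (b1 * Phi b1 + phi b1) ≤ m * Phi b1 + k)
    (e2 : phi b2 * (b2 * Phi b2 + phi b2) ≤ m * Phi b2 + k) {b : ℝ} (hb1 : b1 ≤ b) (hb2 : b ≤ b2) :
    phi b * (b * Phi b + phi b) ≤ m * Phi b + k := by
  set K : ℝ → ℝ := fun b => m * Phi b + k - phi b * (b * Phi b + phi b) with hK
  have hd : ∀ x, HasDerivAt K (phi x * (m - sig x)) x := by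
    intro x
    refine ((((hasDerivAt_Phi x).const_mul m).add_const k).fun_sub (hasDerivAt_chib x)).congr_deriv ?_
    ring
  have hc : Continuous K := continuous_iff_continuousAt.2 fun x => (hd x).continuousAt
  rcases le_or_gt (sig b) m with h | h
  · have : MonotoneOn K (Icc b1 b) := by
      refine monotoneOn_of_deriv_nonneg (convex_Icc b1 b) hc.continuousOn
        (fun x _ => (hd x).differentiableAt.differentiableWithinAt) ?_
      intro x hx
      rw [interior_Icc] at hx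
      rw [(hd x).deriv]
      have := sig_mono hx.2.le (hb2.trans h2)
      exact mul_nonneg (phi_nonneg x) (by linarith)
    have h3 := this (left_mem_Icc.2 hb1) (right_mem_Icc.2 hb1) hb1
    simp only [hK] at h3
    linarith
  · have : AntitoneOn K (Icc b b2) := by
      refine antitoneOn_of_deriv_nonpos (convex_Icc b b2) hc.continuousOn
        (fun x _ => (hd x).differentiableAt.differentiableWithinAt) ?_
      intro x hx
      rw [interior_Icc] at hx
      rw [(hd x).deriv]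
      have := sig_mono hx.1.le (hx.2.le.trans h2)
      exact mul_nonpos_of_nonneg_of_nonpos (phi_nonneg x) (by linarith)
    have h3 := this (left_mem_Icc.2 hb2) (right_mem_Icc.2 hb2) hb2
    simp only [hK] at h3
    linarith

/-- chord bound in terms of `p` -/
theorem chi_le_of_chord {b1 b2 m k : ℝ} (h2 : b2 ≤ 0)
    (e1 : phi b1 * (b1 * Phi b1 + phi b1) ≤ m * Phi b1 + k)
    (e2 : phi b2 * (b2 * Phi b2 + phi b2) ≤ m * Phi b2 + k) {p : ℝ}
    (hp1 : Phi b1 ≤ p) (hp2 : p ≤ Phi b2) : chi p ≤ m * p + k := by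
  have h0 : 0 < p := (Phi_pos b1).trans_le hp1
  have h1 : p < 1 := hp2.trans_lt (Phi_lt_one b2)
  have e : Phi (Psi p) = p := Phi_Psi h0 h1
  have hb1 : b1 ≤ Psi p := (le_Psi_iff h0 h1).2 hp1
  have hb2 : Psi p ≤ b2 := (Psi_le_iff h0 h1).2 hp2
  have := chi_chord h2 e1 e2 hb1 hb2
  rw [e] at this
  exact this

/-- `Φ(b)(1 + b²) + b φ(b) ≥ 0`. -/
lemma tendsto_sq_mul_Phi : Tendsto (fun b : ℝ => b * phi b) atBot (𝓝 0) := by
  have h1 : Tendsto (fun x : ℝ => x ^ 2 * Real.exp (-(x ^ 2 / 2))) atBot (𝓝 0) := by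
    have h2 := Real.tendsto_pow_mul_exp_neg_atTop_nhds_zero 1
    have h3 : Tendsto (fun x : ℝ => x ^ 2 / 2) atBot atTop := by
      have : Tendsto (fun x : ℝ => x ^ 2) atBot atTop := by
        have := (tendsto_pow_atTop (two_ne_zero)).comp (tendsto_neg_atBot_atTop (G := ℝ))
        refine this.congr fun x => ?_
        simp
      exact this.atTop_div_const (by norm_num)
    have h4 := (h2.comp h3).const_mul 2
    rw [mul_zero] at h4
    refine h4.congr fun x => ?_
    simp only [Function.comp, pow_one]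
    ring
  have h5 : ∀ᶠ x : ℝ in atBot, |x * phi x| ≤ x ^ 2 * Real.exp (-(x ^ 2 / 2)) := by
    filter_upwards [eventually_le_atBot (-1 : ℝ)] with x hx
    have h6 : phi x ≤ Real.exp (-(x ^ 2 / 2)) := by
      unfold phi
      rw [neg_div]
      calc _ ≤ 1 * Real.exp (-(x ^ 2 / 2)) := by
            gcongr
            exact c_le_one
        _ = _ := one_mul _
    rw [abs_mul, abs_of_nonneg (phi_nonneg x), abs_of_nonpos (by linarith)]
    have h7 : 0 ≤ phi x := phi_nonneg x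
    have h8 : -x ≤ x ^ 2 := by nlinarith
    calc -x * phi x ≤ x ^ 2 * phi x := mul_le_mul_of_nonneg_right h8 h7
      _ ≤ _ := mul_le_mul_of_nonneg_left h6 (by positivity)
  exact squeeze_zero_norm' h5 h1

lemma mills_lower (b : ℝ) : 0 ≤ Phi b * (1 + b ^ 2) + b * phi b := by
  set L : ℝ → ℝ := fun b => Phi b * (1 + b ^ 2) + b * phi b with hL
  have hd : ∀ x, HasDerivAt L (2 * (x * Phi x + phi x)) x := by
    intro x
    have h1 : HasDerivAt (fun b : ℝ => 1 + b ^ 2) (2 * x) x := by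
      simpa using (hasDerivAt_pow 2 x).const_add 1
    refine (((hasDerivAt_Phi x).fun_mul h1).fun_add ((hasDerivAt_id x).fun_mul (hasDerivAt_phi x))).congr_deriv ?_
    simp only [id]; ring
  have hc : Continuous L := continuous_iff_continuousAt.2 fun x => (hd x).continuousAt
  have hmono : Monotone L := by
    refine monotone_of_deriv_nonneg (fun x => (hd x).differentiableAt) fun x => ?_
    rw [(hd x).deriv]
    have := W_nonneg x
    linarith
  have hlim : Tendsto L atBot (𝓝 0) := by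
    have h1 : Tendsto (fun b : ℝ => b * phi b) atBot (𝓝 0) := tendsto_sq_mul_Phi
    have h2 : Tendsto (fun b : ℝ => Phi b * b ^ 2) atBot (𝓝 0) := by
      have h3 := h1.neg
      rw [neg_zero] at h3
      refine squeeze_zero' (Eventually.of_forall fun x => by have := Phi_nonneg x; positivity) ?_ h3
      filter_upwards [eventually_le_atBot (0 : ℝ)] with x hx
      have h4 := mills hx
      nlinarith
    have h5 : Tendsto (fun b : ℝ => Phi b + Phi b * b ^ 2 + b * phi b) atBot (𝓝 (0 + 0 + 0)) :=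
      (tendsto_Phi_atBot.add h2).add h1
    rw [add_zero, add_zero] at h5
    refine h5.congr fun x => ?_
    simp only [hL]; ring
  exact hmono.le_of_tendsto hlim b

/-- `chi ≤ p²` -/
lemma chib_le_sq (b : ℝ) : phi b * (b * Phi b + phi b) ≤ Phi b ^ 2 := by
  set K : ℝ → ℝ := fun b => Phi b ^ 2 - phi b * (b * Phi b + phi b) with hK
  have hd : ∀ x, HasDerivAt K (phi x * (Phi x * (1 + x ^ 2) + x * phi x)) x := by
    intro x
    refine (((hasDerivAt_Phi x).fun_pow 2).fun_sub (hasDerivAt_chib x)).congr_deriv ?_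
    unfold sig; simp only [Nat.cast_ofNat]; ring
  have hmono : Monotone K := by
    refine monotone_of_deriv_nonneg (fun x => (hd x).differentiableAt) fun x => ?_
    rw [(hd x).deriv]
    exact mul_nonneg (phi_nonneg x) (mills_lower x)
  have hlim : Tendsto K atBot (𝓝 0) := by
    have h1 : Tendsto (fun b : ℝ => Phi b ^ 2) atBot (𝓝 0) := by
      simpa using tendsto_Phi_atBot.pow 2
    have h2 := tendsto_phi_atBot.mul tendsto_W_atBot
    have := h1.sub h2
    simpa using this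
  have := hmono.le_of_tendsto hlim b
  simp only [hK] at this
  linarith

lemma chi_le_sq {p : ℝ} (h0 : 0 < p) (h1 : p < 1) : chi p ≤ p ^ 2 := by
  have := chib_le_sq (Psi p)
  rw [Phi_Psi h0 h1] at this
  exact this





/-- tangent bound for `I²` on `b ∈ [-1, 0]` -/
lemma phi_sq_le_tangent {b b0 : ℝ} (hb : -1 ≤ b) (hb' : b ≤ 1) (hb0 : -1 ≤ b0) (hb0' : b0 ≤ 1) :
    phi b ^ 2 ≤ phi b0 ^ 2 - 2 * b0 * phi b0 * (Phi b - Phi b0) := by
  have hxphi : ∀ x : ℝ, HasDerivAt (fun x => x * phi x) ((1 - x ^ 2) * phi x) x := by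
    intro x
    refine ((hasDerivAt_id x).fun_mul (hasDerivAt_phi x)).congr_deriv ?_
    simp only [id]; ring
  have hm : MonotoneOn (fun x => x * phi x) (Icc (-1) 1) := by
    refine monotoneOn_of_deriv_nonneg (convex_Icc _ _)
      (continuous_id.mul continuous_phi).continuousOn
      (fun x _ => (hxphi x).differentiableAt.differentiableWithinAt) ?_
    intro x hx
    rw [interior_Icc] at hx
    rw [(hxphi x).deriv]
    refine mul_nonneg ?_ (phi_nonneg x)
    nlinarith [hx.1, hx.2]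
  set K : ℝ → ℝ := fun b => phi b0 ^ 2 - 2 * b0 * phi b0 * (Phi b - Phi b0) - phi b ^ 2 with hK
  have hd : ∀ x, HasDerivAt K (2 * phi x * (x * phi x - b0 * phi b0)) x := by
    intro x
    refine (((((hasDerivAt_Phi x).sub_const (Phi b0)).const_mul (2 * b0 * phi b0)).const_sub
      (phi b0 ^ 2)).fun_sub ((hasDerivAt_phi x).fun_pow 2)).congr_deriv ?_
    simp only [Nat.cast_ofNat]; ring
  have hc : Continuous K := continuous_iff_continuousAt.2 fun x => (hd x).continuousAt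
  have h0 : K b0 = 0 := by simp only [hK]; ring
  rcases le_total b0 b with h | h
  · have : MonotoneOn K (Icc b0 b) := by
      refine monotoneOn_of_deriv_nonneg (convex_Icc _ _) hc.continuousOn
        (fun x _ => (hd x).differentiableAt.differentiableWithinAt) ?_
      intro x hx
      rw [interior_Icc] at hx
      rw [(hd x).deriv]
      have := hm ⟨hb0, hb0'⟩ ⟨hb0.trans hx.1.le, hx.2.le.trans hb'⟩ hx.1.le
      simp only at this
      have h2 := phi_nonneg x
      nlinarith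
    have h3 := this (left_mem_Icc.2 h) (right_mem_Icc.2 h) h
    rw [h0] at h3
    simp only [hK] at h3
    linarith
  · have : AntitoneOn K (Icc b b0) := by
      refine antitoneOn_of_deriv_nonpos (convex_Icc _ _) hc.continuousOn
        (fun x _ => (hd x).differentiableAt.differentiableWithinAt) ?_
      intro x hx
      rw [interior_Icc] at hx
      rw [(hd x).deriv]
      have := hm ⟨hb.trans hx.1.le, hx.2.le.trans hb0'⟩ ⟨hb0, hb0'⟩ hx.2.le
      simp only at this
      have h2 := phi_nonneg x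
      nlinarith
    have h3 := this (left_mem_Icc.2 h) (right_mem_Icc.2 h) h
    rw [h0] at h3
    simp only [hK] at h3
    linarith

end Crest.Agent.R215
end

-- ▼ part R215/NumNodes
section

/-!
# Row 215: certified values of the normal density and distribution function at some points
(generated)
-/

set_option autoImplicit false

open Crest.Agent.Lib.Ehrhard

namespace Crest.Agent.R215.Num

lemma Phi_hi_1_695 : Phi (-1.695) ≤ 0.045039 := by
  have h := Phi_neg_le (n := 9) (by decide) (x := 1.695) (by norm_num)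
  have h2 : (1.14042059 : ℝ) ≤ phiT 9 1.695 := by
    norm_num [phiT, Finset.sum_range_succ, Nat.factorial]
  have h3 := c0_gt
  nlinarith [mul_le_mul h3.le h2 (by norm_num) c0_pos.le]

lemma Phi_lo_1_695 : 0.045037 ≤ Phi (-1.695) := by
  have h := le_Phi_neg (n := 10) (by decide) (x := 1.695) (by norm_num)
  have h2 : phiT 10 1.695 ≤ (1.14042143 : ℝ) := by
    norm_num [phiT, Finset.sum_range_succ, Nat.factorial]
  have h3 := c0_lt
  have h4 : c0 * phiT 10 1.695 ≤ 0.3989423 * 1.14042143 := by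
    refine (mul_le_mul_of_nonneg_left h2 c0_pos.le).trans ?_
    exact mul_le_mul_of_nonneg_right h3.le (by norm_num)
  norm_num at h4 h ⊢
  linarith

lemma phi_hi_1_695 : phi (-1.695) ≤ 0.094852 := by
  rw [phi_eq_c0]
  have e : ((-1.695 : ℝ)) ^ 2 / 2 = 1.695 ^ 2 / 2 := by norm_num
  rw [e]
  have h := exp_le_expT (n := 10) (by decide) (u := 1.695 ^ 2 / 2) (by norm_num)
  have h2 : expT 10 (1.695 ^ 2 / 2) ≤ (0.23775669 : ℝ) := by
    norm_num [expT, Finset.sum_range_succ, Nat.factorial]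
  have h3 := c0_lt
  have h5 := h.trans h2
  have h4 : c0 * Real.exp (-(1.695 ^ 2 / 2)) ≤ 0.3989423 * 0.23775669 := by
    refine (mul_le_mul_of_nonneg_left h5 c0_pos.le).trans ?_
    exact mul_le_mul_of_nonneg_right h3.le (by norm_num)
  refine h4.trans ?_
  norm_num


lemma Phi_hi_1_405 : Phi (-1.405) ≤ 0.080011 := by
  have h := Phi_neg_le (n := 9) (by decide) (x := 1.405) (by norm_num)
  have h2 : (1.05275719 : ℝ) ≤ phiT 9 1.405 := by
    norm_num [phiT, Finset.sum_range_succ, Nat.factorial]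
  have h3 := c0_gt
  nlinarith [mul_le_mul h3.le h2 (by norm_num) c0_pos.le]

lemma Phi_lo_1_405 : 0.080010 ≤ Phi (-1.405) := by
  have h := le_Phi_neg (n := 8) (by decide) (x := 1.405) (by norm_num)
  have h2 : phiT 8 1.405 ≤ (1.05275738 : ℝ) := by
    norm_num [phiT, Finset.sum_range_succ, Nat.factorial]
  have h3 := c0_lt
  have h4 : c0 * phiT 8 1.405 ≤ 0.3989423 * 1.05275738 := by
    refine (mul_le_mul_of_nonneg_left h2 c0_pos.le).trans ?_
    exact mul_le_mul_of_nonneg_right h3.le (by norm_num)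
  norm_num at h4 h ⊢
  linarith

lemma phi_hi_1_405 : phi (-1.405) ≤ 0.148682 := by
  rw [phi_eq_c0]
  have e : ((-1.405 : ℝ)) ^ 2 / 2 = 1.405 ^ 2 / 2 := by norm_num
  rw [e]
  have h := exp_le_expT (n := 10) (by decide) (u := 1.405 ^ 2 / 2) (by norm_num)
  have h2 : expT 10 (1.405 ^ 2 / 2) ≤ (0.37268846 : ℝ) := by
    norm_num [expT, Finset.sum_range_succ, Nat.factorial]
  have h3 := c0_lt
  have h5 := h.trans h2
  have h4 : c0 * Real.exp (-(1.405 ^ 2 / 2)) ≤ 0.3989423 * 0.37268846 := by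
    refine (mul_le_mul_of_nonneg_left h5 c0_pos.le).trans ?_
    exact mul_le_mul_of_nonneg_right h3.le (by norm_num)
  refine h4.trans ?_
  norm_num


lemma Phi_hi_1_175 : Phi (-1.175) ≤ 0.119998 := by
  have h := Phi_neg_le (n := 7) (by decide) (x := 1.175) (by norm_num)
  have h2 : (0.95252528 : ℝ) ≤ phiT 7 1.175 := by
    norm_num [phiT, Finset.sum_range_succ, Nat.factorial]
  have h3 := c0_gt
  nlinarith [mul_le_mul h3.le h2 (by norm_num) c0_pos.le]

lemma Phi_lo_1_175 : 0.119996 ≤ Phi (-1.175) := by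
  have h := le_Phi_neg (n := 6) (by decide) (x := 1.175) (by norm_num)
  have h2 : phiT 6 1.175 ≤ (0.95252645 : ℝ) := by
    norm_num [phiT, Finset.sum_range_succ, Nat.factorial]
  have h3 := c0_lt
  have h4 : c0 * phiT 6 1.175 ≤ 0.3989423 * 0.95252645 := by
    refine (mul_le_mul_of_nonneg_left h2 c0_pos.le).trans ?_
    exact mul_le_mul_of_nonneg_right h3.le (by norm_num)
  norm_num at h4 h ⊢
  linarith

lemma phi_hi_1_175 : phi (-1.175) ≤ 0.200038 := by
  rw [phi_eq_c0]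
  have e : ((-1.175 : ℝ)) ^ 2 / 2 = 1.175 ^ 2 / 2 := by norm_num
  rw [e]
  have h := exp_le_expT (n := 8) (by decide) (u := 1.175 ^ 2 / 2) (by norm_num)
  have h2 : expT 8 (1.175 ^ 2 / 2) ≤ (0.50141945 : ℝ) := by
    norm_num [expT, Finset.sum_range_succ, Nat.factorial]
  have h3 := c0_lt
  have h5 := h.trans h2
  have h4 : c0 * Real.exp (-(1.175 ^ 2 / 2)) ≤ 0.3989423 * 0.50141945 := by
    refine (mul_le_mul_of_nonneg_left h5 c0_pos.le).trans ?_
    exact mul_le_mul_of_nonneg_right h3.le (by norm_num)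
  refine h4.trans ?_
  norm_num


lemma Phi_hi_1_036 : Phi (-1.036) ≤ 0.150102 := by
  have h := Phi_neg_le (n := 7) (by decide) (x := 1.036) (by norm_num)
  have h2 : (0.87706653 : ℝ) ≤ phiT 7 1.036 := by
    norm_num [phiT, Finset.sum_range_succ, Nat.factorial]
  have h3 := c0_gt
  nlinarith [mul_le_mul h3.le h2 (by norm_num) c0_pos.le]

lemma Phi_lo_1_036 : 0.150100 ≤ Phi (-1.036) := by
  have h := le_Phi_neg (n := 6) (by decide) (x := 1.036) (by norm_num)
  have h2 : phiT 6 1.036 ≤ (0.87706672 : ℝ) := by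
    norm_num [phiT, Finset.sum_range_succ, Nat.factorial]
  have h3 := c0_lt
  have h4 : c0 * phiT 6 1.036 ≤ 0.3989423 * 0.87706672 := by
    refine (mul_le_mul_of_nonneg_left h2 c0_pos.le).trans ?_
    exact mul_le_mul_of_nonneg_right h3.le (by norm_num)
  norm_num at h4 h ⊢
  linarith

lemma phi_hi_1_036 : phi (-1.036) ≤ 0.233264 := by
  rw [phi_eq_c0]
  have e : ((-1.036 : ℝ)) ^ 2 / 2 = 1.036 ^ 2 / 2 := by norm_num
  rw [e]
  have h := exp_le_expT (n := 8) (by decide) (u := 1.036 ^ 2 / 2) (by norm_num)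
  have h2 : expT 8 (1.036 ^ 2 / 2) ≤ (0.58470492 : ℝ) := by
    norm_num [expT, Finset.sum_range_succ, Nat.factorial]
  have h3 := c0_lt
  have h5 := h.trans h2
  have h4 : c0 * Real.exp (-(1.036 ^ 2 / 2)) ≤ 0.3989423 * 0.58470492 := by
    refine (mul_le_mul_of_nonneg_left h5 c0_pos.le).trans ?_
    exact mul_le_mul_of_nonneg_right h3.le (by norm_num)
  refine h4.trans ?_
  norm_num


lemma Phi_hi_0_915 : Phi (-0.915) ≤ 0.180097 := by
  have h := Phi_neg_le (n := 5) (by decide) (x := 0.915) (by norm_num)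
  have h2 : (0.80188037 : ℝ) ≤ phiT 5 0.915 := by
    norm_num [phiT, Finset.sum_range_succ, Nat.factorial]
  have h3 := c0_gt
  nlinarith [mul_le_mul h3.le h2 (by norm_num) c0_pos.le]

lemma Phi_lo_0_915 : 0.180095 ≤ Phi (-0.915) := by
  have h := le_Phi_neg (n := 6) (by decide) (x := 0.915) (by norm_num)
  have h2 : phiT 6 0.915 ≤ (0.80188091 : ℝ) := by
    norm_num [phiT, Finset.sum_range_succ, Nat.factorial]
  have h3 := c0_lt
  have h4 : c0 * phiT 6 0.915 ≤ 0.3989423 * 0.80188091 := by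
    refine (mul_le_mul_of_nonneg_left h2 c0_pos.le).trans ?_
    exact mul_le_mul_of_nonneg_right h3.le (by norm_num)
  norm_num at h4 h ⊢
  linarith

lemma phi_hi_0_915 : phi (-0.915) ≤ 0.262488 := by
  rw [phi_eq_c0]
  have e : ((-0.915 : ℝ)) ^ 2 / 2 = 0.915 ^ 2 / 2 := by norm_num
  rw [e]
  have h := exp_le_expT (n := 6) (by decide) (u := 0.915 ^ 2 / 2) (by norm_num)
  have h2 : expT 6 (0.915 ^ 2 / 2) ≤ (0.65795953 : ℝ) := by
    norm_num [expT, Finset.sum_range_succ, Nat.factorial]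
  have h3 := c0_lt
  have h5 := h.trans h2
  have h4 : c0 * Real.exp (-(0.915 ^ 2 / 2)) ≤ 0.3989423 * 0.65795953 := by
    refine (mul_le_mul_of_nonneg_left h5 c0_pos.le).trans ?_
    exact mul_le_mul_of_nonneg_right h3.le (by norm_num)
  refine h4.trans ?_
  norm_num


lemma Phi_hi_0_878 : Phi (-0.878) ≤ 0.189973 := by
  have h := Phi_neg_le (n := 5) (by decide) (x := 0.878) (by norm_num)
  have h2 : (0.77712500 : ℝ) ≤ phiT 5 0.878 := by
    norm_num [phiT, Finset.sum_range_succ, Nat.factorial]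
  have h3 := c0_gt
  nlinarith [mul_le_mul h3.le h2 (by norm_num) c0_pos.le]

lemma Phi_lo_0_878 : 0.189971 ≤ Phi (-0.878) := by
  have h := le_Phi_neg (n := 6) (by decide) (x := 0.878) (by norm_num)
  have h2 : phiT 6 0.878 ≤ (0.77712532 : ℝ) := by
    norm_num [phiT, Finset.sum_range_succ, Nat.factorial]
  have h3 := c0_lt
  have h4 : c0 * phiT 6 0.878 ≤ 0.3989423 * 0.77712532 := by
    refine (mul_le_mul_of_nonneg_left h2 c0_pos.le).trans ?_
    exact mul_le_mul_of_nonneg_right h3.le (by norm_num)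
  norm_num at h4 h ⊢
  linarith

lemma phi_hi_0_878 : phi (-0.878) ≤ 0.271341 := by
  rw [phi_eq_c0]
  have e : ((-0.878 : ℝ)) ^ 2 / 2 = 0.878 ^ 2 / 2 := by norm_num
  rw [e]
  have h := exp_le_expT (n := 6) (by decide) (u := 0.878 ^ 2 / 2) (by norm_num)
  have h2 : expT 6 (0.878 ^ 2 / 2) ≤ (0.68015019 : ℝ) := by
    norm_num [expT, Finset.sum_range_succ, Nat.factorial]
  have h3 := c0_lt
  have h5 := h.trans h2
  have h4 : c0 * Real.exp (-(0.878 ^ 2 / 2)) ≤ 0.3989423 * 0.68015019 := by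
    refine (mul_le_mul_of_nonneg_left h5 c0_pos.le).trans ?_
    exact mul_le_mul_of_nonneg_right h3.le (by norm_num)
  refine h4.trans ?_
  norm_num


lemma Phi_hi_0_842 : Phi (-0.842) ≤ 0.199895 := by
  have h := Phi_neg_le (n := 5) (by decide) (x := 0.842) (by norm_num)
  have h2 : (0.75225407 : ℝ) ≤ phiT 5 0.842 := by
    norm_num [phiT, Finset.sum_range_succ, Nat.factorial]
  have h3 := c0_gt
  nlinarith [mul_le_mul h3.le h2 (by norm_num) c0_pos.le]

lemma Phi_lo_0_842 : 0.199893 ≤ Phi (-0.842) := by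
  have h := le_Phi_neg (n := 6) (by decide) (x := 0.842) (by norm_num)
  have h2 : phiT 6 0.842 ≤ (0.75225426 : ℝ) := by
    norm_num [phiT, Finset.sum_range_succ, Nat.factorial]
  have h3 := c0_lt
  have h4 : c0 * phiT 6 0.842 ≤ 0.3989423 * 0.75225426 := by
    refine (mul_le_mul_of_nonneg_left h2 c0_pos.le).trans ?_
    exact mul_le_mul_of_nonneg_right h3.le (by norm_num)
  norm_num at h4 h ⊢
  linarith

lemma phi_hi_0_842 : phi (-0.842) ≤ 0.279873 := by
  rw [phi_eq_c0]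
  have e : ((-0.842 : ℝ)) ^ 2 / 2 = 0.842 ^ 2 / 2 := by norm_num
  rw [e]
  have h := exp_le_expT (n := 6) (by decide) (u := 0.842 ^ 2 / 2) (by norm_num)
  have h2 : expT 6 (0.842 ^ 2 / 2) ≤ (0.70153688 : ℝ) := by
    norm_num [expT, Finset.sum_range_succ, Nat.factorial]
  have h3 := c0_lt
  have h5 := h.trans h2
  have h4 : c0 * Real.exp (-(0.842 ^ 2 / 2)) ≤ 0.3989423 * 0.70153688 := by
    refine (mul_le_mul_of_nonneg_left h5 c0_pos.le).trans ?_
    exact mul_le_mul_of_nonneg_right h3.le (by norm_num)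
  refine h4.trans ?_
  norm_num


lemma Phi_hi_0_675 : Phi (-0.675) ≤ 0.249838 := by
  have h := Phi_neg_le (n := 5) (by decide) (x := 0.675) (by norm_num)
  have h2 : (0.62706342 : ℝ) ≤ phiT 5 0.675 := by
    norm_num [phiT, Finset.sum_range_succ, Nat.factorial]
  have h3 := c0_gt
  nlinarith [mul_le_mul h3.le h2 (by norm_num) c0_pos.le]

lemma Phi_lo_0_675 : 0.249837 ≤ Phi (-0.675) := by
  have h := le_Phi_neg (n := 4) (by decide) (x := 0.675) (by norm_num)
  have h2 : phiT 4 0.675 ≤ (0.62706375 : ℝ) := by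
    norm_num [phiT, Finset.sum_range_succ, Nat.factorial]
  have h3 := c0_lt
  have h4 : c0 * phiT 4 0.675 ≤ 0.3989423 * 0.62706375 := by
    refine (mul_le_mul_of_nonneg_left h2 c0_pos.le).trans ?_
    exact mul_le_mul_of_nonneg_right h3.le (by norm_num)
  norm_num at h4 h ⊢
  linarith

lemma phi_hi_0_675 : phi (-0.675) ≤ 0.317668 := by
  rw [phi_eq_c0]
  have e : ((-0.675 : ℝ)) ^ 2 / 2 = 0.675 ^ 2 / 2 := by norm_num
  rw [e]
  have h := exp_le_expT (n := 6) (by decide) (u := 0.675 ^ 2 / 2) (by norm_num)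
  have h2 : expT 6 (0.675 ^ 2 / 2) ≤ (0.79627356 : ℝ) := by
    norm_num [expT, Finset.sum_range_succ, Nat.factorial]
  have h3 := c0_lt
  have h5 := h.trans h2
  have h4 : c0 * Real.exp (-(0.675 ^ 2 / 2)) ≤ 0.3989423 * 0.79627356 := by
    refine (mul_le_mul_of_nonneg_left h5 c0_pos.le).trans ?_
    exact mul_le_mul_of_nonneg_right h3.le (by norm_num)
  refine h4.trans ?_
  norm_num


lemma Phi_hi_0_517 : Phi (-0.517) ≤ 0.302579 := by
  have h := Phi_neg_le (n := 3) (by decide) (x := 0.517) (by norm_num)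
  have h2 : (0.49486262 : ℝ) ≤ phiT 3 0.517 := by
    norm_num [phiT, Finset.sum_range_succ, Nat.factorial]
  have h3 := c0_gt
  nlinarith [mul_le_mul h3.le h2 (by norm_num) c0_pos.le]

lemma Phi_lo_0_517 : 0.302578 ≤ Phi (-0.517) := by
  have h := le_Phi_neg (n := 4) (by decide) (x := 0.517) (by norm_num)
  have h2 : phiT 4 0.517 ≤ (0.49486339 : ℝ) := by
    norm_num [phiT, Finset.sum_range_succ, Nat.factorial]
  have h3 := c0_lt
  have h4 : c0 * phiT 4 0.517 ≤ 0.3989423 * 0.49486339 := by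
    refine (mul_le_mul_of_nonneg_left h2 c0_pos.le).trans ?_
    exact mul_le_mul_of_nonneg_right h3.le (by norm_num)
  norm_num at h4 h ⊢
  linarith

lemma phi_hi_0_517 : phi (-0.517) ≤ 0.349036 := by
  rw [phi_eq_c0]
  have e : ((-0.517 : ℝ)) ^ 2 / 2 = 0.517 ^ 2 / 2 := by norm_num
  rw [e]
  have h := exp_le_expT (n := 4) (by decide) (u := 0.517 ^ 2 / 2) (by norm_num)
  have h2 : expT 4 (0.517 ^ 2 / 2) ≤ (0.87490139 : ℝ) := by
    norm_num [expT, Finset.sum_range_succ, Nat.factorial]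
  have h3 := c0_lt
  have h5 := h.trans h2
  have h4 : c0 * Real.exp (-(0.517 ^ 2 / 2)) ≤ 0.3989423 * 0.87490139 := by
    refine (mul_le_mul_of_nonneg_left h5 c0_pos.le).trans ?_
    exact mul_le_mul_of_nonneg_right h3.le (by norm_num)
  refine h4.trans ?_
  norm_num

lemma phi_lo_0_517 : 0.349034 ≤ phi (-0.517) := by
  rw [phi_eq_c0]
  have e : ((-0.517 : ℝ)) ^ 2 / 2 = 0.517 ^ 2 / 2 := by norm_num
  rw [e]
  have h := expT_le_exp (n := 5) (by decide) (u := 0.517 ^ 2 / 2) (by norm_num)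
  have h2 : (0.87490102 : ℝ) ≤ expT 5 (0.517 ^ 2 / 2) := by
    norm_num [expT, Finset.sum_range_succ, Nat.factorial]
  have h3 := c0_gt
  have h5 := h2.trans h
  refine le_trans ?_ (mul_le_mul h3.le h5 (by norm_num) c0_pos.le)
  norm_num

lemma Phi_hi_0_498 : Phi (-0.498) ≤ 0.309243 := by
  have h := Phi_neg_le (n := 3) (by decide) (x := 0.498) (by norm_num)
  have h2 : (0.47815880 : ℝ) ≤ phiT 3 0.498 := by
    norm_num [phiT, Finset.sum_range_succ, Nat.factorial]
  have h3 := c0_gt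
  nlinarith [mul_le_mul h3.le h2 (by norm_num) c0_pos.le]

lemma Phi_lo_0_498 : 0.309242 ≤ Phi (-0.498) := by
  have h := le_Phi_neg (n := 4) (by decide) (x := 0.498) (by norm_num)
  have h2 : phiT 4 0.498 ≤ (0.47815936 : ℝ) := by
    norm_num [phiT, Finset.sum_range_succ, Nat.factorial]
  have h3 := c0_lt
  have h4 : c0 * phiT 4 0.498 ≤ 0.3989423 * 0.47815936 := by
    refine (mul_le_mul_of_nonneg_left h2 c0_pos.le).trans ?_
    exact mul_le_mul_of_nonneg_right h3.le (by norm_num)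
  norm_num at h4 h ⊢
  linarith

lemma phi_hi_0_498 : phi (-0.498) ≤ 0.352417 := by
  rw [phi_eq_c0]
  have e : ((-0.498 : ℝ)) ^ 2 / 2 = 0.498 ^ 2 / 2 := by norm_num
  rw [e]
  have h := exp_le_expT (n := 4) (by decide) (u := 0.498 ^ 2 / 2) (by norm_num)
  have h2 : expT 4 (0.498 ^ 2 / 2) ≤ (0.88337832 : ℝ) := by
    norm_num [expT, Finset.sum_range_succ, Nat.factorial]
  have h3 := c0_lt
  have h5 := h.trans h2
  have h4 : c0 * Real.exp (-(0.498 ^ 2 / 2)) ≤ 0.3989423 * 0.88337832 := by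
    refine (mul_le_mul_of_nonneg_left h5 c0_pos.le).trans ?_
    exact mul_le_mul_of_nonneg_right h3.le (by norm_num)
  refine h4.trans ?_
  norm_num

lemma phi_lo_0_498 : 0.352416 ≤ phi (-0.498) := by
  rw [phi_eq_c0]
  have e : ((-0.498 : ℝ)) ^ 2 / 2 = 0.498 ^ 2 / 2 := by norm_num
  rw [e]
  have h := expT_le_exp (n := 5) (by decide) (u := 0.498 ^ 2 / 2) (by norm_num)
  have h2 : (0.88337806 : ℝ) ≤ expT 5 (0.498 ^ 2 / 2) := by
    norm_num [expT, Finset.sum_range_succ, Nat.factorial]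
  have h3 := c0_gt
  have h5 := h2.trans h
  refine le_trans ?_ (mul_le_mul h3.le h5 (by norm_num) c0_pos.le)
  norm_num

lemma Phi_hi_0_483 : Phi (-0.483) ≤ 0.314549 := by
  have h := Phi_neg_le (n := 3) (by decide) (x := 0.483) (by norm_num)
  have h2 : (0.46485915 : ℝ) ≤ phiT 3 0.483 := by
    norm_num [phiT, Finset.sum_range_succ, Nat.factorial]
  have h3 := c0_gt
  nlinarith [mul_le_mul h3.le h2 (by norm_num) c0_pos.le]

lemma Phi_lo_0_483 : 0.314547 ≤ Phi (-0.483) := by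
  have h := le_Phi_neg (n := 4) (by decide) (x := 0.483) (by norm_num)
  have h2 : phiT 4 0.483 ≤ (0.46485957 : ℝ) := by
    norm_num [phiT, Finset.sum_range_succ, Nat.factorial]
  have h3 := c0_lt
  have h4 : c0 * phiT 4 0.483 ≤ 0.3989423 * 0.46485957 := by
    refine (mul_le_mul_of_nonneg_left h2 c0_pos.le).trans ?_
    exact mul_le_mul_of_nonneg_right h3.le (by norm_num)
  norm_num at h4 h ⊢
  linarith

lemma phi_hi_0_483 : phi (-0.483) ≤ 0.355020 := by
  rw [phi_eq_c0]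
  have e : ((-0.483 : ℝ)) ^ 2 / 2 = 0.483 ^ 2 / 2 := by norm_num
  rw [e]
  have h := exp_le_expT (n := 4) (by decide) (u := 0.483 ^ 2 / 2) (by norm_num)
  have h2 : expT 4 (0.483 ^ 2 / 2) ≤ (0.88990168 : ℝ) := by
    norm_num [expT, Finset.sum_range_succ, Nat.factorial]
  have h3 := c0_lt
  have h5 := h.trans h2
  have h4 : c0 * Real.exp (-(0.483 ^ 2 / 2)) ≤ 0.3989423 * 0.88990168 := by
    refine (mul_le_mul_of_nonneg_left h5 c0_pos.le).trans ?_
    exact mul_le_mul_of_nonneg_right h3.le (by norm_num)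
  refine h4.trans ?_
  norm_num

lemma phi_lo_0_483 : 0.355019 ≤ phi (-0.483) := by
  rw [phi_eq_c0]
  have e : ((-0.483 : ℝ)) ^ 2 / 2 = 0.483 ^ 2 / 2 := by norm_num
  rw [e]
  have h := expT_le_exp (n := 5) (by decide) (u := 0.483 ^ 2 / 2) (by norm_num)
  have h2 : (0.88990149 : ℝ) ≤ expT 5 (0.483 ^ 2 / 2) := by
    norm_num [expT, Finset.sum_range_succ, Nat.factorial]
  have h3 := c0_gt
  have h5 := h2.trans h
  refine le_trans ?_ (mul_le_mul h3.le h5 (by norm_num) c0_pos.le)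
  norm_num

lemma Phi_hi_0_385 : Phi (-0.385) ≤ 0.350119 := by
  have h := Phi_neg_le (n := 3) (by decide) (x := 0.385) (by norm_num)
  have h2 : (0.37569663 : ℝ) ≤ phiT 3 0.385 := by
    norm_num [phiT, Finset.sum_range_succ, Nat.factorial]
  have h3 := c0_gt
  nlinarith [mul_le_mul h3.le h2 (by norm_num) c0_pos.le]

lemma Phi_lo_0_385 : 0.350118 ≤ Phi (-0.385) := by
  have h := le_Phi_neg (n := 4) (by decide) (x := 0.385) (by norm_num)
  have h2 : phiT 4 0.385 ≤ (0.37569669 : ℝ) := by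
    norm_num [phiT, Finset.sum_range_succ, Nat.factorial]
  have h3 := c0_lt
  have h4 : c0 * phiT 4 0.385 ≤ 0.3989423 * 0.37569669 := by
    refine (mul_le_mul_of_nonneg_left h2 c0_pos.le).trans ?_
    exact mul_le_mul_of_nonneg_right h3.le (by norm_num)
  norm_num at h4 h ⊢
  linarith

lemma phi_hi_0_385 : phi (-0.385) ≤ 0.370445 := by
  rw [phi_eq_c0]
  have e : ((-0.385 : ℝ)) ^ 2 / 2 = 0.385 ^ 2 / 2 := by norm_num
  rw [e]
  have h := exp_le_expT (n := 4) (by decide) (u := 0.385 ^ 2 / 2) (by norm_num)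
  have h2 : expT 4 (0.385 ^ 2 / 2) ≤ (0.92856725 : ℝ) := by
    norm_num [expT, Finset.sum_range_succ, Nat.factorial]
  have h3 := c0_lt
  have h5 := h.trans h2
  have h4 : c0 * Real.exp (-(0.385 ^ 2 / 2)) ≤ 0.3989423 * 0.92856725 := by
    refine (mul_le_mul_of_nonneg_left h5 c0_pos.le).trans ?_
    exact mul_le_mul_of_nonneg_right h3.le (by norm_num)
  refine h4.trans ?_
  norm_num

lemma phi_lo_0_385 : 0.370444 ≤ phi (-0.385) := by
  rw [phi_eq_c0]
  have e : ((-0.385 : ℝ)) ^ 2 / 2 = 0.385 ^ 2 / 2 := by norm_num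
  rw [e]
  have h := expT_le_exp (n := 3) (by decide) (u := 0.385 ^ 2 / 2) (by norm_num)
  have h2 : (0.92856598 : ℝ) ≤ expT 3 (0.385 ^ 2 / 2) := by
    norm_num [expT, Finset.sum_range_succ, Nat.factorial]
  have h3 := c0_gt
  have h5 := h2.trans h
  refine le_trans ?_ (mul_le_mul h3.le h5 (by norm_num) c0_pos.le)
  norm_num





lemma Phi_hi_0_368 : Phi (-0.368) ≤ 0.356437 := by
  have h := Phi_neg_le (n := 3) (by decide) (x := 0.368) (by norm_num)
  have h2 : (0.35985999 : ℝ) ≤ phiT 3 0.368 := by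
    norm_num [phiT, Finset.sum_range_succ, Nat.factorial]
  have h3 := c0_gt
  nlinarith [mul_le_mul h3.le h2 (by norm_num) c0_pos.le]

lemma Phi_lo_0_368 : 0.356436 ≤ Phi (-0.368) := by
  have h := le_Phi_neg (n := 4) (by decide) (x := 0.368) (by norm_num)
  have h2 : phiT 4 0.368 ≤ (0.35986004 : ℝ) := by
    norm_num [phiT, Finset.sum_range_succ, Nat.factorial]
  have h3 := c0_lt
  have h4 : c0 * phiT 4 0.368 ≤ 0.3989423 * 0.35986004 := by
    refine (mul_le_mul_of_nonneg_left h2 c0_pos.le).trans ?_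
    exact mul_le_mul_of_nonneg_right h3.le (by norm_num)
  norm_num at h4 h ⊢
  linarith

lemma phi_hi_0_368 : phi (-0.368) ≤ 0.372824 := by
  rw [phi_eq_c0]
  have e : ((-0.368 : ℝ)) ^ 2 / 2 = 0.368 ^ 2 / 2 := by norm_num
  rw [e]
  have h := exp_le_expT (n := 4) (by decide) (u := 0.368 ^ 2 / 2) (by norm_num)
  have h2 : expT 4 (0.368 ^ 2 / 2) ≤ (0.93452960 : ℝ) := by
    norm_num [expT, Finset.sum_range_succ, Nat.factorial]
  have h3 := c0_lt
  have h5 := h.trans h2
  have h4 : c0 * Real.exp (-(0.368 ^ 2 / 2)) ≤ 0.3989423 * 0.93452960 := by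
    refine (mul_le_mul_of_nonneg_left h5 c0_pos.le).trans ?_
    exact mul_le_mul_of_nonneg_right h3.le (by norm_num)
  refine h4.trans ?_
  norm_num

lemma phi_lo_0_368 : 0.372822 ≤ phi (-0.368) := by
  rw [phi_eq_c0]
  have e : ((-0.368 : ℝ)) ^ 2 / 2 = 0.368 ^ 2 / 2 := by norm_num
  rw [e]
  have h := expT_le_exp (n := 3) (by decide) (u := 0.368 ^ 2 / 2) (by norm_num)
  have h2 : (0.93452871 : ℝ) ≤ expT 3 (0.368 ^ 2 / 2) := by
    norm_num [expT, Finset.sum_range_succ, Nat.factorial]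
  have h3 := c0_gt
  have h5 := h2.trans h
  refine le_trans ?_ (mul_le_mul h3.le h5 (by norm_num) c0_pos.le)
  norm_num

lemma Phi_hi_0_25 : Phi (-0.25) ≤ 0.401294 := by
  have h := Phi_neg_le (n := 3) (by decide) (x := 0.25) (by norm_num)
  have h2 : (0.24742006 : ℝ) ≤ phiT 3 0.25 := by
    norm_num [phiT, Finset.sum_range_succ, Nat.factorial]
  have h3 := c0_gt
  nlinarith [mul_le_mul h3.le h2 (by norm_num) c0_pos.le]

lemma Phi_lo_0_25 : 0.401293 ≤ Phi (-0.25) := by
  have h := le_Phi_neg (n := 2) (by decide) (x := 0.25) (by norm_num)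
  have h2 : phiT 2 0.25 ≤ (0.24742025 : ℝ) := by
    norm_num [phiT, Finset.sum_range_succ, Nat.factorial]
  have h3 := c0_lt
  have h4 : c0 * phiT 2 0.25 ≤ 0.3989423 * 0.24742025 := by
    refine (mul_le_mul_of_nonneg_left h2 c0_pos.le).trans ?_
    exact mul_le_mul_of_nonneg_right h3.le (by norm_num)
  norm_num at h4 h ⊢
  linarith

lemma phi_hi_0_25 : phi (-0.25) ≤ 0.386669 := by
  rw [phi_eq_c0]
  have e : ((-0.25 : ℝ)) ^ 2 / 2 = 0.25 ^ 2 / 2 := by norm_num
  rw [e]
  have h := exp_le_expT (n := 4) (by decide) (u := 0.25 ^ 2 / 2) (by norm_num)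
  have h2 : expT 4 (0.25 ^ 2 / 2) ≤ (0.96923324 : ℝ) := by
    norm_num [expT, Finset.sum_range_succ, Nat.factorial]
  have h3 := c0_lt
  have h5 := h.trans h2
  have h4 : c0 * Real.exp (-(0.25 ^ 2 / 2)) ≤ 0.3989423 * 0.96923324 := by
    refine (mul_le_mul_of_nonneg_left h5 c0_pos.le).trans ?_
    exact mul_le_mul_of_nonneg_right h3.le (by norm_num)
  refine h4.trans ?_
  norm_num

lemma phi_lo_0_25 : 0.386668 ≤ phi (-0.25) := by
  rw [phi_eq_c0]
  have e : ((-0.25 : ℝ)) ^ 2 / 2 = 0.25 ^ 2 / 2 := by norm_num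
  rw [e]
  have h := expT_le_exp (n := 3) (by decide) (u := 0.25 ^ 2 / 2) (by norm_num)
  have h2 : (0.96923319 : ℝ) ≤ expT 3 (0.25 ^ 2 / 2) := by
    norm_num [expT, Finset.sum_range_succ, Nat.factorial]
  have h3 := c0_gt
  have h5 := h2.trans h
  refine le_trans ?_ (mul_le_mul h3.le h5 (by norm_num) c0_pos.le)
  norm_num

end Crest.Agent.R215.Num
end

-- ▼ part R215/EnergyCore

/-!
# Row 215: linear energy facts for the cells of a critical configuration

* `Cell η p R`: `R ≤ I(p)²` and `χ(p) ≤ 1/8 → R ≤ 2χ(p) - η χ(p)²`; `Crit.cell`.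
* chords of `χ` between certified nodes, tangents of `I²` (numeric).
* `three_big`: at least three cells have `p > Φ(-0.915) = 0.1801`.
(partly generated)
-/

set_option autoImplicit false

open MeasureTheory ProbabilityTheory Set Filter Topology
open Crest.Agent.Lib.Ehrhard

namespace Crest.Agent.R215

open Num

lemma cC_gt : 0.358098 < cC := by
  unfold cC
  rw [lt_div_iff₀ (by positivity)]
  have := Real.pi_lt_d6
  norm_num at this ⊢
  linarith

lemma cC_lt : cC < 0.358099 := by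
  unfold cC
  rw [div_lt_iff₀ (by positivity)]
  have := Real.pi_gt_d6
  norm_num at this ⊢
  linarith

/-- energy facts for one cell: measure `p`, `R = ‖z‖²` -/
structure Cell (η p R : ℝ) : Prop where
  pos : 0 < p
  le_half : p ≤ 1 / 2
  nonneg : 0 ≤ R
  e1 : R ≤ phi (Psi p) ^ 2
  e2 : chi p ≤ 1 / 8 → R ≤ 2 * chi p - η * chi p ^ 2

/-- the energy inequality in real variables -/
lemma e2_aux {C V θ R χ η : ℝ} (hC : 0.358 ≤ C) (hV : C ≤ V) (hθ : 1 ≤ θ) (hθ' : θ ≤ 4 / 3)
    (hχ : χ ≤ 1 / 8) (hη : η * C ≤ θ)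
    (h : V - √C * √(V - θ * R) ≤ θ * χ) : R ≤ 2 * χ - η * χ ^ 2 := by
  have hCp : 0 < C := by linarith
  have h1 : θ * χ ≤ 1 / 6 := by nlinarith
  have h2 : V - θ * χ ≤ √C * √(V - θ * R) := by linarith
  have h3 : 0 < V - θ * χ := by linarith
  have h4 : 0 < V - θ * R := by
    by_contra hcon
    rw [Real.sqrt_eq_zero_of_nonpos (not_lt.1 hcon), mul_zero] at h2
    linarith
  have h5 : (V - θ * χ) ^ 2 ≤ C * (V - θ * R) := by
    calc (V - θ * χ) ^ 2 ≤ (√C * √(V - θ * R)) ^ 2 := by gcongr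
      _ = C * (V - θ * R) := by
        rw [mul_pow, Real.sq_sqrt hCp.le, Real.sq_sqrt h4.le]
  have h6 : θ * (C * R) ≤ θ * (2 * χ * C - θ * χ ^ 2) := by nlinarith
  have h7 : C * R ≤ 2 * χ * C - θ * χ ^ 2 := le_of_mul_le_mul_left h6 (by linarith)
  have h8 : C * R ≤ C * (2 * χ - η * χ ^ 2) := by nlinarith [mul_le_mul_of_nonneg_right hη (sq_nonneg χ)]
  exact le_of_mul_le_mul_left h8 hCp

section crit

variable {E : Type*} [NormedAddCommGroup E] [InnerProductSpace ℝ E] [FiniteDimensional ℝ E]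
  [MeasurableSpace E] [BorelSpace E]
variable {ι : Type*} [Fintype ι] [DecidableEq ι]

theorem Crit.cell_facts (c : Crit E ι) (hk : 4 ≤ Fintype.card ι) {η : ℝ}
    (hη : η * cC ≤ 1 + ((Fintype.card ι : ℝ) - 1)⁻¹) (i : ι) :
    Cell η (c.p i) (‖c.z i‖ ^ 2) := by
  have hk2 : 2 ≤ Fintype.card ι := by omega
  have hkr : (4:ℝ) ≤ Fintype.card ι := by exact_mod_cast hk
  have hp0 := c.p_pos hk2 i
  have hp1 := c.p_le_half hk2 i
  refine ⟨hp0, hp1, by positivity, ?_, ?_⟩
  · have := c.norm_z_le hk2 i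
    gcongr
  · intro hχ
    have h1 := c.gain_le hk2 i
    have h2 := c.gain_ge hk2 i
    set k : ℝ := ((Fintype.card ι : ℕ) : ℝ) with hkdef
    set θ : ℝ := 1 + (k - 1)⁻¹ with hθ
    have hk1 : 0 < k - 1 := by linarith
    have hθ1 : 1 ≤ θ := by have : 0 < (k - 1)⁻¹ := by positivity
                           linarith
    have hθ2 : θ ≤ 4 / 3 := by
      have : (k - 1)⁻¹ ≤ (3:ℝ)⁻¹ := by
        gcongr
        linarith
      have h3 : (3:ℝ)⁻¹ = 1 / 3 := by norm_num
      linarith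
    have hθk : θ * (1 - k⁻¹) = 1 := by
      rw [hθ]
      field_simp
      ring
    refine e2_aux (C := cC) (V := c.V) (θ := θ) (by have := cC_gt; linarith) c.V_gt.le hθ1 hθ2
      hχ hη ?_
    refine h2.trans ?_
    have h5 : θ * ((1 - k⁻¹) * (c.V - F (fun j : {j // j ≠ i} => c.z j))) ≤ θ * chi (c.p i) :=
      mul_le_mul_of_nonneg_left h1 (by linarith)
    rw [← mul_assoc, hθk, one_mul] at h5
    exact h5

end crit

lemma chi_node {x fhi Plo : ℝ} (hx : 0 ≤ x) (hf : phi (-x) ≤ fhi) (hP : Plo ≤ Phi (-x)) :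
    phi (-x) * (-x * Phi (-x) + phi (-x)) ≤ fhi * (fhi - x * Plo) := by
  have h1 : 0 ≤ -x * Phi (-x) + phi (-x) := W_nonneg (-x)
  have h2 : -x * Phi (-x) + phi (-x) ≤ fhi - x * Plo := by nlinarith
  have h3 := phi_nonneg (-x)
  exact mul_le_mul hf h2 h1 (h3.trans hf)

lemma Phi_one_ge : (0.158 : ℝ) ≤ Phi (-1) := by
  have h := le_Phi_neg (n := 6) (by decide) (x := 1) (by norm_num)
  have h2 : phiT 6 1 ≤ (0.8557 : ℝ) := by
    norm_num [phiT, Finset.sum_range_succ, Nat.factorial]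
  have h3 := c0_lt
  have h4 : c0 * phiT 6 1 ≤ 0.3989423 * 0.8557 := by
    refine (mul_le_mul_of_nonneg_left h2 c0_pos.le).trans ?_
    exact mul_le_mul_of_nonneg_right h3.le (by norm_num)
  norm_num at h4 h ⊢
  linarith

lemma Phi_one_le : Phi (-1) ≤ 0.159 := by
  have h := Phi_neg_le (n := 7) (by decide) (x := 1) (by norm_num)
  have h2 : (0.8556 : ℝ) ≤ phiT 7 1 := by
    norm_num [phiT, Finset.sum_range_succ, Nat.factorial]
  have h3 := c0_gt
  nlinarith [mul_le_mul h3.le h2 (by norm_num) c0_pos.le]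

lemma phi_sq_tangent_p {b0 p : ℝ} (h1 : Phi (-1) ≤ p) (h2 : p ≤ 1 / 2) (hb0 : -1 ≤ b0)
    (hb0' : b0 ≤ 1) :
    phi (Psi p) ^ 2 ≤ phi b0 ^ 2 - 2 * b0 * phi b0 * (p - Phi b0) := by
  have hp0 : 0 < p := (Phi_pos _).trans_le h1
  have hp1 : p < 1 := by linarith
  have e : Phi (Psi p) = p := Phi_Psi hp0 hp1
  have h3 : -1 ≤ Psi p := (le_Psi_iff hp0 hp1).2 h1
  have h4 : Psi p ≤ 0 := (Psi_le_iff hp0 hp1).2 (by rw [Phi_zero]; exact h2)
  have := phi_sq_le_tangent h3 (by linarith) hb0 hb0'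
  rw [e] at this
  exact this

/-- chord of `chi` on `[Φ(-1.695), Φ(-1.405)]` (p = 0.04504 .. 0.08001) -/
lemma chord_1_695_1_405 {p : ℝ} (h1 : Phi (-1.695) ≤ p) (h2 : p ≤ Phi (-1.405)) :
    chi p ≤ 0.10397 * p + (-0.002926) := by
  refine chi_le_of_chord (b1 := -1.695) (b2 := -1.405) (by norm_num) ?_ ?_ h1 h2
  · refine (chi_node (by norm_num) phi_hi_1_695 Phi_lo_1_695).trans ?_
    have := Phi_lo_1_695
    norm_num at this ⊢
    linarith
  · refine (chi_node (by norm_num) phi_hi_1_405 Phi_lo_1_405).trans ?_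
    have := Phi_lo_1_405
    norm_num at this ⊢
    linarith

/-- chord of `chi` on `[Φ(-1.405), Φ(-1.175)]` (p = 0.08001 .. 0.12000) -/
lemma chord_1_405_1_175 {p : ℝ} (h1 : Phi (-1.405) ≤ p) (h2 : p ≤ Phi (-1.175)) :
    chi p ≤ 0.16052 * p + (-0.007450) := by
  refine chi_le_of_chord (b1 := -1.405) (b2 := -1.175) (by norm_num) ?_ ?_ h1 h2
  · refine (chi_node (by norm_num) phi_hi_1_405 Phi_lo_1_405).trans ?_
    have := Phi_lo_1_405
    norm_num at this ⊢
    linarith
  · refine (chi_node (by norm_num) phi_hi_1_175 Phi_lo_1_175).trans ?_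
    have := Phi_lo_1_175
    norm_num at this ⊢
    linarith

/-- chord of `chi` on `[Φ(-1.175), Φ(-1.036)]` (p = 0.12000 .. 0.15010) -/
lemma chord_1_175_1_036 {p : ℝ} (h1 : Phi (-1.175) ≤ p) (h2 : p ≤ Phi (-1.036)) :
    chi p ≤ 0.21020 * p + (-0.013412) := by
  refine chi_le_of_chord (b1 := -1.175) (b2 := -1.036) (by norm_num) ?_ ?_ h1 h2
  · refine (chi_node (by norm_num) phi_hi_1_175 Phi_lo_1_175).trans ?_
    have := Phi_lo_1_175
    norm_num at this ⊢
    linarith
  · refine (chi_node (by norm_num) phi_hi_1_036 Phi_lo_1_036).trans ?_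
    have := Phi_lo_1_036
    norm_num at this ⊢
    linarith

/-- chord of `chi` on `[Φ(-1.036), Φ(-0.915)]` (p = 0.15010 .. 0.18010) -/
lemma chord_1_036_0_915 {p : ℝ} (h1 : Phi (-1.036) ≤ p) (h2 : p ≤ Phi (-0.915)) :
    chi p ≤ 0.25026 * p + (-0.019425) := by
  refine chi_le_of_chord (b1 := -1.036) (b2 := -0.915) (by norm_num) ?_ ?_ h1 h2
  · refine (chi_node (by norm_num) phi_hi_1_036 Phi_lo_1_036).trans ?_
    have := Phi_lo_1_036
    norm_num at this ⊢
    linarith
  · refine (chi_node (by norm_num) phi_hi_0_915 Phi_lo_0_915).trans ?_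
    have := Phi_lo_0_915
    norm_num at this ⊢
    linarith

/-- chord of `chi` on `[Φ(-0.915), Φ(-0.842)]` (p = 0.18010 .. 0.19989) -/
lemma chord_0_915_0_842 {p : ℝ} (h1 : Phi (-0.915) ≤ p) (h2 : p ≤ Phi (-0.842)) :
    chi p ≤ 0.28175 * p + (-0.025096) := by
  refine chi_le_of_chord (b1 := -0.915) (b2 := -0.842) (by norm_num) ?_ ?_ h1 h2
  · refine (chi_node (by norm_num) phi_hi_0_915 Phi_lo_0_915).trans ?_
    have := Phi_lo_0_915
    norm_num at this ⊢
    linarith
  · refine (chi_node (by norm_num) phi_hi_0_842 Phi_lo_0_842).trans ?_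
    have := Phi_lo_0_842
    norm_num at this ⊢
    linarith

/-- chord of `chi` on `[Φ(-0.842), Φ(-0.675)]` (p = 0.19989 .. 0.24984) -/
lemma chord_0_842_0_675 {p : ℝ} (h1 : Phi (-0.842) ≤ p) (h2 : p ≤ Phi (-0.675)) :
    chi p ≤ 0.32272 * p + (-0.033285) := by
  refine chi_le_of_chord (b1 := -0.842) (b2 := -0.675) (by norm_num) ?_ ?_ h1 h2
  · refine (chi_node (by norm_num) phi_hi_0_842 Phi_lo_0_842).trans ?_
    have := Phi_lo_0_842
    norm_num at this ⊢
    linarith
  · refine (chi_node (by norm_num) phi_hi_0_675 Phi_lo_0_675).trans ?_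
    have := Phi_lo_0_675
    norm_num at this ⊢
    linarith

/-- chord of `chi` on `[Φ(-0.675), Φ(-0.517)]` (p = 0.24984 .. 0.30258) -/
lemma chord_0_675_0_517 {p : ℝ} (h1 : Phi (-0.675) ≤ p) (h2 : p ≤ Phi (-0.517)) :
    chi p ≤ 0.37701 * p + (-0.046849) := by
  refine chi_le_of_chord (b1 := -0.675) (b2 := -0.517) (by norm_num) ?_ ?_ h1 h2
  · refine (chi_node (by norm_num) phi_hi_0_675 Phi_lo_0_675).trans ?_
    have := Phi_lo_0_675
    norm_num at this ⊢
    linarith
  · refine (chi_node (by norm_num) phi_hi_0_517 Phi_lo_0_517).trans ?_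
    have := Phi_lo_0_517
    norm_num at this ⊢
    linarith

/-- chord of `chi` on `[Φ(-0.675), Φ(-0.498)]` (p = 0.24984 .. 0.30924) -/
lemma chord_0_675_0_498 {p : ℝ} (h1 : Phi (-0.675) ≤ p) (h2 : p ≤ Phi (-0.498)) :
    chi p ≤ 0.38016 * p + (-0.047636) := by
  refine chi_le_of_chord (b1 := -0.675) (b2 := -0.498) (by norm_num) ?_ ?_ h1 h2
  · refine (chi_node (by norm_num) phi_hi_0_675 Phi_lo_0_675).trans ?_
    have := Phi_lo_0_675
    norm_num at this ⊢
    linarith
  · refine (chi_node (by norm_num) phi_hi_0_498 Phi_lo_0_498).trans ?_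
    have := Phi_lo_0_498
    norm_num at this ⊢
    linarith

/-- chord of `chi` on `[Φ(-0.675), Φ(-0.483)]` (p = 0.24984 .. 0.31455) -/
lemma chord_0_675_0_483 {p : ℝ} (h1 : Phi (-0.675) ≤ p) (h2 : p ≤ Phi (-0.483)) :
    chi p ≤ 0.38264 * p + (-0.048255) := by
  refine chi_le_of_chord (b1 := -0.675) (b2 := -0.483) (by norm_num) ?_ ?_ h1 h2
  · refine (chi_node (by norm_num) phi_hi_0_675 Phi_lo_0_675).trans ?_
    have := Phi_lo_0_675
    norm_num at this ⊢
    linarith
  · refine (chi_node (by norm_num) phi_hi_0_483 Phi_lo_0_483).trans ?_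
    have := Phi_lo_0_483
    norm_num at this ⊢
    linarith

/-- chord of `chi` on `[Φ(-0.915), Φ(-0.878)]` (p = 0.18010 .. 0.18997) -/
lemma chord_0_915_0_878 {p : ℝ} (h1 : Phi (-0.915) ≤ p) (h2 : p ≤ Phi (-0.878)) :
    chi p ≤ 0.27566 * p + (-0.023999) := by
  refine chi_le_of_chord (b1 := -0.915) (b2 := -0.878) (by norm_num) ?_ ?_ h1 h2
  · refine (chi_node (by norm_num) phi_hi_0_915 Phi_lo_0_915).trans ?_
    have := Phi_lo_0_915
    norm_num at this ⊢
    linarith
  · refine (chi_node (by norm_num) phi_hi_0_878 Phi_lo_0_878).trans ?_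
    have := Phi_lo_0_878
    norm_num at this ⊢
    linarith

/-- chord of `chi` on `[Φ(-0.878), Φ(-0.842)]` (p = 0.18997 .. 0.19989) -/
lemma chord_0_878_0_842 {p : ℝ} (h1 : Phi (-0.878) ≤ p) (h2 : p ≤ Phi (-0.842)) :
    chi p ≤ 0.28782 * p + (-0.026309) := by
  refine chi_le_of_chord (b1 := -0.878) (b2 := -0.842) (by norm_num) ?_ ?_ h1 h2
  · refine (chi_node (by norm_num) phi_hi_0_878 Phi_lo_0_878).trans ?_
    have := Phi_lo_0_878
    norm_num at this ⊢
    linarith
  · refine (chi_node (by norm_num) phi_hi_0_842 Phi_lo_0_842).trans ?_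
    have := Phi_lo_0_842
    norm_num at this ⊢
    linarith

/-- tangent of `I²` at `b = -0.25` -/
lemma tan_0_25 {p : ℝ} (h1 : Phi (-1) ≤ p) (h2 : p ≤ 1 / 2) :
    phi (Psi p) ^ 2 ≤ 0.07194 + 0.19333 * p := by
  refine (phi_sq_tangent_p (b0 := -0.25) h1 h2 (by norm_num) (by norm_num)).trans ?_
  have h3 := Phi_lo_0_25
  have h4 := Phi_hi_0_25
  have h5 := phi_lo_0_25
  have h6 := phi_hi_0_25
  have h7 : (0.158 : ℝ) ≤ p := Phi_one_ge.trans h1
  nlinarith [mul_nonneg (sub_nonneg.2 h5) (sub_nonneg.2 h4), mul_nonneg (sub_nonneg.2 h6) (sub_nonneg.2 h3), mul_nonneg (sub_nonneg.2 h5) (sub_nonneg.2 h7), mul_nonneg (sub_nonneg.2 h6) (sub_nonneg.2 h7), mul_nonneg (sub_nonneg.2 h5) (sub_nonneg.2 h6), mul_nonneg (sub_nonneg.2 h5) (sub_nonneg.2 h2), mul_nonneg (sub_nonneg.2 h6) (sub_nonneg.2 h2)]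

/-- tangent of `I²` at `b = -0.385` -/
lemma tan_0_385 {p : ℝ} (h1 : Phi (-1) ≤ p) (h2 : p ≤ 1 / 2) :
    phi (Psi p) ^ 2 ≤ 0.03737 + 0.28524 * p := by
  refine (phi_sq_tangent_p (b0 := -0.385) h1 h2 (by norm_num) (by norm_num)).trans ?_
  have h3 := Phi_lo_0_385
  have h4 := Phi_hi_0_385
  have h5 := phi_lo_0_385
  have h6 := phi_hi_0_385
  have h7 : (0.158 : ℝ) ≤ p := Phi_one_ge.trans h1
  nlinarith [mul_nonneg (sub_nonneg.2 h5) (sub_nonneg.2 h4), mul_nonneg (sub_nonneg.2 h6) (sub_nonneg.2 h3), mul_nonneg (sub_nonneg.2 h5) (sub_nonneg.2 h7), mul_nonneg (sub_nonneg.2 h6) (sub_nonneg.2 h7), mul_nonneg (sub_nonneg.2 h5) (sub_nonneg.2 h6), mul_nonneg (sub_nonneg.2 h5) (sub_nonneg.2 h2), mul_nonneg (sub_nonneg.2 h6) (sub_nonneg.2 h2)]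

/-- tangent of `I²` at `b = -0.368` -/
lemma tan_0_368 {p : ℝ} (h1 : Phi (-1) ≤ p) (h2 : p ≤ 1 / 2) :
    phi (Psi p) ^ 2 ≤ 0.04120 + 0.27440 * p := by
  refine (phi_sq_tangent_p (b0 := -0.368) h1 h2 (by norm_num) (by norm_num)).trans ?_
  have h3 := Phi_lo_0_368
  have h4 := Phi_hi_0_368
  have h5 := phi_lo_0_368
  have h6 := phi_hi_0_368
  have h7 : (0.158 : ℝ) ≤ p := Phi_one_ge.trans h1
  nlinarith [mul_nonneg (sub_nonneg.2 h5) (sub_nonneg.2 h4), mul_nonneg (sub_nonneg.2 h6) (sub_nonneg.2 h3), mul_nonneg (sub_nonneg.2 h5) (sub_nonneg.2 h7), mul_nonneg (sub_nonneg.2 h6) (sub_nonneg.2 h7), mul_nonneg (sub_nonneg.2 h5) (sub_nonneg.2 h6), mul_nonneg (sub_nonneg.2 h5) (sub_nonneg.2 h2), mul_nonneg (sub_nonneg.2 h6) (sub_nonneg.2 h2)]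


/-- tangent of `I²` at `b = -0.483` -/
lemma tan_0_483 {p : ℝ} (h1 : Phi (-1) ≤ p) (h2 : p ≤ 1 / 2) :
    phi (Psi p) ^ 2 ≤ 0.01817 + 0.34295 * p := by
  refine (phi_sq_tangent_p (b0 := -0.483) h1 h2 (by norm_num) (by norm_num)).trans ?_
  have h3 := Phi_lo_0_483
  have h4 := Phi_hi_0_483
  have h5 := phi_lo_0_483
  have h6 := phi_hi_0_483
  have h7 : (0.158 : ℝ) ≤ p := Phi_one_ge.trans h1
  nlinarith [mul_nonneg (sub_nonneg.2 h5) (sub_nonneg.2 h4), mul_nonneg (sub_nonneg.2 h6) (sub_nonneg.2 h3), mul_nonneg (sub_nonneg.2 h5) (sub_nonneg.2 h7), mul_nonneg (sub_nonneg.2 h6) (sub_nonneg.2 h7), mul_nonneg (sub_nonneg.2 h5) (sub_nonneg.2 h6), mul_nonneg (sub_nonneg.2 h5) (sub_nonneg.2 h2), mul_nonneg (sub_nonneg.2 h6) (sub_nonneg.2 h2)]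

/-- tangent of `I²` at `b = -0.498` -/
lemma tan_0_498 {p : ℝ} (h1 : Phi (-1) ≤ p) (h2 : p ≤ 1 / 2) :
    phi (Psi p) ^ 2 ≤ 0.01566 + 0.35101 * p := by
  refine (phi_sq_tangent_p (b0 := -0.498) h1 h2 (by norm_num) (by norm_num)).trans ?_
  have h3 := Phi_lo_0_498
  have h4 := Phi_hi_0_498
  have h5 := phi_lo_0_498
  have h6 := phi_hi_0_498
  have h7 : (0.158 : ℝ) ≤ p := Phi_one_ge.trans h1
  nlinarith [mul_nonneg (sub_nonneg.2 h5) (sub_nonneg.2 h4), mul_nonneg (sub_nonneg.2 h6) (sub_nonneg.2 h3), mul_nonneg (sub_nonneg.2 h5) (sub_nonneg.2 h7), mul_nonneg (sub_nonneg.2 h6) (sub_nonneg.2 h7), mul_nonneg (sub_nonneg.2 h5) (sub_nonneg.2 h6), mul_nonneg (sub_nonneg.2 h5) (sub_nonneg.2 h2), mul_nonneg (sub_nonneg.2 h6) (sub_nonneg.2 h2)]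

/-- tangent of `I²` at `b = -0.517` -/
lemma tan_0_517 {p : ℝ} (h1 : Phi (-1) ≤ p) (h2 : p ≤ 1 / 2) :
    phi (Psi p) ^ 2 ≤ 0.01263 + 0.36090 * p := by
  refine (phi_sq_tangent_p (b0 := -0.517) h1 h2 (by norm_num) (by norm_num)).trans ?_
  have h3 := Phi_lo_0_517
  have h4 := Phi_hi_0_517
  have h5 := phi_lo_0_517
  have h6 := phi_hi_0_517
  have h7 : (0.158 : ℝ) ≤ p := Phi_one_ge.trans h1
  nlinarith [mul_nonneg (sub_nonneg.2 h5) (sub_nonneg.2 h4), mul_nonneg (sub_nonneg.2 h6) (sub_nonneg.2 h3), mul_nonneg (sub_nonneg.2 h5) (sub_nonneg.2 h7), mul_nonneg (sub_nonneg.2 h6) (sub_nonneg.2 h7), mul_nonneg (sub_nonneg.2 h5) (sub_nonneg.2 h6), mul_nonneg (sub_nonneg.2 h5) (sub_nonneg.2 h2), mul_nonneg (sub_nonneg.2 h6) (sub_nonneg.2 h2)]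

lemma Cell.e1' {η p R : ℝ} (h : Cell η p R) : R ≤ 0.15916 := by
  refine h.e1.trans ?_
  have h1 : phi (Psi p) ≤ 0.3989423 := by
    rw [phi_eq_c0]
    have : Real.exp (-(Psi p ^ 2 / 2)) ≤ 1 := Real.exp_le_one_iff.2 (by
      have := sq_nonneg (Psi p); linarith)
    have h2 := c0_pos
    have h3 := c0_lt
    nlinarith
  have h2 := phi_nonneg (Psi p)
  nlinarith

/-- from an upper bound of `χ` to a linear upper bound of `R` -/
lemma Cell.lin {η p R L L0 : ℝ} (h : Cell η p R) (hη : 0 ≤ η) (h1 : chi p ≤ L) (h2 : L ≤ 1 / 8)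
    (h3 : η * L0 ≤ 1) : R ≤ 2 * (1 - η * L0) * L + η * L0 ^ 2 := by
  have h4 := h.e2 (h1.trans h2)
  have h5 := mul_nonneg hη (sq_nonneg (chi p - L0))
  have h6 : 0 ≤ (1 - η * L0) * (L - chi p) := mul_nonneg (by linarith) (by linarith)
  nlinarith

/-- quadratic version -/
lemma Cell.quad {η p R L : ℝ} (h : Cell η p R) (hη : 0 ≤ η) (h1 : chi p ≤ L) (h2 : L ≤ 1 / 8)
    (h3 : η * L ≤ 1) : R ≤ 2 * L - η * L ^ 2 := by
  have := h.lin hη h1 h2 (L0 := L) h3
  nlinarith

lemma Cell.mono {η η' p R : ℝ} (h : Cell η p R) (h' : η' ≤ η) : Cell η' p R :=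
  ⟨h.pos, h.le_half, h.nonneg, h.e1, fun h1 => (h.e2 h1).trans (by
    have := mul_le_mul_of_nonneg_right h' (sq_nonneg (chi p)); linarith)⟩

/-- `R ≤ 2p²` (useful for small `p`) -/
lemma Cell.small {η p R : ℝ} (h : Cell η p R) (hη : 0 ≤ η) (hp : p ≤ 1 / 3) : R ≤ 2 * p ^ 2 := by
  have h1 := chi_le_sq h.pos (by linarith [h.le_half])
  have h2 : chi p ≤ 1 / 8 := by nlinarith [h.pos]
  have h3 := h.e2 h2
  have h4 := mul_nonneg hη (sq_nonneg (chi p))
  linarith

/-- cells with `p ≤ Φ(-0.915)` have `R ≤ 0.2747 p` -/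
lemma Cell.le_of_small {η p R : ℝ} (h : Cell η p R) (hη : 2.79 ≤ η) (hp : p ≤ Phi (-0.915)) :
    R ≤ 0.2747 * p := by
  replace h := h.mono hη
  have hp0 := h.pos
  have g1 := Phi_hi_0_915
  rcases le_total p 0.13 with h1 | h1
  · have := h.small (by norm_num) (by linarith)
    nlinarith
  rcases le_total p (Phi (-1.036)) with h2 | h2
  · have h3 : Phi (-1.175) ≤ p := by
      have := Phi_hi_1_175
      linarith
    have h4 := chord_1_175_1_036 h3 h2
    have h5 := Phi_hi_1_036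
    have := h.quad (by norm_num) h4 (by linarith) (by linarith)
    nlinarith
  · have h4 := chord_1_036_0_915 h2 hp
    have h5 := Phi_lo_1_036
    have := h.lin (L0 := 0.0256) (by norm_num) h4 (by linarith) (by norm_num)
    nlinarith

lemma Cell.le_tan {η p R : ℝ} (h : Cell η p R) (hp : Phi (-1) ≤ p) : R ≤ 0.0412 + 0.2747 * p := by
  have := h.e1.trans (tan_0_368 hp h.le_half)
  have h1 := h.pos
  linarith

lemma Cell.le_big {η p R : ℝ} (h : Cell η p R) (hη : 2.79 ≤ η) : R ≤ 0.0412 + 0.2747 * p := by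
  rcases le_total (Phi (-1)) p with h1 | h1
  · exact h.le_tan h1
  · have h2 := Phi_one_le
    have h3 := Phi_lo_0_915
    have := h.le_of_small hη (h1.trans (by linarith))
    linarith

/-- **three big cells**: not all cells but (at most) two have `p ≤ Φ(-0.915) = 0.1801`. -/
theorem three_big {ι : Type*} [Fintype ι] [DecidableEq ι] {η : ℝ} (hη : 2.79 ≤ η) {p R : ι → ℝ}
    (h : ∀ i, Cell η (p i) (R i)) (hp : ∑ i, p i = 1) (hR : cC ≤ ∑ i, R i) (j l : ι) :
    ∃ m, m ≠ j ∧ m ≠ l ∧ Phi (-0.915) < p m := by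
  by_contra hcon
  push Not at hcon
  have h1 : ∀ i, R i ≤ 0.2747 * p i + 0.0412 * ((if i = j then 1 else 0) + (if i = l then 1 else 0)) := by
    intro i
    have hpi := (h i).pos
    by_cases hj : i = j
    · have := (h i).le_big hη
      rw [if_pos hj]
      split_ifs <;> linarith
    · by_cases hl : i = l
      · have := (h i).le_big hη
        rw [if_neg hj, if_pos hl]
        linarith
      · have := (h i).le_of_small hη (hcon i hj hl)
        rw [if_neg hj, if_neg hl]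
        linarith
  have h2 : ∑ i, R i ≤ ∑ i, (0.2747 * p i + 0.0412 * ((if i = j then 1 else 0) + (if i = l then 1 else 0))) :=
    Finset.sum_le_sum fun i _ => h1 i
  rw [Finset.sum_add_distrib, ← Finset.mul_sum, ← Finset.mul_sum, Finset.sum_add_distrib] at h2
  simp only [Finset.sum_ite_eq', Finset.mem_univ, if_true, hp] at h2
  have := cC_gt
  norm_num at h2 this
  linarith

end Crest.Agent.R215
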