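import Mathlib

-- ▼ part R215/Basic
section

/-!
# Row 215 (propeller conjecture): basic objects

* `supI z x = ⨆ i, ⟪z i, x⟫`, `F z = E supI z` for the standard Gaussian measure.
* `IsPart A`, `Good E ι`, `Dual E ι`.
-/

set_option autoImplicit false
set_option linter.unusedSectionVars false
set_option linter.style.haveILetI false

open MeasureTheory ProbabilityTheory Set Filter Topology
open scoped RealInnerProductSpace

namespace Crest.Agent.R215

/-- the constant `9 / (8 π)` -/
noncomputable def cC : ℝ := 9 / (8 * Real.pi)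

lemma cC_pos : 0 < cC := by unfold cC; positivity

section defs

variable {E : Type*} [NormedAddCommGroup E] [InnerProductSpace ℝ E] [FiniteDimensional ℝ E]
  [MeasurableSpace E] [BorelSpace E]

/-- support function of a finite family of vectors -/
noncomputable def supI {ι : Type*} (z : ι → E) (x : E) : ℝ := ⨆ i, ⟪z i, x⟫

/-- Gaussian mean of the support function. -/
noncomputable def F {ι : Type*} (z : ι → E) : ℝ := ∫ x, supI z x ∂stdGaussian E

/-- measurable partition -/
structure IsPart {ι : Type*} (A : ι → Set E) : Prop where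
  meas : ∀ i, MeasurableSet (A i)
  disj : Pairwise fun i j => Disjoint (A i) (A j)
  cov : ⋃ i, A i = Set.univ

/-- Gaussian first moment of a set -/
noncomputable def mom (A : Set E) : E := ∫ x in A, x ∂stdGaussian E

/-- `A` is an argmax partition for `z` -/
def IsArgmax {ι : Type*} (z : ι → E) (A : ι → Set E) : Prop :=
  ∀ i, ∀ x ∈ A i, ∀ j, ⟪z j, x⟫ ≤ ⟪z i, x⟫

end defs

variable (E : Type*) [NormedAddCommGroup E] [InnerProductSpace ℝ E] [FiniteDimensional ℝ E]
  [MeasurableSpace E] [BorelSpace E]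

/-- the partition form of the inequality -/
def Good (ι : Type*) [Fintype ι] : Prop :=
  ∀ A : ι → Set E, IsPart A → ∑ i, ‖mom (A i)‖ ^ 2 ≤ cC

/-- the dual form of the inequality -/
def DualGood (ι : Type*) [Fintype ι] : Prop :=
  ∀ z : ι → E, F z ≤ √cC * √(∑ i, ‖z i‖ ^ 2)

variable {E}

lemma integrable_id' : Integrable (fun x : E => x) (stdGaussian E) :=
  IsGaussian.integrable_id

lemma integrable_inner (w : E) : Integrable (fun x : E => ⟪w, x⟫) (stdGaussian E) :=
  integrable_id'.const_inner w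

lemma integrable_norm : Integrable (fun x : E => ‖x‖) (stdGaussian E) :=
  integrable_id'.norm

lemma integral_inner_eq_zero (w : E) : ∫ x, ⟪w, x⟫ ∂stdGaussian E = 0 := by
  rw [_root_.integral_inner integrable_id', integral_id_stdGaussian, inner_zero_right]

lemma inner_mom (w : E) (A : Set E) : ⟪w, mom A⟫ = ∫ x in A, ⟪w, x⟫ ∂stdGaussian E := by
  rw [mom, _root_.integral_inner integrable_id'.integrableOn]

section supI

variable {ι : Type*}

lemma le_supI [Finite ι] (z : ι → E) (x : E) (i : ι) : ⟪z i, x⟫ ≤ supI z x :=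
  le_ciSup (f := fun i => ⟪z i, x⟫) (Set.finite_range _).bddAbove i

lemma supI_le [Nonempty ι] (z : ι → E) (x : E) {b : ℝ} (h : ∀ i, ⟪z i, x⟫ ≤ b) : supI z x ≤ b :=
  ciSup_le h

lemma exists_eq_supI [Finite ι] [Nonempty ι] (z : ι → E) (x : E) : ∃ i, ⟪z i, x⟫ = supI z x :=
  exists_eq_ciSup_of_finite (f := fun i => ⟪z i, x⟫)

lemma measurable_supI [Countable ι] (z : ι → E) : Measurable (supI z) :=
  Measurable.iSup fun i => by fun_prop

lemma abs_supI_sub_le [Finite ι] [Nonempty ι] (z z' : ι → E) (x : E) {r : ℝ}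
    (h : ∀ i, ‖z i - z' i‖ ≤ r) : |supI z x - supI z' x| ≤ r * ‖x‖ := by
  have key : ∀ z z' : ι → E, (∀ i, ‖z i - z' i‖ ≤ r) → supI z x ≤ supI z' x + r * ‖x‖ := by
    intro z z' h
    refine supI_le z x fun i => ?_
    have h1 : ⟪z i, x⟫ = ⟪z' i, x⟫ + ⟪z i - z' i, x⟫ := by rw [inner_sub_left]; ring
    have h2 : ⟪z i - z' i, x⟫ ≤ r * ‖x‖ :=
      (real_inner_le_norm _ _).trans (by gcongr; exact h i)
    have h3 := le_supI z' x i
    linarith
  rw [abs_le]
  have h1 := key z z' h
  have h2 := key z' z (fun i => by rw [norm_sub_rev]; exact h i)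
  constructor <;> linarith

lemma abs_supI_le [Fintype ι] [Nonempty ι] (z : ι → E) (x : E) :
    |supI z x| ≤ (∑ i, ‖z i‖) * ‖x‖ := by
  have h := abs_supI_sub_le z (fun _ => (0:E)) x (r := ∑ i, ‖z i‖) (fun i => by
    simpa using Finset.single_le_sum (f := fun i => ‖z i‖) (fun j _ => norm_nonneg _)
      (Finset.mem_univ i))
  have h0 : supI (fun _ : ι => (0:E)) x = 0 := by simp [supI]
  rwa [h0, sub_zero] at h

lemma integrable_supI [Finite ι] (z : ι → E) : Integrable (supI z) (stdGaussian E) := by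
  cases nonempty_fintype ι
  rcases isEmpty_or_nonempty ι with h | h
  · have : supI z = fun _ => (0:ℝ) := by
      funext x; simp [supI]
    rw [this]
    exact integrable_zero _ _ _
  · refine Integrable.mono' (g := fun x => (∑ i, ‖z i‖) * ‖x‖) (integrable_norm.const_mul _)
      (measurable_supI z).aestronglyMeasurable ?_
    exact Eventually.of_forall fun x => by
      rw [Real.norm_eq_abs]; exact abs_supI_le z x

lemma abs_F_sub_le [Finite ι] [Nonempty ι] (z z' : ι → E) {r : ℝ} (h : ∀ i, ‖z i - z' i‖ ≤ r) :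
    |F z - F z'| ≤ r * ∫ x, ‖x‖ ∂stdGaussian E := by
  rw [F, F, ← integral_sub (integrable_supI z) (integrable_supI z')]
  calc |∫ x, (supI z x - supI z' x) ∂stdGaussian E|
      ≤ ∫ x, |supI z x - supI z' x| ∂stdGaussian E := abs_integral_le_integral_abs
    _ ≤ ∫ x, r * ‖x‖ ∂stdGaussian E := by
        refine integral_mono ?_ (integrable_norm.const_mul _) fun x => abs_supI_sub_le z z' x h
        exact ((integrable_supI z).sub (integrable_supI z')).abs
    _ = r * ∫ x, ‖x‖ ∂stdGaussian E := integral_const_mul _ _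

lemma continuous_F [Fintype ι] [Nonempty ι] : Continuous (F : (ι → E) → ℝ) := by
  have hl : LipschitzWith (Real.toNNReal (∫ x, ‖x‖ ∂stdGaussian E)) (F : (ι → E) → ℝ) := by
    refine LipschitzWith.of_dist_le_mul fun z z' => ?_
    rw [Real.dist_eq, Real.coe_toNNReal _ (integral_nonneg fun x => norm_nonneg x), mul_comm]
    refine abs_F_sub_le z z' fun i => ?_
    rw [← dist_eq_norm]
    exact dist_le_pi_dist z z' i
  exact hl.continuous

lemma supI_smul [Finite ι] (z : ι → E) (x : E) {c : ℝ} (hc : 0 ≤ c) :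
    supI (fun i => c • z i) x = c * supI z x := by
  simp only [supI, real_inner_smul_left]
  rw [Real.mul_iSup_of_nonneg hc]

lemma F_smul [Finite ι] (z : ι → E) {c : ℝ} (hc : 0 ≤ c) :
    F (fun i => c • z i) = c * F z := by
  simp only [F, supI_smul z _ hc]
  exact integral_const_mul _ _

lemma supI_add_const [Finite ι] [Nonempty ι] (z : ι → E) (c x : E) :
    supI (fun i => z i + c) x = supI z x + ⟪c, x⟫ := by
  simp only [supI, inner_add_left]
  rw [ciSup_add (Set.finite_range _).bddAbove]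

lemma F_add_const [Finite ι] [Nonempty ι] (z : ι → E) (c : E) :
    F (fun i => z i + c) = F z := by
  simp only [F, supI_add_const z c]
  rw [integral_add (integrable_supI z) (integrable_inner c), integral_inner_eq_zero, add_zero]

end supI

section part

variable {ι : Type*} [Fintype ι]

lemma IsPart.sum_setIntegral {A : ι → Set E} (hA : IsPart A) {G : Type*} [NormedAddCommGroup G]
    [NormedSpace ℝ G] {f : E → G} (hf : Integrable f (stdGaussian E)) :
    ∑ i, ∫ x in A i, f x ∂stdGaussian E = ∫ x, f x ∂stdGaussian E := by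
  rw [← integral_iUnion_fintype hA.meas hA.disj (fun i => hf.integrableOn), hA.cov,
    setIntegral_univ]

lemma IsPart.sum_mom {A : ι → Set E} (hA : IsPart A) : ∑ i, mom (A i) = 0 := by
  unfold mom
  rw [hA.sum_setIntegral integrable_id', integral_id_stdGaussian]

/-- `Σ ⟪w i, mom (A i)⟫ ≤ F w` for every partition. -/
lemma IsPart.sum_inner_mom_le {A : ι → Set E} (hA : IsPart A) (w : ι → E) :
    ∑ i, ⟪w i, mom (A i)⟫ ≤ F w := by
  rw [F, ← hA.sum_setIntegral (integrable_supI w)]
  refine Finset.sum_le_sum fun i _ => ?_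
  rw [inner_mom]
  exact setIntegral_mono (integrable_inner _).integrableOn (integrable_supI w).integrableOn
    fun x => le_supI w x i

lemma IsPart.F_eq {A : ι → Set E} (hA : IsPart A) {z : ι → E} (hz : IsArgmax z A) :
    F z = ∑ i, ⟪z i, mom (A i)⟫ := by
  rw [F, ← hA.sum_setIntegral (integrable_supI z)]
  refine Finset.sum_congr rfl fun i _ => ?_
  rw [inner_mom]
  refine setIntegral_congr_fun (hA.meas i) fun x hx => ?_
  haveI : Nonempty ι := ⟨i⟩
  exact le_antisymm (supI_le z x fun j => hz i x hx j) (le_supI z x i)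

lemma exists_argmax [Nonempty ι] (z : ι → E) : ∃ A : ι → Set E, IsPart A ∧ IsArgmax z A := by
  classical
  let e := Fintype.equivFin ι
  let A : ι → Set E := fun i => {x | (∀ j, ⟪z j, x⟫ ≤ ⟪z i, x⟫) ∧ ∀ j, e j < e i → ⟪z j, x⟫ < ⟪z i, x⟫}
  refine ⟨A, ⟨fun i => ?_, fun i j hij => ?_, ?_⟩, fun i x hx j => hx.1 j⟩
  · have h1 : MeasurableSet {x : E | ∀ j, ⟪z j, x⟫ ≤ ⟪z i, x⟫} := by
      rw [Set.ofPred_forall]
      exact MeasurableSet.iInter fun j => measurableSet_le (by fun_prop) (by fun_prop)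
    have h2 : MeasurableSet {x : E | ∀ j, e j < e i → ⟪z j, x⟫ < ⟪z i, x⟫} := by
      rw [Set.ofPred_forall]
      refine MeasurableSet.iInter fun j => ?_
      by_cases h : e j < e i
      · simp only [h, forall_const]
        exact measurableSet_lt (by fun_prop) (by fun_prop)
      · simp [h]
    exact h1.inter h2
  · show Disjoint (A i) (A j)
    rw [Set.disjoint_left]
    rintro x ⟨hi1, hi2⟩ ⟨hj1, hj2⟩
    have hne : e i ≠ e j := fun h => hij (e.injective h)
    rcases lt_or_gt_of_ne hne with h | h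
    · exact absurd (hj2 i h) (not_lt.2 (hi1 j))
    · exact absurd (hi2 j h) (not_lt.2 (hj1 i))
  · rw [Set.eq_univ_iff_forall]
    intro x
    let s : Finset ι := Finset.univ.filter fun i => ∀ j, ⟪z j, x⟫ ≤ ⟪z i, x⟫
    have hs : s.Nonempty := by
      obtain ⟨i, hi⟩ := exists_eq_supI z x
      exact ⟨i, by simp only [s, Finset.mem_filter, Finset.mem_univ, true_and]
                   intro j; rw [hi]; exact le_supI z x j⟩
    obtain ⟨i, hi, him⟩ := s.exists_min_image e hs
    have hi' : ∀ j, ⟪z j, x⟫ ≤ ⟪z i, x⟫ := by simpa [s] using hi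
    refine Set.mem_iUnion.2 ⟨i, hi', fun j hj => ?_⟩
    refine lt_of_le_of_ne (hi' j) fun h => ?_
    have hjs : j ∈ s := by
      simp only [s, Finset.mem_filter, Finset.mem_univ, true_and]
      intro l; rw [h]; exact hi' l
    exact absurd (him j hjs) (not_le.2 hj)

lemma sum_inner_le_sqrt_mul_sqrt (w m : ι → E) :
    ∑ i, ⟪w i, m i⟫ ≤ √(∑ i, ‖w i‖ ^ 2) * √(∑ i, ‖m i‖ ^ 2) := by
  calc ∑ i, ⟪w i, m i⟫ ≤ ∑ i, ‖w i‖ * ‖m i‖ := Finset.sum_le_sum fun i _ => real_inner_le_norm _ _
    _ ≤ _ := Real.sum_mul_le_sqrt_mul_sqrt _ _ _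

lemma Good.dual [Nonempty ι] (h : Good E ι) : DualGood E ι := by
  intro z
  obtain ⟨A, hA, hz⟩ := exists_argmax z
  rw [hA.F_eq hz]
  refine (sum_inner_le_sqrt_mul_sqrt z _).trans ?_
  rw [mul_comm]
  gcongr
  exact h A hA

lemma DualGood.good (h : DualGood E ι) : Good E ι := by
  intro A hA
  have h1 := hA.sum_inner_mom_le (fun i => mom (A i))
  have h2 := h (fun i => mom (A i))
  simp only [real_inner_self_eq_norm_sq] at h1
  set s := ∑ i, ‖mom (A i)‖ ^ 2
  have hs : 0 ≤ s := Finset.sum_nonneg fun i _ => by positivity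
  have h3 : s ≤ √cC * √s := h1.trans h2
  have h4 : √s * √s = s := Real.mul_self_sqrt hs
  have h5 : √cC * √cC = cC := Real.mul_self_sqrt cC_pos.le
  have h6 : √s ≤ √cC := by
    by_contra hcon
    push Not at hcon
    have : 0 ≤ √cC := Real.sqrt_nonneg _
    nlinarith
  calc s = √s * √s := h4.symm
    _ ≤ √cC * √cC := by gcongr
    _ = cC := h5

end part

end Crest.Agent.R215
end

-- ▼ part R215/Crit
section

/-!
# Row 215: transfer between index types, existence and structure of a critical configuration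
-/

set_option autoImplicit false
set_option linter.unusedSectionVars false
set_option linter.style.haveILetI false

open MeasureTheory ProbabilityTheory Set Filter Topology
open scoped RealInnerProductSpace

namespace Crest.Agent.R215

variable {E : Type*} [NormedAddCommGroup E] [InnerProductSpace ℝ E] [FiniteDimensional ℝ E]
  [MeasurableSpace E] [BorelSpace E]

lemma mom_empty : mom (∅ : Set E) = 0 := by simp [mom]

lemma mom_union {A B : Set E} (hB : MeasurableSet B) (h : Disjoint A B) :
    mom (A ∪ B) = mom A + mom B := by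
  unfold mom
  exact setIntegral_union h hB integrable_id'.integrableOn integrable_id'.integrableOn

/-- `Good` passes to smaller index types. -/
lemma Good.of_injective {ι κ : Type*} [Fintype ι] [Fintype κ] (h : Good E ι) (f : κ → ι)
    (hf : Function.Injective f) : Good E κ := by
  classical
  intro A hA
  let B : ι → Set E := fun i => ⋃ (j : κ) (_ : f j = i), A j
  have hB1 : ∀ j, B (f j) = A j := by
    intro j
    apply Set.eq_of_subset_of_subset
    · refine Set.iUnion₂_subset fun l hl => ?_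
      rw [hf hl]
    · exact Set.subset_iUnion₂_of_subset j rfl subset_rfl
  have hB2 : ∀ i, i ∉ Set.range f → B i = ∅ := by
    intro i hi
    simp only [B]
    rw [Set.iUnion_eq_empty]
    intro j
    rw [Set.iUnion_eq_empty]
    intro hj
    exact absurd ⟨j, hj⟩ hi
  have hB : IsPart B := by
    refine ⟨fun i => ?_, fun i j hij => ?_, ?_⟩
    · exact MeasurableSet.iUnion fun j => MeasurableSet.iUnion fun _ => hA.meas j
    · show Disjoint (B i) (B j)
      rw [Set.disjoint_left]
      intro x hx hx'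
      simp only [B, Set.mem_iUnion, exists_prop] at hx hx'
      obtain ⟨a, ha, hxa⟩ := hx
      obtain ⟨b, hb, hxb⟩ := hx'
      have hab : a ≠ b := by rintro rfl; exact hij (ha.symm.trans hb)
      exact Set.disjoint_left.1 (hA.disj hab) hxa hxb
    · rw [Set.eq_univ_iff_forall]
      intro x
      have : x ∈ ⋃ i, A i := by rw [hA.cov]; trivial
      obtain ⟨j, hj⟩ := Set.mem_iUnion.1 this
      exact Set.mem_iUnion.2 ⟨f j, by rw [hB1]; exact hj⟩
  have := h B hB
  refine le_trans (le_of_eq ?_) this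
  have h2 : ∑ i, ‖mom (B i)‖ ^ 2 = ∑ i ∈ Finset.univ.image f, ‖mom (B i)‖ ^ 2 := by
    symm
    apply Finset.sum_subset (Finset.subset_univ _)
    intro i _ hi
    rw [hB2 i (by simpa using hi), mom_empty]
    simp
  rw [h2, Finset.sum_image (fun a _ b _ hab => hf hab)]
  exact Finset.sum_congr rfl fun j _ => by rw [hB1]

lemma Good.congr {ι κ : Type*} [Fintype ι] [Fintype κ] (h : Good E ι) (e : ι ≃ κ) : Good E κ :=
  h.of_injective e.symm e.symm.injective

/-- merging two cells -/
lemma Good.merge {ι : Type*} [Fintype ι] [DecidableEq ι] {i j : ι} (hij : i ≠ j)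
    (h : Good E {l // l ≠ j}) {A : ι → Set E} (hA : IsPart A) :
    ∑ l, ‖mom (A l)‖ ^ 2 + 2 * ⟪mom (A i), mom (A j)⟫ ≤ cC := by
  classical
  let B : {l // l ≠ j} → Set E := fun l => if (l : ι) = i then A i ∪ A j else A l
  have hBi : B ⟨i, hij⟩ = A i ∪ A j := by simp [B]
  have hBl : ∀ l : {l // l ≠ j}, (l : ι) ≠ i → B l = A l := fun l hl => by simp [B, hl]
  have hB : IsPart B := by
    refine ⟨fun l => ?_, fun a b hab => ?_, ?_⟩
    · by_cases hl : (l : ι) = i
      · simp only [B, hl, if_true]; exact (hA.meas i).union (hA.meas j)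
      · rw [hBl l hl]; exact hA.meas _
    · show Disjoint (B a) (B b)
      have hab' : (a : ι) ≠ b := fun h => hab (Subtype.ext h)
      by_cases ha : (a : ι) = i
      · have hb : (b : ι) ≠ i := fun h => hab' (ha.trans h.symm)
        have hB1 : B a = A i ∪ A j := by simp [B, ha]
        rw [hB1, hBl b hb, Set.disjoint_union_left]
        exact ⟨hA.disj (Ne.symm hb), hA.disj (Ne.symm b.2)⟩
      · by_cases hb : (b : ι) = i
        · have hB1 : B b = A i ∪ A j := by simp [B, hb]
          rw [hB1, hBl a ha, Set.disjoint_union_right]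
          exact ⟨hA.disj ha, hA.disj a.2⟩
        · rw [hBl a ha, hBl b hb]
          exact hA.disj hab'
    · rw [Set.eq_univ_iff_forall]
      intro x
      have : x ∈ ⋃ i, A i := by rw [hA.cov]; trivial
      obtain ⟨l, hl⟩ := Set.mem_iUnion.1 this
      by_cases hlj : l = j
      · exact Set.mem_iUnion.2 ⟨⟨i, hij⟩, by rw [hBi]; right; rw [← hlj]; exact hl⟩
      · by_cases hli : l = i
        · exact Set.mem_iUnion.2 ⟨⟨i, hij⟩, by rw [hBi]; left; rw [← hli]; exact hl⟩
        · exact Set.mem_iUnion.2 ⟨⟨l, hlj⟩, by rw [hBl _ hli]; exact hl⟩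
  have key := h B hB
  have hmi : mom (B ⟨i, hij⟩) = mom (A i) + mom (A j) := by
    rw [hBi, mom_union (hA.meas j) (hA.disj hij)]
  have e1 : ∑ l, ‖mom (B l)‖ ^ 2 = ‖mom (A i) + mom (A j)‖ ^ 2
      + ∑ l ∈ (Finset.univ.erase (⟨i, hij⟩ : {l // l ≠ j})), ‖mom (A l)‖ ^ 2 := by
    rw [← Finset.add_sum_erase _ _ (Finset.mem_univ (⟨i, hij⟩ : {l // l ≠ j})), hmi]
    congr 1
    refine Finset.sum_congr rfl fun l hl => ?_
    rw [hBl l]
    intro h
    exact (Finset.ne_of_mem_erase hl) (Subtype.ext h)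
  have e2 : ∑ l, ‖mom (A l)‖ ^ 2 = ‖mom (A i)‖ ^ 2 + ‖mom (A j)‖ ^ 2
      + ∑ l ∈ (Finset.univ.erase (⟨i, hij⟩ : {l // l ≠ j})), ‖mom (A l)‖ ^ 2 := by
    have e3 : ∑ l : {l // l ≠ j}, ‖mom (A l)‖ ^ 2 = ‖mom (A i)‖ ^ 2
      + ∑ l ∈ (Finset.univ.erase (⟨i, hij⟩ : {l // l ≠ j})), ‖mom (A l)‖ ^ 2 := by
      rw [← Finset.add_sum_erase _ _ (Finset.mem_univ (⟨i, hij⟩ : {l // l ≠ j}))]
    have e4 : ∑ l, ‖mom (A l)‖ ^ 2 = ‖mom (A j)‖ ^ 2 + ∑ l : {l // l ≠ j}, ‖mom (A l)‖ ^ 2 := by
      rw [← Finset.add_sum_erase _ _ (Finset.mem_univ j)]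
      congr 1
      apply Finset.sum_subtype
      intro x; simp
    rw [e4, e3]; ring
  rw [e1] at key
  rw [e2]
  have h3 := @norm_add_sq_real E _ _ (mom (A i)) (mom (A j))
  linarith

lemma sum_norm_sub_mean {ι : Type*} [Fintype ι] [Nonempty ι] (z : ι → E) :
    ∑ i, ‖z i + (-(Fintype.card ι : ℝ)⁻¹ • ∑ j, z j)‖ ^ 2
      = ∑ i, ‖z i‖ ^ 2 - ‖∑ i, z i‖ ^ 2 / Fintype.card ι := by
  have hn : (Fintype.card ι : ℝ) ≠ 0 := by
    have := Fintype.card_pos (α := ι)
    positivity
  simp_rw [norm_add_sq_real, inner_smul_right]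
  rw [Finset.sum_add_distrib, Finset.sum_add_distrib, ← Finset.mul_sum, ← Finset.mul_sum,
    ← sum_inner, real_inner_self_eq_norm_sq, Finset.sum_const, Finset.card_univ, norm_smul,
    mul_pow, nsmul_eq_mul]
  simp only [norm_neg, norm_inv, RCLike.norm_natCast]
  field_simp
  ring

/-- the dual inequality for a (non-centred) family. -/
lemma DualGood.sub_mean {ι : Type*} [Fintype ι] [Nonempty ι] (h : DualGood E ι) (z : ι → E) :
    F z ≤ √cC * √(∑ i, ‖z i‖ ^ 2 - ‖∑ i, z i‖ ^ 2 / Fintype.card ι) := by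
  rw [← F_add_const z (-(Fintype.card ι : ℝ)⁻¹ • ∑ j, z j), ← sum_norm_sub_mean z]
  exact h _

/-- A critical configuration: a maximiser of `F z / √(∑ ‖z i‖²)` normalised by `‖z‖² = V`,
with value `√V > √C`, when all families with fewer members satisfy the inequality. -/
structure Crit (E : Type*) [NormedAddCommGroup E] [InnerProductSpace ℝ E] [FiniteDimensional ℝ E]
    [MeasurableSpace E] [BorelSpace E] (ι : Type*) [Fintype ι] [DecidableEq ι] where
  /-- the points -/
  z : ι → E
  /-- the value -/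
  V : ℝ
  V_gt : cC < V
  sumsq : ∑ i, ‖z i‖ ^ 2 = V
  F_eq : F z = V
  opt : ∀ w : ι → E, F w ≤ √V * √(∑ i, ‖w i‖ ^ 2)
  /-- first-order condition -/
  cell : ∀ A : ι → Set E, IsPart A → IsArgmax z A → ∀ i, mom (A i) = z i
  /-- smaller families are good -/
  small : ∀ j : ι, Good E {l // l ≠ j}

/-- existence of critical configuration -/
theorem exists_crit {ι : Type*} [Fintype ι] [DecidableEq ι] [Nonempty ι] (hsmall : ∀ j : ι, Good E {l // l ≠ j})
    (hbad : ¬ Good E ι) : Nonempty (Crit E ι) := by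
  have hbad' : ¬ DualGood E ι := fun h => hbad h.good
  unfold DualGood at hbad'
  push Not at hbad'
  obtain ⟨w, hw⟩ := hbad'
  -- the sphere
  let N : (ι → E) → ℝ := fun z => √(∑ i, ‖z i‖ ^ 2)
  have hNc : Continuous N := by
    refine Real.continuous_sqrt.comp ?_
    exact continuous_finsetSum _ fun i _ => (continuous_norm.comp (continuous_apply i)).pow 2
  let S : Set (ι → E) := {z | ∑ i, ‖z i‖ ^ 2 = 1}
  have hSclosed : IsClosed S := by
    refine isClosed_eq ?_ continuous_const
    exact continuous_finsetSum _ fun i _ => (continuous_norm.comp (continuous_apply i)).pow 2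
  have hSb : Bornology.IsBounded S := by
    refine (Metric.isBounded_closedBall (x := (0 : ι → E)) (r := 1)).subset fun z hz => ?_
    rw [mem_closedBall_zero_iff, pi_norm_le_iff_of_nonneg zero_le_one]
    intro i
    have h1 : ‖z i‖ ^ 2 ≤ 1 := by
      have hz' : ∑ i, ‖z i‖ ^ 2 = 1 := hz
      rw [← hz']
      exact Finset.single_le_sum (f := fun i => ‖z i‖ ^ 2) (fun j _ => by positivity)
        (Finset.mem_univ i)
    nlinarith [norm_nonneg (z i)]
  have hScomp : IsCompact S := Metric.isCompact_of_isClosed_isBounded hSclosed hSb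
  have hwpos : 0 < ∑ i, ‖w i‖ ^ 2 := by
    rcases (Finset.sum_nonneg fun i (_ : i ∈ Finset.univ) => sq_nonneg ‖w i‖).lt_or_eq with h | h
    · exact h
    · exfalso
      have hw0 : ∀ i, w i = 0 := by
        intro i
        have := (Finset.sum_eq_zero_iff_of_nonneg
          (fun i (_ : i ∈ Finset.univ) => sq_nonneg ‖w i‖)).1 h.symm i (Finset.mem_univ i)
        simpa using this
      have : F w = 0 := by
        have h0 : supI w = fun _ => (0 : ℝ) := by
          funext x; simp [supI, hw0]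
        simp [F, h0]
      rw [this] at hw
      have : 0 ≤ √cC * √(∑ i, ‖w i‖ ^ 2) := by positivity
      linarith
  have hscale : ∀ u : ι → E, 0 < ∑ i, ‖u i‖ ^ 2 → (fun i => (N u)⁻¹ • u i) ∈ S := by
    intro u hu
    have hN : 0 < N u := Real.sqrt_pos.2 hu
    show ∑ i, ‖(N u)⁻¹ • u i‖ ^ 2 = 1
    simp_rw [norm_smul, mul_pow]
    rw [← Finset.mul_sum, norm_inv, Real.norm_eq_abs, abs_of_pos hN]
    have : N u ^ 2 = ∑ i, ‖u i‖ ^ 2 := Real.sq_sqrt hu.le
    rw [← this]
    field_simp
  have hSne : S.Nonempty := ⟨_, hscale w hwpos⟩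
  obtain ⟨z0, hz0S, hz0max⟩ := hScomp.exists_isMaxOn hSne continuous_F.continuousOn
  have hz0 : ∑ i, ‖z0 i‖ ^ 2 = 1 := hz0S
  have hQ : ∀ u : ι → E, F u ≤ F z0 * √(∑ i, ‖u i‖ ^ 2) := by
    intro u
    rcases (Finset.sum_nonneg fun i (_ : i ∈ Finset.univ) => sq_nonneg ‖u i‖).lt_or_eq with h | h
    · have h1 := hz0max (hscale u h)
      have hN : 0 < N u := Real.sqrt_pos.2 h
      have h2 : F (fun i => (N u)⁻¹ • u i) = (N u)⁻¹ * F u := F_smul u (by positivity)
      have h3 : (N u)⁻¹ * F u ≤ F z0 := by rw [← h2]; exact h1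
      have h4 : F u = N u * ((N u)⁻¹ * F u) := by field_simp
      rw [h4, mul_comm (F z0)]
      exact mul_le_mul_of_nonneg_left h3 hN.le
    · have hu0 : ∀ i, u i = 0 := by
        intro i
        have := (Finset.sum_eq_zero_iff_of_nonneg
          (fun i (_ : i ∈ Finset.univ) => sq_nonneg ‖u i‖)).1 h.symm i (Finset.mem_univ i)
        simpa using this
      have : F u = 0 := by
        have h0 : supI u = fun _ => (0 : ℝ) := by
          funext x; simp [supI, hu0]
        simp [F, h0]
      rw [this, ← h]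
      simp
  set Q := F z0 with hQdef
  have hQgt : √cC < Q := by
    have h1 := hQ w
    have hN : 0 < √(∑ i, ‖w i‖ ^ 2) := Real.sqrt_pos.2 hwpos
    exact lt_of_mul_lt_mul_right (hw.trans_le h1) hN.le
  have hQpos : 0 < Q := (Real.sqrt_nonneg _).trans_lt hQgt
  -- the first-order condition
  have hfirst : ∀ A : ι → Set E, IsPart A → IsArgmax z0 A → ∀ i, mom (A i) = Q • z0 i := by
    intro A hA hz
    have e1 : Q = ∑ i, ⟪z0 i, mom (A i)⟫ := hA.F_eq hz
    have e2 : ∑ i, ‖mom (A i)‖ ^ 2 ≤ Q * √(∑ i, ‖mom (A i)‖ ^ 2) := by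
      have := (hA.sum_inner_mom_le (fun i => mom (A i))).trans (hQ _)
      simpa only [real_inner_self_eq_norm_sq] using this
    set s := ∑ i, ‖mom (A i)‖ ^ 2 with hs
    have hs0 : 0 ≤ s := Finset.sum_nonneg fun i _ => by positivity
    have e3 : s ≤ Q ^ 2 := by
      have h4 : √s * √s = s := Real.mul_self_sqrt hs0
      have h6 : √s ≤ Q := by
        by_contra hcon
        push Not at hcon
        nlinarith
      nlinarith [Real.sqrt_nonneg s]
    have e4 : ∑ i, ‖mom (A i) - Q • z0 i‖ ^ 2 = s - 2 * Q * ∑ i, ⟪z0 i, mom (A i)⟫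
        + Q ^ 2 * ∑ i, ‖z0 i‖ ^ 2 := by
      rw [hs, Finset.mul_sum, Finset.mul_sum, ← Finset.sum_sub_distrib, ← Finset.sum_add_distrib]
      refine Finset.sum_congr rfl fun i _ => ?_
      rw [norm_sub_sq_real, inner_smul_right, norm_smul, mul_pow, Real.norm_eq_abs, sq_abs,
        real_inner_comm]
      ring
    have e5 : ∑ i, ‖mom (A i) - Q • z0 i‖ ^ 2 ≤ 0 := by
      rw [e4, ← e1, hz0]; nlinarith
    intro i
    have e6 := (Finset.sum_eq_zero_iff_of_nonneg
      (fun i (_ : i ∈ Finset.univ) => sq_nonneg ‖mom (A i) - Q • z0 i‖)).1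
      (le_antisymm e5 (Finset.sum_nonneg fun i _ => by positivity)) i (Finset.mem_univ i)
    have e7 : ‖mom (A i) - Q • z0 i‖ = 0 := by simpa using e6
    exact sub_eq_zero.1 (norm_eq_zero.1 e7)
  have hQsq : √(Q ^ 2) = Q := Real.sqrt_sq hQpos.le
  refine ⟨{ z := fun i => Q • z0 i, V := Q ^ 2, V_gt := ?_, sumsq := ?_, F_eq := ?_, opt := ?_,
            cell := ?_, small := hsmall }⟩
  · have h5 : √cC * √cC = cC := Real.mul_self_sqrt cC_pos.le
    nlinarith [Real.sqrt_nonneg cC]
  · simp_rw [norm_smul, mul_pow]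
    rw [← Finset.mul_sum, hz0, Real.norm_eq_abs, sq_abs, mul_one]
  · rw [F_smul z0 hQpos.le, ← hQdef]; ring
  · intro u; rw [hQsq]; exact hQ u
  · intro A hA hz i
    refine hfirst A hA ?_ i
    intro i x hx j
    have := hz i x hx j
    rw [real_inner_smul_left, real_inner_smul_left] at this
    exact le_of_mul_le_mul_left this hQpos

namespace Crit

variable {ι : Type*} [Fintype ι] [DecidableEq ι] (c : Crit E ι)

lemma V_pos : 0 < c.V := cC_pos.trans c.V_gt

include c in
lemma nonempty : Nonempty ι := by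
  by_contra h
  rw [not_nonempty_iff] at h
  have := c.sumsq
  simp at this
  exact c.V_pos.ne this

lemma sum_z : ∑ i, c.z i = 0 := by
  haveI := c.nonempty
  obtain ⟨A, hA, hz⟩ := exists_argmax c.z
  rw [← hA.sum_mom]
  exact Finset.sum_congr rfl fun i _ => (c.cell A hA hz i).symm

lemma inner_neg {i j : ι} (hij : i ≠ j) : ⟪c.z i, c.z j⟫ ≤ (cC - c.V) / 2 := by
  haveI := c.nonempty
  obtain ⟨A, hA, hz⟩ := exists_argmax c.z
  have h := (c.small j).merge hij hA
  simp only [c.cell A hA hz, c.sumsq] at h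
  linarith

lemma inner_lt {i j : ι} (hij : i ≠ j) : ⟪c.z i, c.z j⟫ < 0 := by
  have := c.inner_neg hij
  have := c.V_gt
  linarith

lemma z_ne_zero (i : ι) (h : 1 < Fintype.card ι) : c.z i ≠ 0 := by
  haveI : Nontrivial ι := Fintype.one_lt_card_iff_nontrivial.1 h
  obtain ⟨j, hj⟩ := exists_ne i
  intro h0
  have := c.inner_lt hj.symm
  rw [h0, inner_zero_left] at this
  exact lt_irrefl _ this

lemma z_injective : Function.Injective c.z := by
  intro i j hij
  by_contra hne
  have := c.inner_lt hne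
  rw [hij] at this
  exact absurd this (not_lt.2 real_inner_self_nonneg)

end Crit

end Crest.Agent.R215
end

-- ▼ part R215/Struct

/-!
# Row 215: open cells, dual vectors, deletion inequality
-/

set_option autoImplicit false
set_option linter.unusedSectionVars false
set_option linter.style.haveILetI false

open MeasureTheory ProbabilityTheory Set Filter Topology
open scoped RealInnerProductSpace

namespace Crest.Agent.R215

variable {E : Type*} [NormedAddCommGroup E] [InnerProductSpace ℝ E] [FiniteDimensional ℝ E]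
  [MeasurableSpace E] [BorelSpace E]

/-- law of a linear functional -/
lemma map_inner (w : E) :
    (stdGaussian E).map (fun x => ⟪w, x⟫) = gaussianReal 0 (‖w‖₊ ^ 2) := by
  have h := IsGaussian.map_eq_gaussianReal (μ := stdGaussian E) (innerSL ℝ w)
  rw [integral_strongDual_stdGaussian, variance_dual_stdGaussian] at h
  have h1 : (fun x => ⟪w, x⟫) = ⇑(innerSL ℝ w) := by
    funext x; simp
  rw [h1, h]
  congr 1
  rw [innerSL_apply_norm]
  ext
  simp

lemma measure_inner_eq {w : E} (hw : w ≠ 0) (t : ℝ) :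
    stdGaussian E {x | ⟪w, x⟫ = t} = 0 := by
  have h : {x : E | ⟪w, x⟫ = t} = (fun x => ⟪w, x⟫) ⁻¹' {t} := by ext; simp
  rw [h, ← Measure.map_apply (by fun_prop) (measurableSet_singleton t), map_inner]
  haveI : NullSingletonClass (gaussianReal 0 (‖w‖₊ ^ 2)) := by
    apply nullSingletonClass_gaussianReal
    simpa using hw
  exact measure_singleton t

/-- open cell -/
def openCell {ι : Type*} (z : ι → E) (i : ι) : Set E := {x | ∀ j, j ≠ i → ⟪z j, x⟫ < ⟪z i, x⟫}

section cells

variable {ι : Type*} [Fintype ι]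

lemma measurableSet_openCell (z : ι → E) (i : ι) : MeasurableSet (openCell z i) := by
  classical
  unfold openCell
  rw [Set.ofPred_forall]
  refine MeasurableSet.iInter fun j => ?_
  by_cases h : j ≠ i
  · simp only [h, ne_eq, not_false_eq_true, forall_const]
    exact measurableSet_lt (by fun_prop) (by fun_prop)
  · simp [h]



/-- a.e. no ties -/
lemma ae_no_ties {z : ι → E} (hz : Function.Injective z) :
    ∀ᵐ x ∂stdGaussian E, ∀ i j, i ≠ j → ⟪z i, x⟫ ≠ ⟪z j, x⟫ := by
  rw [ae_all_iff]; intro i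
  rw [ae_all_iff]; intro j
  by_cases hij : i = j
  · exact Eventually.of_forall fun x h => absurd hij h
  · have h0 := measure_inner_eq (w := z i - z j) (sub_ne_zero.2 fun h => hij (hz h)) 0
    have h1 : ∀ᵐ x ∂stdGaussian E, ¬ (⟪z i - z j, x⟫ = 0) := by
      rw [ae_iff]
      simpa using h0
    filter_upwards [h1] with x hx _ h
    apply hx
    rw [inner_sub_left, h, sub_self]

/-- a.e. argmax cells are the open cells -/
lemma openCell_ae_eq {z : ι → E} (hz : Function.Injective z) {A : ι → Set E} (hA : IsPart A)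
    (hzA : IsArgmax z A) (i : ι) : A i =ᵐ[stdGaussian E] openCell z i := by
  filter_upwards [ae_no_ties hz] with x hx
  apply propext
  show x ∈ A i ↔ x ∈ openCell z i
  constructor
  · intro h j hj
    exact lt_of_le_of_ne (hzA i x h j) (hx j i hj)
  · intro h
    have : x ∈ ⋃ i, A i := by rw [hA.cov]; trivial
    obtain ⟨l, hl⟩ := Set.mem_iUnion.1 this
    by_cases hli : l = i
    · rw [← hli]; exact hl
    · exact absurd (h l hli) (not_lt.2 (hzA l x hl i))

lemma sum_setIntegral_openCell [Nonempty ι] {z : ι → E} (hz : Function.Injective z)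
    {G : Type*} [NormedAddCommGroup G]
    [NormedSpace ℝ G] {f : E → G} (hf : Integrable f (stdGaussian E)) :
    ∑ i, ∫ x in openCell z i, f x ∂stdGaussian E = ∫ x, f x ∂stdGaussian E := by
  obtain ⟨A, hA, hzA⟩ := exists_argmax z
  rw [← hA.sum_setIntegral hf]
  refine Finset.sum_congr rfl fun i _ => ?_
  exact (setIntegral_congr_set (openCell_ae_eq hz hA hzA i)).symm

lemma sum_measure_openCell [Nonempty ι] {z : ι → E} (hz : Function.Injective z) :
    ∑ i, (stdGaussian E).real (openCell z i) = 1 := by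
  have := sum_setIntegral_openCell hz (f := fun _ : E => (1:ℝ)) (integrable_const _)
  simpa using this


end cells

/-- if the `z i` are pairwise obtuse with zero sum, every linear relation is constant -/
lemma const_of_relation {ι : Type*} [Fintype ι] [Nonempty ι] {z : ι → E}
    (hsum : ∑ i, z i = 0) (hneg : ∀ i j, i ≠ j → ⟪z i, z j⟫ < 0) {a : ι → ℝ}
    (ha : ∑ i, a i • z i = 0) : ∀ i j, a i = a j := by
  obtain ⟨i0, hi0⟩ := Finite.exists_min a
  have hb : ∑ i, (a i - a i0) • z i = 0 := by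
    simp_rw [sub_smul]
    rw [Finset.sum_sub_distrib, ha, ← Finset.smul_sum, hsum, smul_zero, sub_zero]
  have h0 : ∑ i, (a i - a i0) * ⟪z i0, z i⟫ = 0 := by
    have : ⟪z i0, ∑ i, (a i - a i0) • z i⟫ = 0 := by rw [hb, inner_zero_right]
    rw [inner_sum] at this
    simpa [inner_smul_right] using this
  have hle : ∀ i ∈ (Finset.univ : Finset ι), (a i - a i0) * ⟪z i0, z i⟫ ≤ 0 := by
    intro i _
    by_cases h : i = i0
    · rw [h]; simp
    · exact mul_nonpos_of_nonneg_of_nonpos (sub_nonneg.2 (hi0 i)) (hneg i0 i (Ne.symm h)).le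
  have heq : ∀ i, a i = a i0 := by
    intro i
    by_cases h : i = i0
    · rw [h]
    · have h1 := (Finset.sum_eq_zero_iff_of_nonpos hle).1 h0 i (Finset.mem_univ i)
      rcases mul_eq_zero.1 h1 with h2 | h2
      · linarith
      · exact absurd h2 (hneg i0 i (Ne.symm h)).ne
  intro i j
  rw [heq i, heq j]

/-- any target vector with zero sum is realised as the vector of inner products -/
lemma exists_inner_eq {ι : Type*} [Fintype ι] [Nonempty ι] {z : ι → E}
    (hsum : ∑ i, z i = 0) (hneg : ∀ i j, i ≠ j → ⟪z i, z j⟫ < 0) (t : ι → ℝ)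
    (ht : ∑ i, t i = 0) : ∃ v ∈ Submodule.span ℝ (Set.range z), ∀ i, ⟪z i, v⟫ = t i := by
  classical
  -- work in EuclideanSpace
  let T : (ι → ℝ) →ₗ[ℝ] E := Fintype.linearCombination ℝ z
  have hT : ∀ a, T a = ∑ i, a i • z i := fun a => Fintype.linearCombination_apply ℝ z a
  let G : (ι → ℝ) →ₗ[ℝ] (ι → ℝ) := LinearMap.pi fun i => (innerₛₗ ℝ (z i)).comp T
  have hG : ∀ a i, G a i = ⟪z i, T a⟫ := fun a i => by simp [G]
  -- on the zero-sum hyperplane `H`, `G` is injective with values in `H`
  let H : Submodule ℝ (ι → ℝ) := LinearMap.ker (∑ i, LinearMap.proj i : (ι → ℝ) →ₗ[ℝ] ℝ)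
  have hH : ∀ a, a ∈ H ↔ ∑ i, a i = 0 := fun a => by
    simp [H, LinearMap.mem_ker]
  have hGH : ∀ a ∈ H, G a ∈ H := by
    intro a _
    rw [hH]
    simp_rw [hG]
    rw [← sum_inner, hsum, inner_zero_left]
  have hker : ∀ a ∈ H, G a = 0 → a = 0 := by
    intro a ha h0
    have h1 : ⟪T a, T a⟫ = 0 := by
      conv_lhs => rw [hT a, sum_inner]
      refine Finset.sum_eq_zero fun i _ => ?_
      rw [real_inner_smul_left, ← hT a, ← hG, h0]
      simp
    have h2 : T a = 0 := inner_self_eq_zero.1 h1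
    rw [hT] at h2
    have h3 := const_of_relation hsum hneg h2
    have h4 := (hH a).1 ha
    funext i
    have h5 : ∑ j, a j = Fintype.card ι * a i := by
      rw [Finset.sum_congr rfl fun j _ => h3 j i]
      simp
    rw [h5] at h4
    rcases mul_eq_zero.1 h4 with h6 | h6
    · have := Fintype.card_pos (α := ι)
      exact absurd h6 (by positivity)
    · simpa using h6
  let GH : H →ₗ[ℝ] H := G.restrict hGH
  have hinj : Function.Injective GH := by
    rw [← LinearMap.ker_eq_bot, LinearMap.ker_eq_bot']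
    intro a ha
    have : G a = 0 := by
      have := congrArg Subtype.val ha
      simpa [GH] using this
    exact Subtype.ext (hker a a.2 this)
  have hsurj : Function.Surjective GH := LinearMap.injective_iff_surjective.1 hinj
  obtain ⟨a, ha⟩ := hsurj ⟨t, (hH t).2 ht⟩
  refine ⟨T a, ?_, fun i => ?_⟩
  · rw [hT]
    exact Submodule.sum_mem _ fun i _ => Submodule.smul_mem _ _ (Submodule.subset_span ⟨i, rfl⟩)
  · rw [← hG]
    have := congrArg Subtype.val ha
    have h2 : G a = t := by simpa [GH] using this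
    rw [h2]

namespace Crit

variable {ι : Type*} [Fintype ι] [DecidableEq ι] (c : Crit E ι)

/-- cells -/
def A (i : ι) : Set E := openCell c.z i

/-- mass of cells -/
noncomputable def p (i : ι) : ℝ := (stdGaussian E).real (c.A i)

lemma measurableSet_A (i : ι) : MeasurableSet (c.A i) := measurableSet_openCell _ _

lemma mom_A (i : ι) : mom (c.A i) = c.z i := by
  haveI := c.nonempty
  obtain ⟨B, hB, hz⟩ := exists_argmax c.z
  rw [← c.cell B hB hz i]
  exact (setIntegral_congr_set (openCell_ae_eq c.z_injective hB hz i)).symm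

lemma integral_inner_A (w : E) (i : ι) :
    ∫ x in c.A i, ⟪w, x⟫ ∂stdGaussian E = ⟪w, c.z i⟫ := by
  rw [← inner_mom, c.mom_A]

lemma sum_p : ∑ i, c.p i = 1 := by
  haveI := c.nonempty
  exact sum_measure_openCell c.z_injective

lemma p_nonneg (i : ι) : 0 ≤ c.p i := measureReal_nonneg


lemma exists_dual (j : ι) : ∃ v ∈ Submodule.span ℝ (Set.range c.z),
    ∀ i, ⟪c.z i, v⟫ = (if i = j then 1 else 0) - (Fintype.card ι : ℝ)⁻¹ := by
  haveI := c.nonempty
  refine exists_inner_eq c.sum_z (fun i j hij => c.inner_lt hij) _ ?_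
  rw [Finset.sum_sub_distrib]
  have := Fintype.card_pos (α := ι)
  have h : (Fintype.card ι : ℝ) ≠ 0 := by positivity
  simp [h]

/-- dual vectors -/
noncomputable def v (j : ι) : E := (c.exists_dual j).choose


lemma inner_v (i j : ι) : ⟪c.z i, c.v j⟫ = (if i = j then 1 else 0) - (Fintype.card ι : ℝ)⁻¹ :=
  (c.exists_dual j).choose_spec.2 i

/-- `∫_{A_i} ⟪v_j, x⟫ = δ_ij - 1/k`. -/
lemma integral_v_A (i j : ι) : ∫ x in c.A i, ⟪c.v j, x⟫ ∂stdGaussian E
    = (if i = j then 1 else 0) - (Fintype.card ι : ℝ)⁻¹ := by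
  rw [c.integral_inner_A, real_inner_comm, c.inner_v]






end Crit

end Crest.Agent.R215
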