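import Crest.Agent.R215.GainCell
import Crest.Agent.R215.Struct
import Crest.Agent.R215.Base

-- ▼ part R215/TieBase
section

/-!
# Row 215: tie densities

Independence of orthogonal linear forms of a standard Gaussian vector, small strips, and the limit
`P(0 < ⟪e, x⟫ ≤ t, ⟪w i, x⟫ < 0 ∀ i) / t → P(⟪u i, x⟫ < 0 ∀ i) / (√(2π) ‖e‖)`,
`u i` the component of `w i` orthogonal to `e`.
-/

set_option autoImplicit false
open MeasureTheory ProbabilityTheory Set Filter Topology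
open scoped NNReal ENNReal RealInnerProductSpace

namespace Crest.Agent.R215.Tie

open Crest.Agent.Lib.Ehrhard

variable {E : Type*} [NormedAddCommGroup E] [InnerProductSpace ℝ E] [FiniteDimensional ℝ E]
  [MeasurableSpace E] [BorelSpace E]

lemma cov_inner (p q : E) : cov[fun x : E => ⟪p, x⟫, fun x => ⟪q, x⟫; stdGaussian E] = ⟪p, q⟫ := by
  rw [← covarianceBilin_apply_eq_cov, covarianceBilin_stdGaussian]
  · rfl
  · exact IsGaussian.memLp_two_id

/-- independence of the component along `e` and a family of forms orthogonal to `e` -/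
lemma indep_forms {κ : Type*} [Fintype κ] {e : E} {u : κ → E} (hu : ∀ i, ⟪e, u i⟫ = 0) :
    IndepFun (fun x : E => ⟪e, x⟫) (fun (x : E) (i : κ) => ⟪u i, x⟫) (stdGaussian E) := by
  have hL : HasGaussianLaw (fun x : E => ((fun (_ : Unit) => ⟪e, x⟫), (fun (i : κ) => ⟪u i, x⟫)))
      (stdGaussian E) := by
    have h := (IsGaussian.hasGaussianLaw_id (μ := stdGaussian E)).map_fun
      ((ContinuousLinearMap.pi (fun (_ : Unit) => innerSL ℝ e)).prod
        (ContinuousLinearMap.pi (fun i : κ => innerSL ℝ (u i))))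
    exact h
  have h2 := HasGaussianLaw.indepFun_of_covariance_eval (X := fun (_ : Unit) (x : E) => ⟪e, x⟫)
    (Y := fun (i : κ) (x : E) => ⟪u i, x⟫) hL (fun _ i => by rw [cov_inner, hu])
  exact h2.comp (φ := fun f : Unit → ℝ => f ()) (ψ := id) (by fun_prop) measurable_id

/-- product formula -/
lemma measure_strip_inter {κ : Type*} [Fintype κ] {e : E} {u : κ → E} (hu : ∀ i, ⟪e, u i⟫ = 0)
    {I : Set ℝ} (hI : MeasurableSet I) {B : Set (κ → ℝ)} (hB : MeasurableSet B) :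
    (stdGaussian E).real {x | ⟪e, x⟫ ∈ I ∧ (fun i => ⟪u i, x⟫) ∈ B}
      = (stdGaussian E).real {x | ⟪e, x⟫ ∈ I} * (stdGaussian E).real {x | (fun i => ⟪u i, x⟫) ∈ B} := by
  have h := (indep_forms hu).measure_inter_preimage_eq_mul I B hI hB
  rw [measureReal_def, measureReal_def, measureReal_def, ← ENNReal.toReal_mul]
  exact congrArg ENNReal.toReal h

lemma gamma_real_Ioc {s : ℝ} (hs : 0 ≤ s) : (γ).real (Ioc 0 s) = Phi s - Phi 0 := by
  rw [measureReal_def, gaussianReal_apply_eq_integral 0 one_ne_zero, ← phi_eq,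
    ENNReal.toReal_ofReal (integral_nonneg fun x => phi_nonneg x), Phi_eq_add s,
    intervalIntegral.integral_of_le hs]
  ring


lemma strip_eq {e : E} (he : e ≠ 0) {t : ℝ} (ht : 0 ≤ t) :
    (stdGaussian E).real {x | ⟪e, x⟫ ∈ Ioc 0 t} = Phi (t / ‖e‖) - Phi 0 := by
  have hn : 0 < ‖e‖ := norm_pos_iff.2 he
  have hu : ‖(‖e‖⁻¹ • e)‖ = 1 := by
    rw [norm_smul, norm_inv, norm_norm, inv_mul_cancel₀ hn.ne']
  rw [← gamma_real_Ioc (by positivity : 0 ≤ t / ‖e‖), ← CM.map_inner_unit hu,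
    map_measureReal_apply (by fun_prop) measurableSet_Ioc]
  congr 1
  ext x
  simp only [mem_ofPred_eq, mem_preimage, mem_Ioc, real_inner_smul_left]
  rw [le_div_iff₀ hn, inv_mul_eq_div, div_mul_cancel₀ _ hn.ne']
  constructor
  · rintro ⟨h1, h2⟩; exact ⟨by positivity, h2⟩
  · rintro ⟨h1, h2⟩
    refine ⟨?_, h2⟩
    by_contra hc
    push Not at hc
    have := div_nonpos_of_nonpos_of_nonneg hc hn.le
    linarith

lemma tendsto_strip {e : E} (he : e ≠ 0) :
    Tendsto (fun t : ℝ => (stdGaussian E).real {x | ⟪e, x⟫ ∈ Ioc 0 t} / t) (𝓝[>] 0)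
      (𝓝 (1 / (√(2 * Real.pi) * ‖e‖))) := by
  have hn : 0 < ‖e‖ := norm_pos_iff.2 he
  have h1 : HasDerivAt (fun t : ℝ => Phi (t / ‖e‖)) (phi 0 * (1 / ‖e‖)) 0 := by
    have h2 : HasDerivAt (fun t : ℝ => t / ‖e‖) (1 / ‖e‖) 0 := (hasDerivAt_id (0:ℝ)).div_const _
    have h3 := hasDerivAt_Phi (0 / ‖e‖)
    rw [zero_div] at h3
    exact HasDerivAt.comp (0:ℝ) (by simpa using h3) h2
  have h4 := (hasDerivAt_iff_tendsto_slope_zero.1 h1).mono_left (nhdsGT_le_nhdsNE 0)
  have e1 : phi 0 * (1 / ‖e‖) = 1 / (√(2 * Real.pi) * ‖e‖) := by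
    simp [phi]; ring
  rw [← e1]
  refine h4.congr' ?_
  filter_upwards [self_mem_nhdsWithin] with t ht
  rw [strip_eq he (le_of_lt ht)]
  simp only [zero_add, zero_div, smul_eq_mul]
  rw [inv_mul_eq_div]

lemma hyperplane_null {u : E} (hu : u ≠ 0) : stdGaussian E {x | ⟪u, x⟫ = 0} = 0 := by
  have hn : 0 < ‖u‖ ^ 2 := by have := norm_pos_iff.2 hu; positivity
  refine GainCell.no_atoms (D := fun x => ⟪u, x⟫) (by fun_prop) (v := (‖u‖ ^ 2)⁻¹ • u)
    (fun x t => ?_) 0
  rw [inner_add_right, real_inner_smul_right, real_inner_smul_right, real_inner_self_eq_norm_sq]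
  field_simp

lemma measurableSet_forall_lt {κ : Type*} [Fintype κ] (u : κ → E) (s : ℝ) :
    MeasurableSet {x : E | ∀ i, ⟪u i, x⟫ < s} := by
  rw [Set.ofPred_forall]
  exact MeasurableSet.iInter fun i => measurableSet_lt (by fun_prop) (by fun_prop)

/-- continuity at `0` of the distribution function of the maximum -/
lemma tendsto_max_lt {κ : Type*} [Fintype κ] {u : κ → E} (hu : ∀ i, u i ≠ 0) :
    Tendsto (fun s : ℝ => (stdGaussian E).real {x | ∀ i, ⟪u i, x⟫ < s}) (𝓝 0)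
      (𝓝 ((stdGaussian E).real {x | ∀ i, ⟪u i, x⟫ < 0})) := by
  have h : Tendsto (fun s : ℝ => (stdGaussian E) {x | ∀ i, ⟪u i, x⟫ < s}) (𝓝 0)
      (𝓝 ((stdGaussian E) {x | ∀ i, ⟪u i, x⟫ < 0})) := by
    refine tendsto_measure_of_ae_tendsto_indicator_of_isFiniteMeasure _
      (measurableSet_forall_lt u 0) (fun s => measurableSet_forall_lt u s) ?_
    have hae : ∀ᵐ x ∂stdGaussian E, ∀ i, ⟪u i, x⟫ ≠ 0 := by
      rw [ae_all_iff]
      intro i
      exact measure_eq_zero_iff_ae_notMem.1 (hyperplane_null (hu i))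
    filter_upwards [hae] with x hx
    have h1 : ∀ i, ∀ᶠ s : ℝ in 𝓝 0, (⟪u i, x⟫ < s ↔ ⟪u i, x⟫ < 0) := by
      intro i
      rcases lt_or_gt_of_ne (hx i) with h | h
      · filter_upwards [lt_mem_nhds h] with s hs
        exact ⟨fun _ => h, fun _ => hs⟩
      · filter_upwards [gt_mem_nhds h] with s hs
        exact ⟨fun h' => absurd (h'.trans hs) (lt_irrefl _), fun h' => absurd (h'.trans h) (lt_irrefl _)⟩
    filter_upwards [eventually_all.2 h1] with s hs
    simp only [hs]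
  exact (ENNReal.tendsto_toReal (by finiteness)).comp h

/-- **limit of the strip probability** -/
theorem tendsto_tie {κ : Type*} [Fintype κ] {e : E} (he : e ≠ 0) {u : κ → E}
    (hu : ∀ i, ⟪e, u i⟫ = 0) (hu0 : ∀ i, u i ≠ 0) (β : κ → ℝ) :
    Tendsto (fun t : ℝ => (stdGaussian E).real
      {x | ⟪e, x⟫ ∈ Ioc 0 t ∧ ∀ i, ⟪u i + β i • e, x⟫ < 0} / t) (𝓝[>] 0)
      (𝓝 ((1 / (√(2 * Real.pi) * ‖e‖)) * (stdGaussian E).real {x | ∀ i, ⟪u i, x⟫ < 0})) := by
  set B : ℝ := ∑ i, |β i| with hB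
  have hBi : ∀ i, |β i| ≤ B := fun i => Finset.single_le_sum (f := fun i => |β i|)
    (fun j _ => abs_nonneg _) (Finset.mem_univ i)
  have hset : ∀ s : ℝ, MeasurableSet {f : κ → ℝ | ∀ i, f i < s} := by
    intro s
    rw [Set.ofPred_forall]
    exact MeasurableSet.iInter fun i => measurableSet_lt (by fun_prop) (by fun_prop)
  have hprod : ∀ (t s : ℝ), (stdGaussian E).real {x | ⟪e, x⟫ ∈ Ioc 0 t ∧ ∀ i, ⟪u i, x⟫ < s}
      = (stdGaussian E).real {x | ⟪e, x⟫ ∈ Ioc 0 t} * (stdGaussian E).real {x | ∀ i, ⟪u i, x⟫ < s} :=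
    fun t s => measure_strip_inter hu measurableSet_Ioc (hset s)
  have hlim : ∀ c : ℝ, Tendsto (fun t : ℝ => ((stdGaussian E).real {x | ⟪e, x⟫ ∈ Ioc 0 t} / t)
      * (stdGaussian E).real {x | ∀ i, ⟪u i, x⟫ < c * t}) (𝓝[>] 0)
      (𝓝 ((1 / (√(2 * Real.pi) * ‖e‖)) * (stdGaussian E).real {x | ∀ i, ⟪u i, x⟫ < 0})) := by
    intro c
    refine (tendsto_strip he).mul ?_
    refine (tendsto_max_lt hu0).comp ?_
    have : Tendsto (fun t : ℝ => c * t) (𝓝 0) (𝓝 (c * 0)) := by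
      exact (continuous_const.mul continuous_id).tendsto 0
    rw [mul_zero] at this
    exact this.mono_left nhdsWithin_le_nhds
  refine tendsto_of_tendsto_of_tendsto_of_le_of_le' (hlim (-B)) (hlim B) ?_ ?_
  · filter_upwards [self_mem_nhdsWithin] with t ht
    have ht' : (0:ℝ) < t := ht
    rw [div_mul_eq_mul_div, ← hprod]
    refine div_le_div_of_nonneg_right ?_ ht'.le
    refine measureReal_mono ?_ (by finiteness)
    rintro x ⟨⟨h1, h2⟩, h3⟩
    refine ⟨⟨h1, h2⟩, fun i => ?_⟩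
    have h4 := h3 i
    rw [inner_add_left, real_inner_smul_left]
    have h5 : β i * ⟪e, x⟫ ≤ B * t := by
      calc β i * ⟪e, x⟫ ≤ |β i| * ⟪e, x⟫ := mul_le_mul_of_nonneg_right (le_abs_self _) h1.le
        _ ≤ B * t := mul_le_mul (hBi i) h2 h1.le ((abs_nonneg _).trans (hBi i))
    linarith
  · filter_upwards [self_mem_nhdsWithin] with t ht
    have ht' : (0:ℝ) < t := ht
    rw [div_mul_eq_mul_div, ← hprod]
    refine div_le_div_of_nonneg_right ?_ ht'.le
    refine measureReal_mono ?_ (by finiteness)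
    rintro x ⟨⟨h1, h2⟩, h3⟩
    refine ⟨⟨h1, h2⟩, fun i => ?_⟩
    have h4 := h3 i
    rw [inner_add_left, real_inner_smul_left] at h4
    have h5 : -(β i) * ⟪e, x⟫ ≤ B * t := by
      calc -(β i) * ⟪e, x⟫ ≤ |β i| * ⟪e, x⟫ := mul_le_mul_of_nonneg_right (neg_le_abs _) h1.le
        _ ≤ B * t := mul_le_mul (hBi i) h2 h1.le ((abs_nonneg _).trans (hBi i))
    linarith

section cells

variable {ι : Type*}

/-- component of `z i - z j` orthogonal to `z j - z l` -/
noncomputable def perp (z : ι → E) (j l i : ι) : E :=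
  (z i - z j) - (⟪z j - z l, z i - z j⟫ / ‖z j - z l‖ ^ 2) • (z j - z l)

omit [FiniteDimensional ℝ E] [MeasurableSpace E] [BorelSpace E] in
lemma inner_perp {z : ι → E} {j l : ι} (h : z j ≠ z l) (i : ι) : ⟪z j - z l, perp z j l i⟫ = 0 := by
  have hn : ‖z j - z l‖ ^ 2 ≠ 0 := by
    have := norm_pos_iff.2 (sub_ne_zero.2 h); positivity
  rw [perp, inner_sub_right, real_inner_smul_right, real_inner_self_eq_norm_sq,
    div_mul_cancel₀ _ hn, sub_self]

/-- the tie event: on the hyperplane `⟪z j, x⟫ = ⟪z l, x⟫` the tie value beats all others -/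
def tieSet (z : ι → E) (j l : ι) : Set E := {x | ∀ i, i ≠ j → i ≠ l → ⟪perp z j l i, x⟫ < 0}

variable [Fintype ι]

/-- **tie identity** -/
theorem tie_identity {z : ι → E} {j l : ι} (hjl : j ≠ l) (hz : z j ≠ z l) {v : E}
    (hv : ∀ i, i ≠ l → ⟪v, z l⟫ = ⟪v, z i⟫ + 1)
    (hperp : ∀ i, i ≠ j → i ≠ l → perp z j l i ≠ 0) :
    (1 / (√(2 * Real.pi) * ‖z j - z l‖)) * (stdGaussian E).real (tieSet z j l)
      = -⟪v, mom (openCell z j)⟫ := by
  set e := z j - z l with he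
  have he0 : e ≠ 0 := sub_ne_zero.2 hz
  classical
  let κ := {i : ι // i ≠ j ∧ i ≠ l}
  let u : κ → E := fun i => perp z j l i
  let β : κ → ℝ := fun i => ⟪e, z i - z j⟫ / ‖e‖ ^ 2
  have hlim := tendsto_tie he0 (u := u) (fun i => inner_perp hz i) (fun i => hperp i i.2.1 i.2.2) β
  have hset : {x | ∀ i, ⟪u i, x⟫ < 0} = tieSet z j l := by
    ext x
    simp only [mem_ofPred_eq, tieSet, u, κ, Subtype.forall, and_imp]
  rw [hset] at hlim
  have hder := CM.hasDerivAt_translate v (measurableSet_openCell z j)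
  have hslope := ((hasDerivAt_iff_tendsto_slope_zero.1 hder).mono_left (nhdsGT_le_nhdsNE 0)).neg
  have hkey : Tendsto (fun t : ℝ => (stdGaussian E).real
      {x | ⟪e, x⟫ ∈ Ioc 0 t ∧ ∀ i, ⟪u i + β i • e, x⟫ < 0} / t) (𝓝[>] 0)
      (𝓝 (-(∫ x in openCell z j, ⟪v, x⟫ ∂stdGaussian E))) := by
    refine hslope.congr' ?_
    filter_upwards [self_mem_nhdsWithin] with t ht
    have ht' : (0:ℝ) < t := ht
    have hub : ∀ (i : κ) (x : E), ⟪u i + β i • e, x⟫ = ⟪z i, x⟫ - ⟪z j, x⟫ := by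
      intro i x
      have : u i + β i • e = z i - z j := by
        simp only [u, β, perp, ← he]
        abel
      rw [this, inner_sub_left]
    have hex : ∀ x : E, ⟪e, x⟫ = ⟪z j, x⟫ - ⟪z l, x⟫ := fun x => by rw [he, inner_sub_left]
    -- the translate
    have htr : {x | x + t • v ∈ openCell z j}
        = {x | (∀ i, i ≠ j → i ≠ l → ⟪z i, x⟫ < ⟪z j, x⟫) ∧ ⟪z l, x⟫ + t < ⟪z j, x⟫} := by
      ext x
      simp only [openCell, mem_ofPred_eq, inner_add_right, real_inner_smul_right]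
      have hvj : ⟪z l, v⟫ = ⟪z j, v⟫ + 1 := by
        rw [real_inner_comm v (z l), real_inner_comm v (z j)]; exact hv j hjl
      constructor
      · intro h
        refine ⟨fun i hi hil => ?_, ?_⟩
        · have h1 := h i hi
          have h2 : ⟪z l, v⟫ = ⟪z i, v⟫ + 1 := by
            rw [real_inner_comm v (z l), real_inner_comm v (z i)]; exact hv i hil
          have h3 : ⟪z i, v⟫ = ⟪z j, v⟫ := by linarith
          rw [h3] at h1
          linarith
        · have h1 := h l hjl.symm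
          rw [hvj] at h1
          linarith
      · rintro ⟨h1, h2⟩ i hi
        by_cases hil : i = l
        · rw [hil, hvj]; linarith
        · have h3 : ⟪z l, v⟫ = ⟪z i, v⟫ + 1 := by
            rw [real_inner_comm v (z l), real_inner_comm v (z i)]; exact hv i hil
          have h4 : ⟪z i, v⟫ = ⟪z j, v⟫ := by linarith
          rw [h4]
          linarith [h1 i hi hil]
    have hsub : {x | x + t • v ∈ openCell z j} ⊆ openCell z j := by
      rw [htr]
      rintro x ⟨h1, h2⟩ i hi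
      by_cases hil : i = l
      · rw [hil]; linarith
      · exact h1 i hi hil
    have hdiff : {x | ⟪e, x⟫ ∈ Ioc 0 t ∧ ∀ i, ⟪u i + β i • e, x⟫ < 0}
        = openCell z j \ {x | x + t • v ∈ openCell z j} := by
      rw [htr]
      ext x
      simp only [mem_ofPred_eq, Set.mem_sdiff, mem_Ioc, hub, hex, κ, Subtype.forall, and_imp, openCell,
        not_and, not_lt]
      constructor
      · rintro ⟨⟨h1, h2⟩, h3⟩
        refine ⟨fun i hi => ?_, fun _ => by linarith⟩
        by_cases hil : i = l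
        · rw [hil]; linarith
        · have := h3 i hi hil; linarith
      · rintro ⟨h1, h2⟩
        refine ⟨⟨by linarith [h1 l hjl.symm], ?_⟩, fun i hi hil => by linarith [h1 i hi]⟩
        have := h2 (fun i hi _ => h1 i hi)
        linarith
    have hmeas : MeasurableSet {x | x + t • v ∈ openCell z j} :=
      (measurable_add_const (t • v)) (measurableSet_openCell z j)
    rw [hdiff, measureReal_sdiff hsub hmeas]
    simp only [zero_add, zero_smul, add_zero, smul_eq_mul]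
    have : {x : E | x ∈ openCell z j} = openCell z j := rfl
    rw [this]
    field_simp
    ring
  have h3 := tendsto_nhds_unique hlim hkey
  rw [inner_mom]
  exact h3

end cells

section crit

variable {ι : Type*} [Fintype ι] [DecidableEq ι] (c : Crit E ι)

lemma perp_ne_zero {j l i : ι} (hjl : j ≠ l) (hij : i ≠ j) (hil : i ≠ l) :
    perp c.z j l i ≠ 0 := by
  intro h
  have := c.nonempty
  set r : ℝ := ⟪c.z j - c.z l, c.z i - c.z j⟫ / ‖c.z j - c.z l‖ ^ 2 with hr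
  have h1 : c.z i - (1 + r) • c.z j + r • c.z l = 0 := by
    rw [perp, ← hr] at h
    rw [← h, smul_sub, add_smul, one_smul]; abel
  let a : ι → ℝ := fun m => if m = i then 1 else if m = j then -(1 + r) else if m = l then r else 0
  have h2 : ∑ m, a m • c.z m = 0 := by
    have e : ∀ m, a m • c.z m = (if m = i then c.z i else 0) + (if m = j then -((1 + r) • c.z j) else 0)
        + (if m = l then r • c.z l else 0) := by
      intro m
      by_cases h3 : m = i
      · subst h3; simp [a, hij, hil]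
      · by_cases h4 : m = j
        · subst h4
          simp only [a, h3, hjl, if_false, if_true, add_zero, zero_add, neg_smul]
        · by_cases h5 : m = l
          · subst h5; simp [a, h3, h4]
          · simp [a, h3, h4, h5]
    rw [Finset.sum_congr rfl fun m _ => e m, Finset.sum_add_distrib, Finset.sum_add_distrib]
    simp only [Finset.sum_ite_eq', Finset.mem_univ, if_true]
    rw [← h1]; abel
  have h3 := const_of_relation c.sum_z (fun i j hij => c.inner_lt hij) h2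
  have h4 : a i = a j := h3 i j
  have h5 : a i = a l := h3 i l
  simp only [a, if_true, hij.symm, hil.symm, hjl.symm, if_false] at h4 h5
  linarith

/-- **tie identity for a critical configuration** -/
theorem tie_crit {j l : ι} (hjl : j ≠ l) :
    (stdGaussian E).real (tieSet c.z j l)
      = √(2 * Real.pi) * ‖c.z j - c.z l‖ / Fintype.card ι := by
  have hz : c.z j ≠ c.z l := fun h => hjl (c.z_injective h)
  have h := tie_identity (z := c.z) hjl hz (v := c.v l)
    (fun i hi => by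
      rw [real_inner_comm, real_inner_comm (c.z i), c.inner_v, c.inner_v, if_pos rfl, if_neg hi]
      ring)
    (fun i hij hil => perp_ne_zero c hjl hij hil)
  rw [← show c.A j = openCell c.z j from rfl, c.mom_A, real_inner_comm, c.inner_v, if_neg hjl] at h
  have hn : 0 < ‖c.z j - c.z l‖ := norm_pos_iff.2 (sub_ne_zero.2 hz)
  have hs : 0 < √(2 * Real.pi) := by positivity
  rw [zero_sub, neg_neg, one_div, inv_mul_eq_div, div_eq_iff (by positivity)] at h
  rw [h]
  ring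

end crit

end Crest.Agent.R215.Tie
end

-- ▼ part R215/TieIneq
section

/-!
# Row 215: tie inequalities (linear bounds)
-/

set_option autoImplicit false
open MeasureTheory ProbabilityTheory Set Filter Topology
open scoped NNReal ENNReal RealInnerProductSpace

namespace Crest.Agent.R215.Tie

open Crest.Agent.Lib.Ehrhard

variable {E : Type*} [NormedAddCommGroup E] [InnerProductSpace ℝ E] [FiniteDimensional ℝ E]
  [MeasurableSpace E] [BorelSpace E]








section foot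

variable {ι : Type*} [Fintype ι] [DecidableEq ι] (c : Crit E ι)

/-- foot of the perpendicular from `0` to the line through `z j, z l` -/
noncomputable def foot (z : ι → E) (j l : ι) : E :=
  z j - (⟪z j - z l, z j⟫ / ‖z j - z l‖ ^ 2) • (z j - z l)

lemma norm_sub_pos {j l : ι} (hjl : j ≠ l) : 0 < ‖c.z j - c.z l‖ :=
  norm_pos_iff.2 (sub_ne_zero.2 fun h => hjl (c.z_injective h))

/-- the foot is orthogonal to the line -/
lemma inner_foot {j l : ι} (hjl : j ≠ l) : ⟪c.z j - c.z l, foot c.z j l⟫ = 0 := by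
  have hn := norm_sub_pos c hjl
  rw [foot, inner_sub_right, real_inner_smul_right, real_inner_self_eq_norm_sq,
    div_mul_cancel₀ _ (by positivity), sub_self]

lemma foot_comb {j l : ι} : foot c.z j l =
    (1 - ⟪c.z j - c.z l, c.z j⟫ / ‖c.z j - c.z l‖ ^ 2) • c.z j
      + (⟪c.z j - c.z l, c.z j⟫ / ‖c.z j - c.z l‖ ^ 2) • c.z l := by
  rw [foot, sub_smul, smul_sub, one_smul]; abel

lemma ratio_pos {j l : ι} (hjl : j ≠ l) : 0 < ⟪c.z j - c.z l, c.z j⟫ / ‖c.z j - c.z l‖ ^ 2 := by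
  have hn := norm_sub_pos c hjl
  have h1 := c.inner_lt hjl
  refine div_pos ?_ (by positivity)
  rw [inner_sub_left, real_inner_self_eq_norm_sq]
  have := sq_nonneg ‖c.z j‖
  rw [real_inner_comm] at h1
  linarith

lemma ratio_lt_one {j l : ι} (hjl : j ≠ l) : ⟪c.z j - c.z l, c.z j⟫ / ‖c.z j - c.z l‖ ^ 2 < 1 := by
  have hn := norm_sub_pos c hjl
  have h1 := c.inner_lt hjl
  rw [div_lt_one (by positivity), norm_sub_sq_real, inner_sub_left, real_inner_self_eq_norm_sq,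
    real_inner_comm]
  have := sq_nonneg ‖c.z l‖
  linarith

/-- the foot makes obtuse angles with the other vectors -/
lemma inner_foot_neg {j l i : ι} (hjl : j ≠ l) (hij : i ≠ j) (hil : i ≠ l) :
    ⟪foot c.z j l, c.z i⟫ < 0 := by
  rw [foot_comb, inner_add_left, real_inner_smul_left, real_inner_smul_left]
  have h1 := ratio_pos c hjl
  have h2 := ratio_lt_one c hjl
  have h3 := c.inner_lt hij.symm
  have h4 := c.inner_lt hil.symm
  nlinarith

lemma inner_foot_left {j l : ι} (hjl : j ≠ l) : ⟪foot c.z j l, c.z j⟫ = ‖foot c.z j l‖ ^ 2 := by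
  have h1 := inner_foot c hjl
  have h2 : c.z j = foot c.z j l + (⟪c.z j - c.z l, c.z j⟫ / ‖c.z j - c.z l‖ ^ 2) • (c.z j - c.z l) := by
    rw [foot]; abel
  conv_lhs => rw [h2]
  rw [inner_add_right, real_inner_smul_right, real_inner_comm, real_inner_comm (c.z j - c.z l), h1]
  rw [real_inner_self_eq_norm_sq]; ring

lemma inner_foot_right {j l : ι} (hjl : j ≠ l) : ⟪foot c.z j l, c.z l⟫ = ‖foot c.z j l‖ ^ 2 := by
  have h1 := inner_foot c hjl
  have h2 := inner_foot_left c hjl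
  rw [real_inner_comm, inner_sub_right] at h1
  linarith

lemma foot_ne_zero {j l : ι} (hjl : j ≠ l) (h3 : ∃ i, i ≠ j ∧ i ≠ l) : foot c.z j l ≠ 0 := by
  obtain ⟨i, hij, hil⟩ := h3
  intro h
  have := inner_foot_neg c hjl hij hil
  rw [h, inner_zero_left] at this
  exact lt_irrefl _ this

/-- `‖foot‖² ‖z j - z l‖² = ‖z j‖²‖z l‖² - ⟪z j, z l⟫²` -/
lemma norm_foot_sq {j l : ι} (hjl : j ≠ l) : ‖foot c.z j l‖ ^ 2 * ‖c.z j - c.z l‖ ^ 2
    = ‖c.z j‖ ^ 2 * ‖c.z l‖ ^ 2 - ⟪c.z j, c.z l⟫ ^ 2 := by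
  have hn := norm_sub_pos c hjl
  rw [← inner_foot_left c hjl, foot, inner_sub_left, real_inner_smul_left,
    real_inner_self_eq_norm_sq]
  have e : (‖c.z j‖ ^ 2 - ⟪c.z j - c.z l, c.z j⟫ / ‖c.z j - c.z l‖ ^ 2 * ⟪c.z j - c.z l, c.z j⟫)
      * ‖c.z j - c.z l‖ ^ 2 = ‖c.z j‖ ^ 2 * ‖c.z j - c.z l‖ ^ 2 - ⟪c.z j - c.z l, c.z j⟫ ^ 2 := by
    field_simp
  rw [e, norm_sub_sq_real, inner_sub_left, real_inner_self_eq_norm_sq, real_inner_comm]
  ring

/-- relation between `perp` and the foot -/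
lemma inner_perp_foot {j l i : ι} (hjl : j ≠ l) : ⟪perp c.z j l i, foot c.z j l⟫
    = ⟪foot c.z j l, c.z i⟫ - ‖foot c.z j l‖ ^ 2 := by
  rw [perp, inner_sub_left, real_inner_smul_left, inner_foot c hjl, mul_zero, sub_zero,
    inner_sub_left, real_inner_comm, real_inner_comm (foot c.z j l), inner_foot_left c hjl]

/-- half of the space -/
lemma half_space {a : E} (ha : a ≠ 0) : (stdGaussian E).real {x | 0 < ⟪a, x⟫} = 1 / 2 := by
  have hm : MeasurableSet {x : E | 0 < ⟪a, x⟫} := measurableSet_lt (by fun_prop) (by fun_prop)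
  have h1 : (stdGaussian E).real {x | 0 < ⟪a, x⟫} = (stdGaussian E).real {x | 0 < ⟪a, x⟫}ᶜ := by
    have hneg : (stdGaussian E).map (fun x => -x) = stdGaussian E :=
      stdGaussian_map (LinearIsometryEquiv.neg ℝ (E := E))
    have e1 : (stdGaussian E).real {x | ⟪a, x⟫ < 0} = (stdGaussian E).real {x | 0 < ⟪a, x⟫} := by
      conv_lhs => rw [← hneg]
      rw [map_measureReal_apply (by fun_prop) (measurableSet_lt (by fun_prop) (by fun_prop))]
      congr 1
      ext x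
      simp [inner_neg_right]
    rw [← e1]
    refine measureReal_congr ?_
    have h0 := hyperplane_null (E := E) ha
    have h2 : ∀ᵐ x ∂stdGaussian E, ¬ (⟪a, x⟫ = 0) := measure_eq_zero_iff_ae_notMem.1 h0
    filter_upwards [h2] with x hx
    apply propext
    show ⟪a, x⟫ < 0 ↔ ¬ (0 < ⟪a, x⟫)
    rw [not_lt]
    exact ⟨fun h => h.le, fun h => lt_of_le_of_ne h hx⟩
  rw [probReal_compl_eq_one_sub hm] at h1
  linarith

lemma tieSet_ge {j l : ι} (hjl : j ≠ l) (h3 : ∃ i, i ≠ j ∧ i ≠ l) :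
    1 / 2 - ∑ i ∈ (Finset.univ.erase j).erase l,
        (stdGaussian E).real {x | 0 < ⟪foot c.z j l, x⟫ ∧ 0 ≤ ⟪perp c.z j l i, x⟫}
      ≤ (stdGaussian E).real (tieSet c.z j l) := by
  rw [← half_space (foot_ne_zero c hjl h3), sub_le_iff_le_add]
  have hsub : {x | 0 < ⟪foot c.z j l, x⟫} ⊆ tieSet c.z j l ∪
      ⋃ i ∈ (Finset.univ.erase j).erase l, {x | 0 < ⟪foot c.z j l, x⟫ ∧ 0 ≤ ⟪perp c.z j l i, x⟫} := by
    intro x hx
    by_cases h : x ∈ tieSet c.z j l
    · exact Or.inl h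
    · right
      simp only [tieSet, mem_ofPred_eq, not_forall, not_lt] at h
      obtain ⟨i, hij, hil, hi⟩ := h
      simp only [mem_iUnion]
      exact ⟨i, by simp [hij, hil], hx, hi⟩
  refine (measureReal_mono hsub (by finiteness)).trans ?_
  refine (measureReal_union_le _ _).trans ?_
  gcongr
  exact measureReal_biUnion_finset_le _ _


omit [FiniteDimensional ℝ E] [MeasurableSpace E] [BorelSpace E] in
lemma gram_le {a e y : E} (lam r : ℝ) (hea : ⟪e, a⟫ = 0) (hye : ⟪e, y - r • e⟫ = 0) :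
    ‖lam • a + (y - r • e)‖ ^ 2 * ‖a‖ ^ 2 - ⟪lam • a + (y - r • e), a⟫ ^ 2
      ≤ ‖y‖ ^ 2 * ‖a‖ ^ 2 - ⟪y, a⟫ ^ 2 := by
  set p := y - r • e with hp
  have h1 : ⟪p, a⟫ = ⟪y, a⟫ := by
    rw [hp, inner_sub_left, real_inner_smul_left, hea, mul_zero, sub_zero]
  have h2 : ‖y‖ ^ 2 = ‖p‖ ^ 2 + r ^ 2 * ‖e‖ ^ 2 := by
    have : y = p + r • e := by rw [hp]; abel
    rw [this, norm_add_sq_real, real_inner_smul_right, real_inner_comm, hye, norm_smul, mul_pow,
      Real.norm_eq_abs, sq_abs]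
    ring
  rw [norm_add_sq_real, inner_add_left, real_inner_smul_left, real_inner_smul_left,
    real_inner_self_eq_norm_sq, norm_smul, mul_pow, Real.norm_eq_abs, sq_abs, real_inner_comm p a,
    ← h1, h2]
  have h3 : 0 ≤ r ^ 2 * ‖e‖ ^ 2 * ‖a‖ ^ 2 := by positivity
  nlinarith

lemma proj_orth {j l : ι} (hjl : j ≠ l) (y : E) :
    ⟪c.z j - c.z l, y - (⟪c.z j - c.z l, y⟫ / ‖c.z j - c.z l‖ ^ 2) • (c.z j - c.z l)⟫ = 0 := by
  have hn := norm_sub_pos c hjl
  rw [inner_sub_right, real_inner_smul_right, real_inner_self_eq_norm_sq,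
    div_mul_cancel₀ _ (by positivity), sub_self]




end foot

end Crest.Agent.R215.Tie
end

-- ▼ part R215/TieArctan

/-!
# Row 215: tie inequalities with exact angles (arctan)
-/

set_option autoImplicit false
open MeasureTheory ProbabilityTheory Set Filter Topology
open scoped NNReal ENNReal RealInnerProductSpace

namespace Crest.Agent.R215.Tie

open Crest.Agent.Lib.Ehrhard

/-- the wedge function -/
noncomputable def G (x : ℝ) : ℝ := ∫ w in Ioi (0:ℝ), phi w * (Phi (x * w) - Phi 0)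

lemma abs_Phi_sub_le (y : ℝ) : |Phi y - Phi 0| ≤ 1 := by
  have h1 := Phi_nonneg y
  have h2 := (Phi_lt_one y).le
  have h3 := Phi_nonneg 0
  have h4 := (Phi_lt_one 0).le
  rw [abs_le]; constructor <;> linarith

lemma integral_mul_exp {b : ℝ} (hb : 0 < b) :
    ∫ w in Ioi (0:ℝ), w * Real.exp (-b * w ^ 2) = 1 / (2 * b) := by
  have h1 : ∀ x ∈ Ioi (0:ℝ), HasDerivAt (fun w : ℝ => -(1 / (2 * b)) * Real.exp (-b * w ^ 2))
      (x * Real.exp (-b * x ^ 2)) x := by
    intro x _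
    have h2 : HasDerivAt (fun w : ℝ => -b * w ^ 2) (-b * (2 * x)) x := by
      have := (hasDerivAt_pow 2 x).const_mul (-b)
      simpa using this
    refine ((h2.exp).const_mul (-(1 / (2 * b)))).congr_deriv ?_
    field_simp
  have hint : IntegrableOn (fun w : ℝ => w * Real.exp (-b * w ^ 2)) (Ioi 0) :=
    (integrable_mul_exp_neg_mul_sq hb).integrableOn
  have hlim : Tendsto (fun w : ℝ => -(1 / (2 * b)) * Real.exp (-b * w ^ 2)) atTop (𝓝 (-(1 / (2 * b)) * 0)) := by
    refine Tendsto.const_mul _ ?_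
    refine Real.tendsto_exp_atBot.comp ?_
    refine Tendsto.const_mul_atTop_of_neg (by linarith) ?_
    exact tendsto_pow_atTop two_ne_zero
  have h3 := integral_Ioi_of_hasDerivAt_of_tendsto (a := (0:ℝ))
    (f := fun w : ℝ => -(1 / (2 * b)) * Real.exp (-b * w ^ 2))
    (by fun_prop) h1 hint hlim
  rw [h3]
  simp

lemma hasDerivAt_G (x : ℝ) : HasDerivAt G (1 / (2 * Real.pi) * (1 / (1 + x ^ 2))) x := by
  have key := hasDerivAt_integral_of_dominated_loc_of_deriv_le (s := univ)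
    (μ := volume.restrict (Ioi (0:ℝ))) (x₀ := x)
    (F := fun (x : ℝ) (w : ℝ) => phi w * (Phi (x * w) - Phi 0))
    (F' := fun (x : ℝ) (w : ℝ) => phi w * (phi (x * w) * w))
    (bound := fun w => |w * phi w|) Filter.univ_mem ?_ ?_ ?_ ?_ ?_ ?_
  · refine key.2.congr_deriv ?_
    have e1 : ∀ w : ℝ, phi w * (phi (x * w) * w)
        = (1 / (2 * Real.pi)) * (w * Real.exp (-((1 + x ^ 2) / 2) * w ^ 2)) := by
      intro w
      have hs : √(2 * Real.pi) * √(2 * Real.pi) = 2 * Real.pi := Real.mul_self_sqrt (by positivity)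
      have hs' : (√(2 * Real.pi))⁻¹ * (√(2 * Real.pi))⁻¹ = 1 / (2 * Real.pi) := by
        rw [← mul_inv, hs, one_div]
      unfold phi
      calc (√(2 * Real.pi))⁻¹ * Real.exp (-w ^ 2 / 2) * ((√(2 * Real.pi))⁻¹ * Real.exp (-(x * w) ^ 2 / 2) * w)
          = ((√(2 * Real.pi))⁻¹ * (√(2 * Real.pi))⁻¹)
            * (w * (Real.exp (-w ^ 2 / 2) * Real.exp (-(x * w) ^ 2 / 2))) := by ring
        _ = _ := by
            rw [hs', ← Real.exp_add]
            congr 3
            ring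
    simp_rw [e1]
    rw [integral_const_mul, integral_mul_exp (by positivity)]
    congr 1
    field_simp
  · exact Eventually.of_forall fun y => by
      have : Continuous fun w : ℝ => phi w * (Phi (y * w) - Phi 0) := by
        have h1 := continuous_phi
        have h2 := continuous_Phi
        fun_prop
      exact this.aestronglyMeasurable
  · refine (integrable_phi.restrict (s := Ioi 0)).mono' ?_ ?_
    · have : Continuous fun w : ℝ => phi w * (Phi (x * w) - Phi 0) := by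
        have h1 := continuous_phi
        have h2 := continuous_Phi
        fun_prop
      exact this.aestronglyMeasurable
    · refine Eventually.of_forall fun w => ?_
      rw [norm_mul, Real.norm_of_nonneg (phi_nonneg w), Real.norm_eq_abs]
      calc phi w * |Phi (x * w) - Phi 0| ≤ phi w * 1 :=
            mul_le_mul_of_nonneg_left (abs_Phi_sub_le _) (phi_nonneg w)
        _ = phi w := mul_one _
  · have : Continuous fun w : ℝ => phi w * (phi (x * w) * w) := by
      have h1 := continuous_phi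
      fun_prop
    exact this.aestronglyMeasurable
  · refine Eventually.of_forall fun w y _ => ?_
    rw [norm_mul, norm_mul, Real.norm_of_nonneg (phi_nonneg w), Real.norm_of_nonneg (phi_nonneg _),
      Real.norm_eq_abs, abs_mul, abs_of_nonneg (phi_nonneg w)]
    have h1 := phi_le_one (y * w)
    have h2 := phi_nonneg w
    have h3 := abs_nonneg w
    calc phi w * (phi (y * w) * |w|) ≤ phi w * (1 * |w|) := by gcongr
      _ = |w| * phi w := by ring
  · exact (integrable_mul_phi.abs).restrict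
  · refine Eventually.of_forall fun w y _ => ?_
    have h2 : HasDerivAt (fun y : ℝ => y * w) w y := by
      simpa using (hasDerivAt_id y).mul_const w
    have h3 := (HasDerivAt.comp y (hasDerivAt_Phi (y * w)) h2).sub_const (Phi 0)
    exact h3.const_mul (phi w)

lemma G_eq (x : ℝ) : G x = Real.arctan x / (2 * Real.pi) := by
  have h0 : G 0 = 0 := by simp [G]
  have hd : ∀ y, HasDerivAt (fun y => G y - Real.arctan y / (2 * Real.pi)) 0 y := by
    intro y
    refine ((hasDerivAt_G y).sub ((Real.hasDerivAt_arctan y).div_const _)).congr_deriv ?_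
    ring
  have hc := is_const_of_deriv_eq_zero (fun y => (hd y).differentiableAt) (fun y => (hd y).deriv) x 0
  simp only [h0, Real.arctan_zero, zero_div, sub_self] at hc
  linarith

variable {E : Type*} [NormedAddCommGroup E] [InnerProductSpace ℝ E] [FiniteDimensional ℝ E]
  [MeasurableSpace E] [BorelSpace E]

lemma gamma_Ioc (s : ℝ) (hs : 0 ≤ s) : γ (Ioc 0 s) = ENNReal.ofReal (Phi s - Phi 0) := by
  rw [← gamma_real_Ioc hs, measureReal_def, ENNReal.ofReal_toReal (by finiteness)]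

lemma prod_wedge {x : ℝ} (hx : 0 ≤ x) :
    (γ.prod γ) {y : ℝ × ℝ | y.2 ∈ Ioc 0 (x * y.1)} = ENNReal.ofReal (G x) := by
  have hm : MeasurableSet {y : ℝ × ℝ | y.2 ∈ Ioc 0 (x * y.1)} := by
    have h1 : MeasurableSet {y : ℝ × ℝ | 0 < y.2} := measurableSet_lt (by fun_prop) (by fun_prop)
    have h2 : MeasurableSet {y : ℝ × ℝ | y.2 ≤ x * y.1} := measurableSet_le (by fun_prop) (by fun_prop)
    exact h1.inter h2
  rw [Measure.prod_apply hm]
  have h1 : ∀ w : ℝ, γ (Prod.mk w ⁻¹' {y : ℝ × ℝ | y.2 ∈ Ioc 0 (x * y.1)})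
      = ENNReal.ofReal ((Ioi (0:ℝ)).indicator (fun w => Phi (x * w) - Phi 0) w) := by
    intro w
    have e : Prod.mk w ⁻¹' {y : ℝ × ℝ | y.2 ∈ Ioc 0 (x * y.1)} = Ioc 0 (x * w) := by
      ext t; simp
    rw [e]
    by_cases hw : 0 < w
    · rw [gamma_Ioc _ (by positivity), indicator_of_mem (by exact hw)]
    · rw [indicator_of_notMem (by exact hw), Ioc_eq_empty (by
        rw [not_lt]; exact mul_nonpos_of_nonneg_of_nonpos hx (not_lt.1 hw))]
      simp
  simp_rw [h1]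
  have hnn : ∀ w : ℝ, 0 ≤ (Ioi (0:ℝ)).indicator (fun w => Phi (x * w) - Phi 0) w := by
    intro w
    refine indicator_nonneg (fun w hw => ?_) w
    have : Phi 0 ≤ Phi (x * w) := strictMono_Phi.monotone (mul_nonneg hx (le_of_lt hw))
    linarith
  have hmeas : Measurable ((Ioi (0:ℝ)).indicator (fun w => Phi (x * w) - Phi 0)) := by
    refine Measurable.indicator ?_ measurableSet_Ioi
    exact ((continuous_Phi.measurable.comp (by fun_prop)).sub_const _)
  have hint : Integrable ((Ioi (0:ℝ)).indicator (fun w => Phi (x * w) - Phi 0)) γ := by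
    refine Integrable.mono' (integrable_const (1:ℝ)) hmeas.aestronglyMeasurable ?_
    refine Eventually.of_forall fun w => ?_
    rw [Real.norm_eq_abs]
    by_cases hw : w ∈ Ioi (0:ℝ)
    · rw [indicator_of_mem hw]; exact abs_Phi_sub_le _
    · rw [indicator_of_notMem hw]; simp
  rw [← ofReal_integral_eq_lintegral_ofReal hint (Eventually.of_forall hnn)]
  congr 1
  rw [integral_gaussianReal_eq_integral_smul (by norm_num : (1:ℝ≥0) ≠ 0), ← phi_eq]
  simp_rw [smul_eq_mul]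
  have h2 : ∀ w : ℝ, phi w * (Ioi (0:ℝ)).indicator (fun w => Phi (x * w) - Phi 0) w
      = (Ioi (0:ℝ)).indicator (fun w => phi w * (Phi (x * w) - Phi 0)) w := by
    intro w
    by_cases hw : w ∈ Ioi (0:ℝ)
    · rw [indicator_of_mem hw, indicator_of_mem hw]
    · rw [indicator_of_notMem hw, indicator_of_notMem hw, mul_zero]
  simp_rw [h2]
  rw [integral_indicator measurableSet_Ioi]
  rfl

lemma arctan_nonneg' {x : ℝ} (hx : 0 ≤ x) : 0 ≤ Real.arctan x := Real.arctan_nonneg.2 hx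

/-- exact wedge probability (as an upper bound) -/
lemma wedge_arctan {a w : E} (ha : a ≠ 0) (haw : ⟪a, w⟫ = 0) {c : ℝ} (hc : 0 < c) :
    (stdGaussian E).real {x | 0 < ⟪a, x⟫ ∧ c * ⟪a, x⟫ ≤ ⟪w, x⟫}
      ≤ Real.arctan (‖w‖ / (c * ‖a‖)) / (2 * Real.pi) := by
  have han : 0 < ‖a‖ := norm_pos_iff.2 ha
  rcases eq_or_ne w 0 with hw | hw
  · have : {x : E | 0 < ⟪a, x⟫ ∧ c * ⟪a, x⟫ ≤ ⟪w, x⟫} = ∅ := by
      ext x
      simp only [hw, inner_zero_left, mem_ofPred_eq, mem_empty_iff_false, iff_false, not_and, not_le]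
      intro h; positivity
    rw [this]
    simp only [measureReal_empty]
    exact div_nonneg (arctan_nonneg' (by positivity)) (by positivity)
  · have hwn : 0 < ‖w‖ := norm_pos_iff.2 hw
    set a' := ‖a‖⁻¹ • a with ha'
    set w' := ‖w‖⁻¹ • w with hw'
    have hua : ‖a'‖ = 1 := by rw [ha', norm_smul, norm_inv, norm_norm, inv_mul_cancel₀ han.ne']
    have huw : ‖w'‖ = 1 := by rw [hw', norm_smul, norm_inv, norm_norm, inv_mul_cancel₀ hwn.ne']
    have horth : ⟪w', a'⟫ = 0 := by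
      rw [ha', hw', real_inner_smul_left, real_inner_smul_right, real_inner_comm, haw]; simp
    have hind : IndepFun (fun x : E => ⟪w', x⟫) (fun x : E => ⟪a', x⟫) (stdGaussian E) := by
      have h1 := indep_forms (E := E) (κ := Unit) (e := w') (u := fun _ => a') (fun _ => horth)
      exact h1.comp (φ := id) (ψ := fun f : Unit → ℝ => f ()) measurable_id (by fun_prop)
    have hprod := (indepFun_iff_map_prod_eq_prod_map_map (by fun_prop) (by fun_prop)).1 hind
    rw [CM.map_inner_unit hua, CM.map_inner_unit huw] at hprod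
    have hx : 0 ≤ ‖w‖ / (c * ‖a‖) := by positivity
    have hm : MeasurableSet {y : ℝ × ℝ | y.2 ∈ Ioc 0 (‖w‖ / (c * ‖a‖) * y.1)} := by
      have h1 : MeasurableSet {y : ℝ × ℝ | 0 < y.2} := measurableSet_lt (by fun_prop) (by fun_prop)
      have h2 : MeasurableSet {y : ℝ × ℝ | y.2 ≤ ‖w‖ / (c * ‖a‖) * y.1} :=
        measurableSet_le (by fun_prop) (by fun_prop)
      exact h1.inter h2
    have e1 : (stdGaussian E) {x | 0 < ⟪a, x⟫ ∧ c * ⟪a, x⟫ ≤ ⟪w, x⟫}
        = (γ.prod γ) {y : ℝ × ℝ | y.2 ∈ Ioc 0 (‖w‖ / (c * ‖a‖) * y.1)} := by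
      rw [← hprod, Measure.map_apply (by fun_prop) hm]
      congr 1
      ext x
      simp only [mem_ofPred_eq, mem_preimage, mem_Ioc, ha', hw', real_inner_smul_left]
      have e2 : ‖w‖ / (c * ‖a‖) * (‖w‖⁻¹ * ⟪w, x⟫) = ‖a‖⁻¹ * (⟪w, x⟫ / c) := by field_simp
      rw [e2]
      have hinv : 0 < ‖a‖⁻¹ := by positivity
      rw [mul_le_mul_iff_right₀ hinv, le_div_iff₀ hc, mul_comm ⟪a, x⟫ c]
      constructor
      · rintro ⟨h1, h2⟩; exact ⟨by positivity, h2⟩
      · rintro ⟨h1, h2⟩; exact ⟨(mul_pos_iff_of_pos_left hinv).1 h1, h2⟩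
    rw [measureReal_def, e1, prod_wedge hx, G_eq, ENNReal.toReal_ofReal]
    exact div_nonneg (arctan_nonneg' hx) (by positivity)

section crit

variable {ι : Type*} [Fintype ι] [DecidableEq ι] (c : Crit E ι)

/-- bound for a single term, exact angle -/
lemma term_arctan {j l i : ι} (hjl : j ≠ l) (h3 : ∃ i, i ≠ j ∧ i ≠ l)
    (hpos : ⟪foot c.z j l, c.z i⟫ < ‖foot c.z j l‖ ^ 2) :
    (stdGaussian E).real {x | 0 < ⟪foot c.z j l, x⟫ ∧ 0 ≤ ⟪perp c.z j l i, x⟫}
      ≤ Real.arctan (√(‖perp c.z j l i‖ ^ 2 * ‖foot c.z j l‖ ^ 2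
          - ⟪perp c.z j l i, foot c.z j l⟫ ^ 2) /
        (‖foot c.z j l‖ ^ 2 - ⟪foot c.z j l, c.z i⟫)) / (2 * Real.pi) := by
  set a := foot c.z j l with ha
  set u := perp c.z j l i with hu
  have ha0 : a ≠ 0 := foot_ne_zero c hjl h3
  have han : 0 < ‖a‖ := norm_pos_iff.2 ha0
  have hua : ⟪u, a⟫ = ⟪a, c.z i⟫ - ‖a‖ ^ 2 := inner_perp_foot c hjl
  set w := u - (⟪u, a⟫ / ‖a‖ ^ 2) • a with hw
  have haw : ⟪a, w⟫ = 0 := by
    rw [hw, inner_sub_right, real_inner_smul_right, real_inner_self_eq_norm_sq,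
      div_mul_cancel₀ _ (by positivity), real_inner_comm, sub_self]
  have hc : 0 < (‖a‖ ^ 2 - ⟪a, c.z i⟫) / ‖a‖ ^ 2 := div_pos (by linarith) (by positivity)
  have h := wedge_arctan ha0 haw hc
  have hset : {x | 0 < ⟪a, x⟫ ∧ 0 ≤ ⟪u, x⟫}
      = {x | 0 < ⟪a, x⟫ ∧ (‖a‖ ^ 2 - ⟪a, c.z i⟫) / ‖a‖ ^ 2 * ⟪a, x⟫ ≤ ⟪w, x⟫} := by
    ext x
    simp only [mem_ofPred_eq]
    have : ⟪w, x⟫ = ⟪u, x⟫ + (‖a‖ ^ 2 - ⟪a, c.z i⟫) / ‖a‖ ^ 2 * ⟪a, x⟫ := by
      rw [hw, inner_sub_left, real_inner_smul_left, hua]; ring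
    rw [this]
    constructor <;> rintro ⟨h1, h2⟩ <;> exact ⟨h1, by linarith⟩
  rw [hset]
  refine h.trans (le_of_eq ?_)
  have hwn : ‖w‖ = √(‖u‖ ^ 2 * ‖a‖ ^ 2 - ⟪u, a⟫ ^ 2) / ‖a‖ := by
    rw [eq_div_iff han.ne', ← Real.sqrt_sq (by positivity : 0 ≤ ‖w‖ * ‖a‖), mul_pow]
    congr 1
    rw [hw, norm_sub_sq_real, real_inner_smul_right, norm_smul, mul_pow, Real.norm_eq_abs, sq_abs]
    field_simp
    ring
  rw [hwn]
  congr 2
  field_simp

/-- small cells -/
lemma term_small_arctan {j l i : ι} (hjl : j ≠ l) (hij : i ≠ j) (hil : i ≠ l) :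
    (stdGaussian E).real {x | 0 < ⟪foot c.z j l, x⟫ ∧ 0 ≤ ⟪perp c.z j l i, x⟫}
      ≤ Real.arctan (‖c.z i‖ / ‖foot c.z j l‖) / (2 * Real.pi) := by
  have h3 : ∃ i, i ≠ j ∧ i ≠ l := ⟨i, hij, hil⟩
  have hneg := inner_foot_neg c hjl hij hil
  have ha0 : foot c.z j l ≠ 0 := foot_ne_zero c hjl h3
  have han : 0 < ‖foot c.z j l‖ := norm_pos_iff.2 ha0
  refine (term_arctan c hjl h3 (by nlinarith [sq_nonneg ‖foot c.z j l‖])).trans ?_
  have hperp : perp c.z j l i = (-1 : ℝ) • foot c.z j l + (c.z i -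
      (⟪c.z j - c.z l, c.z i⟫ / ‖c.z j - c.z l‖ ^ 2) • (c.z j - c.z l)) := by
    rw [perp, foot, inner_sub_right, sub_div, sub_smul, neg_one_smul]; abel
  have hg := gram_le (-1) _ (inner_foot c hjl) (proj_orth c hjl (c.z i))
  rw [← hperp] at hg
  have h4 : √(‖perp c.z j l i‖ ^ 2 * ‖foot c.z j l‖ ^ 2 - ⟪perp c.z j l i, foot c.z j l⟫ ^ 2)
      ≤ ‖c.z i‖ * ‖foot c.z j l‖ := by
    rw [Real.sqrt_le_left (by positivity)]
    nlinarith [sq_nonneg ⟪c.z i, foot c.z j l⟫]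
  have hpi := Real.pi_pos
  refine div_le_div_of_nonneg_right (Real.arctan_strictMono.monotone ?_) (by positivity)
  rw [div_le_div_iff₀ (by nlinarith [pow_pos han 2]) han]
  calc √(‖perp c.z j l i‖ ^ 2 * ‖foot c.z j l‖ ^ 2 - ⟪perp c.z j l i, foot c.z j l⟫ ^ 2)
        * ‖foot c.z j l‖
      ≤ (‖c.z i‖ * ‖foot c.z j l‖) * ‖foot c.z j l‖ :=
        mul_le_mul_of_nonneg_right h4 (by positivity)
    _ = ‖c.z i‖ * ‖foot c.z j l‖ ^ 2 := by ring
    _ ≤ ‖c.z i‖ * (‖foot c.z j l‖ ^ 2 - ⟪foot c.z j l, c.z i⟫) := by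
        refine mul_le_mul_of_nonneg_left ?_ (norm_nonneg _)
        linarith

/-- the third big cell; `s` is the sum of the remaining vectors -/
lemma term_third_arctan {j l m : ι} (hjl : j ≠ l) (hmj : m ≠ j) (hml : m ≠ l) {s : E}
    (hs : c.z m = -(c.z j + c.z l + s)) (hsn : ‖s‖ < 3 * ‖foot c.z j l‖) :
    (stdGaussian E).real {x | 0 < ⟪foot c.z j l, x⟫ ∧ 0 ≤ ⟪perp c.z j l m, x⟫}
      ≤ Real.arctan (‖s‖ / √(9 * ‖foot c.z j l‖ ^ 2 - ‖s‖ ^ 2)) / (2 * Real.pi) := by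
  have h3 : ∃ i, i ≠ j ∧ i ≠ l := ⟨m, hmj, hml⟩
  have hneg := inner_foot_neg c hjl hmj hml
  have ha0 : foot c.z j l ≠ 0 := foot_ne_zero c hjl h3
  have han : 0 < ‖foot c.z j l‖ := norm_pos_iff.2 ha0
  refine (term_arctan c hjl h3 (by nlinarith [sq_nonneg ‖foot c.z j l‖])).trans ?_
  have hperp : perp c.z j l m = (-3 : ℝ) • foot c.z j l + ((-s) -
      (⟪c.z j - c.z l, -s⟫ / ‖c.z j - c.z l‖ ^ 2) • (c.z j - c.z l)) := by
    have e1 : ⟪c.z j - c.z l, c.z m - c.z j⟫ = ⟪c.z j - c.z l, -s⟫ - 3 * ⟪c.z j - c.z l, c.z j⟫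
        + ‖c.z j - c.z l‖ ^ 2 := by
      rw [hs]
      have e2 : -(c.z j + c.z l + s) - c.z j = -s - (3:ℝ) • c.z j + (c.z j - c.z l) := by
        module
      rw [e2, inner_add_right, inner_sub_right, real_inner_smul_right, real_inner_self_eq_norm_sq]
    have hn := norm_sub_pos c hjl
    have e3 : (⟪c.z j - c.z l, -s⟫ - 3 * ⟪c.z j - c.z l, c.z j⟫ + ‖c.z j - c.z l‖ ^ 2)
        / ‖c.z j - c.z l‖ ^ 2 = ⟪c.z j - c.z l, -s⟫ / ‖c.z j - c.z l‖ ^ 2
          - 3 * (⟪c.z j - c.z l, c.z j⟫ / ‖c.z j - c.z l‖ ^ 2) + 1 := by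
      field_simp
    rw [perp, foot, e1, e3, hs]
    module
  have hg := gram_le (-3) _ (inner_foot c hjl) (proj_orth c hjl (-s))
  rw [← hperp, norm_neg, inner_neg_left, neg_sq] at hg
  set a := foot c.z j l with ha
  have hma : ⟪a, c.z m⟫ = -(2 * ‖a‖ ^ 2 + ⟪s, a⟫) := by
    rw [hs, inner_neg_right, inner_add_right, inner_add_right, inner_foot_left c hjl,
      inner_foot_right c hjl, real_inner_comm s]
    ring
  rw [hma]
  set t := ⟪s, a⟫ with ht
  have hts : t ^ 2 ≤ ‖s‖ ^ 2 * ‖a‖ ^ 2 := by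
    have := abs_real_inner_le_norm s a
    rw [← mul_pow, ← sq_abs]
    exact pow_le_pow_left₀ (abs_nonneg _) this 2
  have hpi := Real.pi_pos
  have htl : -(‖s‖ * ‖a‖) ≤ t := by
    have := abs_real_inner_le_norm s a
    exact (abs_le.1 this).1
  have hden : 0 < 3 * ‖a‖ ^ 2 + t := by nlinarith
  have hR : 0 < 9 * ‖a‖ ^ 2 - ‖s‖ ^ 2 := by nlinarith [norm_nonneg s]
  have hRs : 0 < √(9 * ‖a‖ ^ 2 - ‖s‖ ^ 2) := Real.sqrt_pos.2 hR
  have h5 : √(‖perp c.z j l m‖ ^ 2 * ‖a‖ ^ 2 - ⟪perp c.z j l m, a⟫ ^ 2)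
      * √(9 * ‖a‖ ^ 2 - ‖s‖ ^ 2) ≤ ‖s‖ * (3 * ‖a‖ ^ 2 + t) := by
    rw [← Real.sqrt_mul' _ hR.le, Real.sqrt_le_left (by positivity)]
    calc (‖perp c.z j l m‖ ^ 2 * ‖a‖ ^ 2 - ⟪perp c.z j l m, a⟫ ^ 2) * (9 * ‖a‖ ^ 2 - ‖s‖ ^ 2)
        ≤ (‖s‖ ^ 2 * ‖a‖ ^ 2 - t ^ 2) * (9 * ‖a‖ ^ 2 - ‖s‖ ^ 2) :=
          mul_le_mul_of_nonneg_right hg hR.le
      _ ≤ (‖s‖ * (3 * ‖a‖ ^ 2 + t)) ^ 2 := by nlinarith [sq_nonneg (‖s‖ ^ 2 + 3 * t)]
  have e4 : ‖a‖ ^ 2 - -(2 * ‖a‖ ^ 2 + t) = 3 * ‖a‖ ^ 2 + t := by ring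
  rw [e4]
  refine div_le_div_of_nonneg_right (Real.arctan_strictMono.monotone ?_) (by positivity)
  rw [div_le_div_iff₀ hden hRs]
  exact h5

/-- **B-B tie inequality**, exact angles -/
theorem bb_tie_arctan {j l m : ι} (hjl : j ≠ l) (hmj : m ≠ j) (hml : m ≠ l)
    (hsn : ‖∑ i ∈ ((Finset.univ.erase j).erase l).erase m, c.z i‖ < 3 * ‖foot c.z j l‖) :
    1 / 2 - √(2 * Real.pi) * ‖c.z j - c.z l‖ / Fintype.card ι ≤
      (∑ i ∈ ((Finset.univ.erase j).erase l).erase m, Real.arctan (‖c.z i‖ / ‖foot c.z j l‖)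
        + Real.arctan (‖∑ i ∈ ((Finset.univ.erase j).erase l).erase m, c.z i‖ /
          √(9 * ‖foot c.z j l‖ ^ 2 - ‖∑ i ∈ ((Finset.univ.erase j).erase l).erase m, c.z i‖ ^ 2)))
        / (2 * Real.pi) := by
  have h := tieSet_ge c hjl ⟨m, hmj, hml⟩
  rw [tie_crit c hjl] at h
  set S := ((Finset.univ.erase j).erase l).erase m with hS
  set s := ∑ i ∈ S, c.z i with hs
  have hmem : m ∈ (Finset.univ.erase j).erase l := by simp [hmj, hml]
  have hlmem : l ∈ Finset.univ.erase j := by simp [hjl.symm]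
  have hsum : c.z m = -(c.z j + c.z l + s) := by
    have h1 := c.sum_z
    rw [← Finset.add_sum_erase _ _ (Finset.mem_univ j), ← Finset.add_sum_erase _ _ hlmem,
      ← Finset.add_sum_erase _ _ hmem, ← hS, ← hs] at h1
    rw [eq_neg_iff_add_eq_zero, ← h1]; abel
  rw [← Finset.add_sum_erase _ _ hmem, ← hS] at h
  have h1 := term_third_arctan c hjl hmj hml hsum hsn
  have h2 : ∑ i ∈ S, (stdGaussian E).real {x | 0 < ⟪foot c.z j l, x⟫ ∧ 0 ≤ ⟪perp c.z j l i, x⟫}
      ≤ ∑ i ∈ S, Real.arctan (‖c.z i‖ / ‖foot c.z j l‖) / (2 * Real.pi) := by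
    refine Finset.sum_le_sum fun i hi => ?_
    simp only [hS, Finset.mem_erase] at hi
    exact term_small_arctan c hjl hi.2.2.1 hi.2.1
  rw [← Finset.sum_div] at h2
  rw [add_div]
  linarith

end crit

end Crest.Agent.R215.Tie
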