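import Mathlib
import Crest.Agent.R215.TieArctan

-- ▼ part R215/K4Real
section

/-!
# Row 215: the real-variable part of the four-cell case
-/

set_option autoImplicit false

open Real Set

namespace Crest.Agent.R215.K4

/-- `x / sin x` is strictly increasing on `(0, π)` -/
lemma P_lt {x y : ℝ} (hx : 0 < x) (hxy : x < y) (hy : y < π) : x / sin x < y / sin y := by
  have hsx : 0 < sin x := sin_pos_of_pos_of_lt_pi hx (hxy.trans hy)
  have hsy : 0 < sin y := sin_pos_of_pos_of_lt_pi (hx.trans hxy) hy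
  have hc := strictConcaveOn_sin_Icc
  have hy0 : 0 < y := hx.trans hxy
  have h1 : (1 - x / y) • sin 0 + (x / y) • sin y < sin ((1 - x / y) • (0:ℝ) + (x / y) • y) :=
    hc.2 ⟨le_rfl, pi_pos.le⟩ ⟨hy0.le, hy.le⟩ hy0.ne
      (by rw [sub_pos, div_lt_one hy0]; exact hxy) (by positivity) (by ring)
  simp only [smul_eq_mul, mul_zero, zero_add, sin_zero] at h1
  rw [div_mul_cancel₀ _ hy0.ne'] at h1
  rw [div_lt_div_iff₀ hsx hsy]
  have h2 : x / y * sin y * y < sin x * y := by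
    exact mul_lt_mul_of_pos_right h1 hy0
  have h3 : x / y * sin y * y = x * sin y := by field_simp
  linarith

lemma P_inj {x y : ℝ} (hx : 0 < x) (hx' : x < π) (hy : 0 < y) (hy' : y < π)
    (h : x / sin x = y / sin y) : x = y := by
  rcases lt_trichotomy x y with h1 | h1 | h1
  · exact absurd h (P_lt hx h1 hy').ne
  · exact h1
  · exact absurd h (P_lt hy h1 hx').ne'

lemma lt_of_P_lt {x y : ℝ} (hx' : x < π) (hy : 0 < y)
    (h : x / sin x < y / sin y) : x < y := by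
  by_contra hc
  rcases (not_lt.1 hc).lt_or_eq with h1 | h1
  · exact absurd h (P_lt hy h1 hx').not_gt
  · rw [h1] at h; exact lt_irrefl _ h

/-- `x (1 + cos x) / sin x` is strictly decreasing on `(0, π)` -/
lemma q_lt {x y : ℝ} (hx : 0 < x) (hxy : x < y) (hy : y < π) :
    y * (1 + cos y) / sin y < x * (1 + cos x) / sin x := by
  -- `u cot u` is strictly decreasing
  have key : StrictAntiOn (fun u : ℝ => u * cos u / sin u) (Ioo 0 (π / 2)) := by
    apply strictAntiOn_of_deriv_neg (convex_Ioo _ _)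
    · intro u hu
      have hs : sin u ≠ 0 := (sin_pos_of_pos_of_lt_pi hu.1 (by linarith [hu.2, pi_pos])).ne'
      exact ((continuous_id.mul continuous_cos).continuousAt.div continuous_sin.continuousAt hs).continuousWithinAt
    · intro u hu
      rw [interior_Ioo] at hu
      have hs : 0 < sin u := sin_pos_of_pos_of_lt_pi hu.1 (by linarith [hu.2, pi_pos])
      have h1 : HasDerivAt (fun u : ℝ => u * cos u / sin u)
          (((1 * cos u + u * (-sin u)) * sin u - u * cos u * cos u) / sin u ^ 2) u :=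
        ((hasDerivAt_id u).mul (hasDerivAt_cos u)).div (hasDerivAt_sin u) hs.ne'
      rw [h1.deriv]
      apply div_neg_of_neg_of_pos _ (by positivity)
      have h2 : sin (2 * u) < 2 * u := sin_lt (by linarith [hu.1])
      rw [sin_two_mul] at h2
      nlinarith [sin_sq_add_cos_sq u, hu.1]
  have hx2 : x / 2 ∈ Ioo (0:ℝ) (π / 2) := ⟨by linarith, by linarith⟩
  have hy2 : y / 2 ∈ Ioo (0:ℝ) (π / 2) := ⟨by linarith, by linarith⟩
  have h := key hx2 hy2 (by linarith)
  simp only at h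
  have conv : ∀ z ∈ Ioo (0:ℝ) π, z * (1 + cos z) / sin z = 2 * (z / 2 * cos (z / 2) / sin (z / 2)) := by
    intro z hz
    have hs : 0 < sin (z / 2) := sin_pos_of_pos_of_lt_pi (by linarith [hz.1]) (by linarith [hz.2, hz.1])
    have hc : 0 < cos (z / 2) := cos_pos_of_mem_Ioo ⟨by linarith [hz.1], by linarith [hz.2]⟩
    have e1 : sin z = 2 * sin (z / 2) * cos (z / 2) := by
      rw [← sin_two_mul]; congr 1; ring
    have e2 : cos z = 2 * cos (z / 2) ^ 2 - 1 := by
      rw [← cos_two_mul]; congr 1; ring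
    rw [e1, e2]
    field_simp
    ring
  rw [conv x ⟨hx, hxy.trans hy⟩, conv y ⟨hx.trans hxy, hy⟩]
  linarith

/-- angle data for one pair of faces: `μ μ' = ℓ / sin ℓ` -/
structure Ang (a b l : ℝ) : Prop where
  pos : 0 < l
  lt : l < π
  eq : a * b = l / sin l

/-- `-ℓ cot ℓ` -/
noncomputable def H (l : ℝ) : ℝ := -(l * cos l / sin l)

lemma Ang.symm {a b l : ℝ} (h : Ang a b l) : Ang b a l := ⟨h.pos, h.lt, by rw [mul_comm]; exact h.eq⟩

lemma Ang.sub_H {a b l : ℝ} (h : Ang a b l) : a * b - H l = l * (1 + cos l) / sin l := by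
  rw [h.eq, H]; ring

lemma Ang.uniq {a b l l' : ℝ} (h : Ang a b l) (h' : Ang a b l') : l = l' :=
  P_inj h.pos h.lt h'.pos h'.lt (h.eq.symm.trans h'.eq)

lemma Ang.q_lt {a b a' b' l l' : ℝ} (h : Ang a b l) (h' : Ang a' b' l') (hlt : a * b < a' * b') :
    a' * b' - H l' < a * b - H l := by
  rw [h.sub_H, h'.sub_H]
  apply K4.q_lt h.pos _ h'.lt
  exact lt_of_P_lt h.lt h'.pos (by rw [← h.eq, ← h'.eq]; exact hlt)

/-- comparison of two different face areas -/
lemma pair_lt {a b c d lab lac lad lbc lbd : ℝ} (hc : 0 < c) (hd : 0 < d)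
    (hac : Ang a c lac) (had : Ang a d lad) (hbc : Ang b c lbc) (hbd : Ang b d lbd)
    (Ea : a ^ 2 = H lab + H lac + H lad) (Eb : b ^ 2 = H lab + H lbc + H lbd) (hlt : b < a) :
    c + d < a + b := by
  have h1 := hbc.q_lt hac (by nlinarith)
  have h2 := hbd.q_lt had (by nlinarith)
  by_contra hcon
  push Not at hcon
  nlinarith [mul_nonneg (sub_nonneg.2 hlt.le) (sub_nonneg.2 hcon)]

lemma matching {a b c d lab lac lad lbc lbd lcd : ℝ} (ha : 0 < a) (hb : 0 < b) (hc : 0 < c)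
    (hd : 0 < d)
    (hac : Ang a c lac) (had : Ang a d lad) (hbc : Ang b c lbc) (hbd : Ang b d lbd)
    (Ea : a ^ 2 = H lab + H lac + H lad) (Eb : b ^ 2 = H lab + H lbc + H lbd)
    (Ec : c ^ 2 = H lac + H lbc + H lcd) (Ed : d ^ 2 = H lad + H lbd + H lcd) :
    a = b ∨ c = d := by
  by_contra hcon
  push Not at hcon
  obtain ⟨h1, h2⟩ := hcon
  have k1 : c + d < a + b := by
    rcases lt_or_gt_of_ne h1 with h | h
    · have := pair_lt hc hd hbc hbd hac had Eb Ea h
      linarith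
    · exact pair_lt hc hd hac had hbc hbd Ea Eb h
  have k2 : a + b < c + d := by
    rcases lt_or_gt_of_ne h2 with h | h
    · have := pair_lt (lab := lcd) ha hb had.symm hbd.symm hac.symm hbc.symm
        (by rw [Ed]; ring) (by rw [Ec]; ring) h
      linarith
    · exact pair_lt (lab := lcd) ha hb hac.symm hbc.symm had.symm hbd.symm
        (by rw [Ec]; ring) (by rw [Ed]; ring) h
  linarith

/-- claim 2: `x > √3` -/
lemma claim2 {l : ℝ} (h0 : 0 < l) (h1 : l < π / 2) :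
    l ^ 2 * (3 + 5 * cos l) < 3 * π ^ 2 / 4 * (1 + cos l) := by
  have hc : 0 < cos l := cos_pos_of_mem_Ioo ⟨by linarith, h1⟩
  have hκ : cos l ≤ π / 2 - l := by
    have := sin_lt (x := π / 2 - l) (by linarith)
    rw [sin_pi_div_two_sub] at this
    exact this.le
  have hpi := pi_gt_three
  have hl2 : l ^ 2 < π ^ 2 / 4 := by nlinarith
  rcases le_or_gt (5 * l ^ 2) (3 * π ^ 2 / 4) with h | h
  · nlinarith [mul_nonneg hc.le (sub_nonneg.2 h)]
  · have h2 : cos l * (5 * l ^ 2 - 3 * π ^ 2 / 4) ≤ (π / 2 - l) * (5 * l ^ 2 - 3 * π ^ 2 / 4) :=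
      mul_le_mul_of_nonneg_right hκ (by linarith)
    have hpi2 := pi_lt_d2
    have hpi3 := pi_gt_d2
    have hl1 : 6 / 5 < l := by
      by_contra hcon
      push Not at hcon
      nlinarith
    have h3 : 5 * l ^ 2 - 3 * π ^ 2 / 4 < 3 * (π / 2 + l) := by
      nlinarith
    have h4 : (π / 2 - l) * (5 * l ^ 2 - 3 * π ^ 2 / 4) < (π / 2 - l) * (3 * (π / 2 + l)) :=
      mul_lt_mul_of_pos_left h3 (by linarith)
    nlinarith


/-- numerical step for claim 1 on a subinterval -/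
lemma step {α s a0 a1 m0 : ℝ} (h0 : a0 ≤ α) (h1 : α ≤ a1) (hm : 0 ≤ m0) (hs : m0 ≤ s)
    (ha0 : 0 ≤ a0)
    (hnum : (1.5708 + a1) ^ 2 * (1 + 15 * m0 ^ 2) < 9 * 3.1415 ^ 2 * m0 ^ 2)
    (hnum2 : 15 * (1.5708 + a1) ^ 2 < 9 * 3.1415 ^ 2) :
    (π / 2 + α) ^ 2 * (1 + 15 * s ^ 2) < 9 * π ^ 2 * s ^ 2 := by
  have hp1 : π / 2 ≤ 1.5708 := by linarith [pi_lt_d4]
  have hp2 : 3.1415 ≤ π := pi_gt_d4.le
  have hp0 : 0 < π := pi_pos
  have e1 : (π / 2 + α) ^ 2 ≤ (1.5708 + a1) ^ 2 := by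
    apply pow_le_pow_left₀ (by linarith)
    linarith
  have e2 : (9 : ℝ) * 3.1415 ^ 2 ≤ 9 * π ^ 2 := by
    have := pow_le_pow_left₀ (by norm_num) hp2 2
    linarith
  have e3 : m0 ^ 2 ≤ s ^ 2 := pow_le_pow_left₀ hm hs 2
  set A := (π / 2 + α) ^ 2
  set B := (1.5708 + a1) ^ 2
  set S := s ^ 2
  set M := m0 ^ 2
  have hM : 0 ≤ M := by positivity
  have hA : 0 ≤ A := by positivity
  -- A (1 + 15 S) < 9 π² S
  have f1 : A * (1 + 15 * S) ≤ B * (1 + 15 * S) := mul_le_mul_of_nonneg_right e1 (by linarith)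
  have f2 : B * (1 + 15 * S) - 9 * 3.1415 ^ 2 * S ≤ B * (1 + 15 * M) - 9 * 3.1415 ^ 2 * M := by
    nlinarith [mul_nonneg (sub_nonneg.2 hnum2.le) (sub_nonneg.2 e3)]
  have f3 : 9 * 3.1415 ^ 2 * S ≤ 9 * π ^ 2 * S := mul_le_mul_of_nonneg_right e2 (by linarith)
  linarith

/-- claim 1 in terms of `α = ℓ₁ - π / 2` -/
lemma claim1_aux {α : ℝ} (h0 : 0 < α) (hα : α < π / 2) (h1 : 1 / 3 ≤ sin α) (h2 : 3 * sin α ^ 2 ≤ 1) :
    (π / 2 + α) ^ 2 * (1 + 15 * sin α ^ 2) < 9 * π ^ 2 * sin α ^ 2 := by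
  have hlow : 1 / 3 ≤ α := h1.trans (sin_lt h0).le
  have hcub : ∀ t, 0 ≤ t → t ≤ α → t - t ^ 3 / 6 ≤ sin α := by
    intro t ht hta
    rcases ht.lt_or_eq with ht' | ht'
    · exact (sin_gt_sub_cube ht').le.trans
        (sin_le_sin_of_le_of_le_pi_div_two (by linarith) hα.le hta)
    · rw [← ht']; norm_num; linarith
  have hup : α ≤ 0.62 := by
    by_contra hcon
    push Not at hcon
    have := hcub 0.62 (by norm_num) hcon.le
    norm_num at this
    nlinarith
  rcases le_or_gt α 0.35 with c1 | c1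
  · exact step (a0 := 1/3) (a1 := 0.35) (m0 := 1/3) hlow c1 (by norm_num) h1 (by norm_num)
      (by norm_num) (by norm_num)
  rcases le_or_gt α 0.37 with c2 | c2
  · exact step (a0 := 0.35) (a1 := 0.37) (m0 := 0.3428) c1.le c2 (by norm_num)
      (by have := hcub 0.35 (by norm_num) c1.le; norm_num at this; linarith) (by norm_num)
      (by norm_num) (by norm_num)
  rcases le_or_gt α 0.4 with c3' | c3'
  · exact step (a0 := 0.37) (a1 := 0.4) (m0 := 0.3615) c2.le c3' (by norm_num)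
      (by have := hcub 0.37 (by norm_num) c2.le; norm_num at this; linarith) (by norm_num)
      (by norm_num) (by norm_num)
  rcases le_or_gt α 0.43 with c3 | c3
  · exact step (a0 := 0.4) (a1 := 0.43) (m0 := 0.389) c3'.le c3 (by norm_num)
      (by have := hcub 0.4 (by norm_num) c3'.le; norm_num at this; linarith) (by norm_num)
      (by norm_num) (by norm_num)
  rcases le_or_gt α 0.46 with c4 | c4
  · exact step (a0 := 0.43) (a1 := 0.46) (m0 := 0.416) c3.le c4 (by norm_num)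
      (by have := hcub 0.43 (by norm_num) c3.le; norm_num at this; linarith) (by norm_num)
      (by norm_num) (by norm_num)
  rcases le_or_gt α 0.52 with c5 | c5
  · exact step (a0 := 0.46) (a1 := 0.52) (m0 := 0.443) c4.le c5 (by norm_num)
      (by have := hcub 0.46 (by norm_num) c4.le; norm_num at this; linarith) (by norm_num)
      (by norm_num) (by norm_num)
  rcases le_or_gt α 0.58 with c6 | c6
  · exact step (a0 := 0.52) (a1 := 0.58) (m0 := 0.496) c5.le c6 (by norm_num)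
      (by have := hcub 0.52 (by norm_num) c5.le; norm_num at this; linarith) (by norm_num)
      (by norm_num) (by norm_num)
  · exact step (a0 := 0.58) (a1 := 0.62) (m0 := 0.547) c6.le hup (by norm_num)
      (by have := hcub 0.58 (by norm_num) c6.le; norm_num at this; linarith) (by norm_num)
      (by norm_num) (by norm_num)

/-- the symmetric case: three equal face areas -/
lemma one_three {x b l l1 : ℝ} (hb : 0 < b) (hx : 1 ≤ x)
    (h1 : Ang (x * b) b l1) (h : Ang b b l)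
    (E1 : (x * b) ^ 2 = 3 * H l1) (E2 : b ^ 2 = H l1 + 2 * H l) :
    l ^ 2 + l1 ^ 2 < 3 * π ^ 2 / 4 := by
  have hs1 : 0 < sin l1 := sin_pos_of_pos_of_lt_pi h1.pos h1.lt
  have hs : 0 < sin l := sin_pos_of_pos_of_lt_pi h.pos h.lt
  have hP1 := h1.eq
  have hP := h.eq
  have hH1 : H l1 = -(x * b * b) * cos l1 := by rw [hP1, H]; ring
  have hH : H l = -(b * b) * cos l := by rw [hP, H]; ring
  have hx0 : 0 < x := by linarith
  have c1 : cos l1 = -x / 3 := by
    rw [hH1] at E1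
    have : x * b ^ 2 * (x + 3 * cos l1) = 0 := by nlinarith
    have h2 : x * b ^ 2 ≠ 0 := by positivity
    have := (mul_eq_zero.1 this).resolve_left h2
    linarith
  have c2 : cos l = (x ^ 2 - 3) / 6 := by
    rw [hH1, hH, c1] at E2
    have : b ^ 2 * (1 - x ^ 2 / 3 + 2 * cos l) = 0 := by nlinarith
    have h2 : b ^ 2 ≠ 0 := by positivity
    have := (mul_eq_zero.1 this).resolve_left h2
    linarith
  have s1 : sin l1 ^ 2 = (9 - x ^ 2) / 9 := by
    have := sin_sq_add_cos_sq l1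
    rw [c1] at this
    linarith
  have s2 : sin l ^ 2 = (9 - x ^ 2) * (3 + x ^ 2) / 36 := by
    have := sin_sq_add_cos_sq l
    rw [c2] at this
    linarith
  have h9 : 0 < 9 - x ^ 2 := by nlinarith [sq_nonneg (sin l1), pow_pos hs1 2]
  -- tie relation
  have t1 : l1 * sin l = x * l * sin l1 := by
    have : x * (l / sin l) = l1 / sin l1 := by rw [← hP, ← hP1]; ring
    field_simp at this
    linarith
  have t2 : l1 ^ 2 * (3 + x ^ 2) = 4 * x ^ 2 * l ^ 2 := by
    have e : (l1 * sin l) ^ 2 = (x * l * sin l1) ^ 2 := by rw [t1]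
    rw [mul_pow, mul_pow, mul_pow, s1, s2] at e
    have : (9 - x ^ 2) * (l1 ^ 2 * (3 + x ^ 2) - 4 * x ^ 2 * l ^ 2) = 0 := by linarith
    have := (mul_eq_zero.1 this).resolve_left h9.ne'
    linarith
  by_contra hcon
  push Not at hcon
  have hA : 3 * π ^ 2 / 4 * (3 + x ^ 2) ≤ l ^ 2 * (3 + 5 * x ^ 2) := by
    nlinarith [mul_le_mul_of_nonneg_right hcon (by positivity : (0:ℝ) ≤ 3 + x ^ 2)]
  have hB : 3 * π ^ 2 * x ^ 2 ≤ l1 ^ 2 * (3 + 5 * x ^ 2) := by
    have := mul_le_mul_of_nonneg_left hcon (by positivity : (0:ℝ) ≤ 4 * x ^ 2)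
    nlinarith
  rcases le_or_gt (x ^ 2) 3 with h3 | h3
  · -- claim 1
    have hl1 : π / 2 < l1 := by
      by_contra hc
      push Not at hc
      have := cos_nonneg_of_mem_Icc ⟨by linarith [h1.pos, pi_pos], hc⟩
      rw [c1] at this
      linarith
    have hsα : sin (l1 - π / 2) = x / 3 := by
      rw [sin_sub_pi_div_two, c1]; ring
    have h4 := claim1_aux (α := l1 - π / 2) (by linarith) (by linarith [h1.lt])
      (by rw [hsα]; linarith) (by rw [hsα]; nlinarith)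
    rw [hsα] at h4
    have e : π / 2 + (l1 - π / 2) = l1 := by ring
    rw [e] at h4
    nlinarith
  · have hl : l < π / 2 := by
      by_contra hc
      push Not at hc
      have := cos_nonpos_of_pi_div_two_le_of_le hc (by linarith [h.lt, pi_pos])
      rw [c2] at this
      linarith
    have h4 := claim2 h.pos hl
    rw [c2] at h4
    nlinarith

/-- three equal faces, one possibly larger -/
lemma three_eq {a b lab lac lad lbc lbd lcd : ℝ} (hb : 0 < b)
    (hab : Ang a b lab) (hac : Ang a b lac) (had : Ang a b lad) (hbc : Ang b b lbc)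
    (hbd : Ang b b lbd) (hcd : Ang b b lcd)
    (Ea : a ^ 2 = H lab + H lac + H lad) (Eb : b ^ 2 = H lab + H lbc + H lbd) :
    lab ^ 2 + lac ^ 2 + lad ^ 2 + lbc ^ 2 + lbd ^ 2 + lcd ^ 2 < 9 * π ^ 2 / 4 := by
  have e1 := hac.uniq hab
  have e2 := had.uniq hab
  have e3 := hbd.uniq hbc
  have e4 := hcd.uniq hbc
  subst e1 e2 e3 e4
  have hle : b ≤ a := by
    by_contra hcon
    push Not at hcon
    have := pair_lt (a := b) (b := a) (c := b) (d := b) hb hb hbc hbc hab hab Eb Ea hcon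
    linarith
  have := one_three (x := a / b) (b := b) (l := lcd) (l1 := lad) hb
    (by rw [le_div_iff₀ hb]; linarith) (by rw [div_mul_cancel₀ _ hb.ne']; exact hab) hbc
    (by rw [div_mul_cancel₀ _ hb.ne', Ea]; ring) (by rw [Eb]; ring)
  linarith

theorem real_main {a b c d lab lac lad lbc lbd lcd : ℝ} (ha : 0 < a) (hb : 0 < b) (hc : 0 < c)
    (hd : 0 < d) (hab : Ang a b lab)
    (hac : Ang a c lac) (had : Ang a d lad) (hbc : Ang b c lbc) (hbd : Ang b d lbd)
    (hcd : Ang c d lcd)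
    (Ea : a ^ 2 = H lab + H lac + H lad) (Eb : b ^ 2 = H lab + H lbc + H lbd)
    (Ec : c ^ 2 = H lac + H lbc + H lcd) (Ed : d ^ 2 = H lad + H lbd + H lcd) :
    lab ^ 2 + lac ^ 2 + lad ^ 2 + lbc ^ 2 + lbd ^ 2 + lcd ^ 2 < 9 * π ^ 2 / 4 := by
  have m1 : a = b ∨ c = d := matching ha hb hc hd hac had hbc hbd Ea Eb Ec Ed
  have m2 : a = c ∨ b = d := matching (lab := lac) (lcd := lbd) ha hc hb hd hab had hbc.symm hcd
    (by linarith) (by linarith) (by linarith) (by linarith)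
  have m3 : a = d ∨ b = c := matching (lab := lad) (lcd := lbc) ha hd hb hc hab hac
    hbd.symm hcd.symm (by linarith) (by linarith) (by linarith) (by linarith)
  have main : (b = c ∧ b = d) ∨ (a = c ∧ a = d) ∨ (a = b ∧ a = d) ∨ (a = b ∧ a = c) := by
    rcases m1 with m1 | m1 <;> rcases m2 with m2 | m2 <;> rcases m3 with m3 | m3 <;>
      simp_all
  rcases main with ⟨h1, h2⟩ | ⟨h1, h2⟩ | ⟨h1, h2⟩ | ⟨h1, h2⟩
  · subst h1 h2
    exact three_eq hb hab hac had hbc hbd hcd Ea Eb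
  · subst h1 h2
    have := three_eq ha hab.symm hbc hbd hac had hcd (by rw [Eb]) (by rw [Ea])
    linarith
  · subst h1 h2
    have := three_eq ha hac.symm hbc.symm hcd hab had hbd (by rw [Ec]) (by rw [Ea]; ring)
    linarith
  · subst h1 h2
    have := three_eq ha had.symm hbd.symm hcd.symm hab hac hbc (by rw [Ed]) (by rw [Ea]; ring)
    linarith

end Crest.Agent.R215.K4
end

-- ▼ part R215/K4Wedge
section

/-!
# Row 215: exact Gaussian measure of a wedge
-/

set_option autoImplicit false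
set_option linter.unusedSectionVars false
set_option linter.style.haveILetI false
open MeasureTheory ProbabilityTheory Set Filter Topology
open scoped NNReal ENNReal RealInnerProductSpace

namespace Crest.Agent.R215.K4

open Crest.Agent.Lib.Ehrhard Crest.Agent.R215.Tie

lemma Phi_zero : Phi 0 = 1 / 2 := by
  have := Phi_neg 0
  rw [neg_zero] at this
  linarith

lemma gamma_Iio (s : ℝ) : γ (Iio s) = ENNReal.ofReal (Phi s) := by
  have h : γ (Iio s) = γ (Iic s) := by
    refine measure_congr ?_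
    haveI : NullSingletonClass γ := nullSingletonClass_gaussianReal (by norm_num)
    exact Iio_ae_eq_Iic
  rw [h, gaussianReal_apply_eq_integral 0 one_ne_zero, ← phi_eq]
  rfl

lemma integral_Ioi_phi_Phi (t : ℝ) : ∫ w in Ioi (0:ℝ), phi w * Phi (t * w)
    = 1 / 4 + Real.arctan t / (2 * Real.pi) := by
  have hint : IntegrableOn (fun w : ℝ => phi w * Phi (t * w)) (Ioi 0) := by
    refine (integrable_phi.restrict (s := Ioi 0)).mono' ?_ ?_
    · have : Continuous fun w : ℝ => phi w * Phi (t * w) := by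
        have h1 := continuous_phi
        have h2 := continuous_Phi
        fun_prop
      exact this.aestronglyMeasurable
    · refine Eventually.of_forall fun w => ?_
      rw [norm_mul, Real.norm_of_nonneg (phi_nonneg w), Real.norm_of_nonneg (Phi_nonneg _)]
      exact mul_le_of_le_one_right (phi_nonneg w) (Phi_lt_one _).le
  have h1 : G t = ∫ w in Ioi (0:ℝ), (phi w * Phi (t * w) - phi w * Phi 0) := by
    unfold G
    congr 1
    ext w
    ring
  rw [integral_sub hint ((integrable_phi.restrict).mul_const _), integral_mul_const, G_eq,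
    Phi_zero] at h1
  have h2 := Phi_add_compl 0
  rw [Phi_zero] at h2
  linarith

lemma prod_wedge_real (t : ℝ) : (γ.prod γ).real {y : ℝ × ℝ | 0 < y.1 ∧ y.2 < t * y.1}
    = 1 / 4 + Real.arctan t / (2 * Real.pi) := by
  have hm : MeasurableSet {y : ℝ × ℝ | 0 < y.1 ∧ y.2 < t * y.1} := by
    have h1 : MeasurableSet {y : ℝ × ℝ | 0 < y.1} := measurableSet_lt (by fun_prop) (by fun_prop)
    have h2 : MeasurableSet {y : ℝ × ℝ | y.2 < t * y.1} := measurableSet_lt (by fun_prop) (by fun_prop)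
    exact h1.inter h2
  rw [measureReal_def, Measure.prod_apply hm]
  have h1 : ∀ w : ℝ, γ (Prod.mk w ⁻¹' {y : ℝ × ℝ | 0 < y.1 ∧ y.2 < t * y.1})
      = ENNReal.ofReal ((Ioi (0:ℝ)).indicator (fun w => Phi (t * w)) w) := by
    intro w
    by_cases hw : 0 < w
    · have e : Prod.mk w ⁻¹' {y : ℝ × ℝ | 0 < y.1 ∧ y.2 < t * y.1} = Iio (t * w) := by
        ext s; simp [hw]
      rw [e, gamma_Iio, indicator_of_mem (by exact hw)]
    · have e : Prod.mk w ⁻¹' {y : ℝ × ℝ | 0 < y.1 ∧ y.2 < t * y.1} = ∅ := by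
        ext s; simp [hw]
      rw [e, indicator_of_notMem (by exact hw)]
      simp
  simp_rw [h1]
  have hnn : ∀ w : ℝ, 0 ≤ (Ioi (0:ℝ)).indicator (fun w => Phi (t * w)) w := by
    intro w
    exact indicator_nonneg (fun w hw => Phi_nonneg _) w
  have hmeas : Measurable ((Ioi (0:ℝ)).indicator (fun w => Phi (t * w))) := by
    refine Measurable.indicator ?_ measurableSet_Ioi
    exact continuous_Phi.measurable.comp (by fun_prop)
  have hint : Integrable ((Ioi (0:ℝ)).indicator (fun w => Phi (t * w))) γ := by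
    refine Integrable.mono' (integrable_const (1:ℝ)) hmeas.aestronglyMeasurable ?_
    refine Eventually.of_forall fun w => ?_
    rw [Real.norm_of_nonneg (hnn w)]
    by_cases hw : w ∈ Ioi (0:ℝ)
    · rw [indicator_of_mem hw]; exact (Phi_lt_one _).le
    · rw [indicator_of_notMem hw]; simp
  rw [← ofReal_integral_eq_lintegral_ofReal hint (Eventually.of_forall hnn),
    ENNReal.toReal_ofReal (integral_nonneg hnn)]
  rw [integral_gaussianReal_eq_integral_smul (by norm_num : (1:ℝ≥0) ≠ 0), ← phi_eq]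
  simp_rw [smul_eq_mul]
  have h2 : ∀ w : ℝ, phi w * (Ioi (0:ℝ)).indicator (fun w => Phi (t * w)) w
      = (Ioi (0:ℝ)).indicator (fun w => phi w * Phi (t * w)) w := by
    intro w
    by_cases hw : w ∈ Ioi (0:ℝ)
    · rw [indicator_of_mem hw, indicator_of_mem hw]
    · rw [indicator_of_notMem hw, indicator_of_notMem hw, mul_zero]
  simp_rw [h2]
  rw [integral_indicator measurableSet_Ioi, integral_Ioi_phi_Phi]

variable {E : Type*} [NormedAddCommGroup E] [InnerProductSpace ℝ E] [FiniteDimensional ℝ E]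
  [MeasurableSpace E] [BorelSpace E]

/-- exact wedge probability -/
lemma wedge_exact {a w : E} (ha : a ≠ 0) (hw : w ≠ 0) (haw : ⟪a, w⟫ = 0) (β : ℝ) :
    (stdGaussian E).real {x | ⟪a, x⟫ < 0 ∧ ⟪β • a + w, x⟫ < 0}
      = 1 / 4 + Real.arctan (β * ‖a‖ / ‖w‖) / (2 * Real.pi) := by
  have han : 0 < ‖a‖ := norm_pos_iff.2 ha
  have hwn : 0 < ‖w‖ := norm_pos_iff.2 hw
  set a' := -(‖a‖⁻¹ • a) with ha'
  set w' := ‖w‖⁻¹ • w with hw'
  have hua : ‖a'‖ = 1 := by
    rw [ha', norm_neg, norm_smul, norm_inv, norm_norm, inv_mul_cancel₀ han.ne']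
  have huw : ‖w'‖ = 1 := by rw [hw', norm_smul, norm_inv, norm_norm, inv_mul_cancel₀ hwn.ne']
  have horth : ⟪w', a'⟫ = 0 := by
    rw [ha', hw', inner_neg_right, real_inner_smul_left, real_inner_smul_right, real_inner_comm,
      haw]
    simp
  have hind : IndepFun (fun x : E => ⟪a', x⟫) (fun x : E => ⟪w', x⟫) (stdGaussian E) := by
    have h1 := indep_forms (E := E) (κ := Unit) (e := w') (u := fun _ => a') (fun _ => horth)
    exact (h1.comp (φ := id) (ψ := fun f : Unit → ℝ => f ()) measurable_id (by fun_prop)).symm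
  have hprod := (indepFun_iff_map_prod_eq_prod_map_map (by fun_prop) (by fun_prop)).1 hind
  rw [CM.map_inner_unit hua, CM.map_inner_unit huw] at hprod
  have hm : MeasurableSet {y : ℝ × ℝ | 0 < y.1 ∧ y.2 < (β * ‖a‖ / ‖w‖) * y.1} := by
    have h1 : MeasurableSet {y : ℝ × ℝ | 0 < y.1} := measurableSet_lt (by fun_prop) (by fun_prop)
    have h2 : MeasurableSet {y : ℝ × ℝ | y.2 < (β * ‖a‖ / ‖w‖) * y.1} :=
      measurableSet_lt (by fun_prop) (by fun_prop)
    exact h1.inter h2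
  rw [← prod_wedge_real, ← hprod, map_measureReal_apply (by fun_prop) hm]
  congr 1
  ext x
  simp only [mem_ofPred_eq, mem_preimage, ha', hw', real_inner_smul_left, inner_neg_left,
    inner_add_left]
  have hinv : 0 < ‖a‖⁻¹ := by positivity
  have hinv' : 0 < ‖w‖⁻¹ := by positivity
  have e1 : (0 < -(‖a‖⁻¹ * ⟪a, x⟫)) ↔ ⟪a, x⟫ < 0 := by
    rw [neg_pos, mul_neg_iff]
    constructor
    · rintro (⟨_, h⟩ | ⟨h, _⟩)
      · exact h
      · linarith
    · intro h; exact Or.inl ⟨hinv, h⟩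
  have e2 : (‖w‖⁻¹ * ⟪w, x⟫ < β * ‖a‖ / ‖w‖ * -(‖a‖⁻¹ * ⟪a, x⟫)) ↔ β * ⟪a, x⟫ + ⟪w, x⟫ < 0 := by
    have : β * ‖a‖ / ‖w‖ * -(‖a‖⁻¹ * ⟪a, x⟫) = ‖w‖⁻¹ * (-(β * ⟪a, x⟫)) := by field_simp
    rw [this, mul_lt_mul_iff_right₀ hinv']
    constructor <;> intro h <;> linarith
  rw [e1, e2]

/-- exact wedge probability, Gram form -/
lemma wedge_gram {p q : E} (hp : p ≠ 0) (hq : q - (⟪p, q⟫ / ‖p‖ ^ 2) • p ≠ 0) :
    0 < ‖p‖ ^ 2 * ‖q‖ ^ 2 - ⟪p, q⟫ ^ 2 ∧
    (stdGaussian E).real {x | ⟪p, x⟫ < 0 ∧ ⟪q, x⟫ < 0}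
      = 1 / 4 + Real.arctan (⟪p, q⟫ / √(‖p‖ ^ 2 * ‖q‖ ^ 2 - ⟪p, q⟫ ^ 2)) / (2 * Real.pi) := by
  set β := ⟪p, q⟫ / ‖p‖ ^ 2 with hβ
  set w := q - β • p with hw
  have hpn : 0 < ‖p‖ := norm_pos_iff.2 hp
  have hwn : 0 < ‖w‖ := norm_pos_iff.2 hq
  have hpw : ⟪p, w⟫ = 0 := by
    rw [hw, inner_sub_right, real_inner_smul_right, real_inner_self_eq_norm_sq, hβ]
    field_simp
    ring
  have hn : ‖w‖ ^ 2 * ‖p‖ ^ 2 = ‖p‖ ^ 2 * ‖q‖ ^ 2 - ⟪p, q⟫ ^ 2 := by
    have : ‖w‖ ^ 2 = ‖q‖ ^ 2 - 2 * (β * ⟪p, q⟫) + β ^ 2 * ‖p‖ ^ 2 := by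
      rw [hw, norm_sub_sq_real, real_inner_smul_right, real_inner_comm, norm_smul, mul_pow,
        Real.norm_eq_abs, sq_abs]
    rw [this, hβ]
    field_simp
    ring
  have hpos : 0 < ‖p‖ ^ 2 * ‖q‖ ^ 2 - ⟪p, q⟫ ^ 2 := by rw [← hn]; positivity
  refine ⟨hpos, ?_⟩
  have h := wedge_exact hp hq hpw β
  have e : β • p + w = q := by rw [hw]; abel
  rw [e] at h
  rw [h]
  congr 3
  have hs : √(‖p‖ ^ 2 * ‖q‖ ^ 2 - ⟪p, q⟫ ^ 2) = ‖w‖ * ‖p‖ := by
    rw [← hn, ← mul_pow, Real.sqrt_sq (by positivity)]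
  rw [hs, hβ]
  field_simp

end Crest.Agent.R215.K4
end

-- ▼ part R215/K4

/-!
# Row 215: no critical configuration with four cells
-/

set_option autoImplicit false
set_option linter.unusedSectionVars false
open MeasureTheory ProbabilityTheory Set Filter Topology
open scoped NNReal ENNReal RealInnerProductSpace

namespace Crest.Agent.R215.K4

open Crest.Agent.R215.Tie

section gram

variable {E : Type*} [NormedAddCommGroup E] [InnerProductSpace ℝ E]

/-- squared double area of a triangle -/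
noncomputable def ar (p q r : E) : ℝ := ⟪p - q, p - q⟫ * ⟪r - p, r - p⟫ - ⟪p - q, r - p⟫ ^ 2

/-- normal inner product at the edge `p q` -/
noncomputable def nn (p q r s : E) : ℝ :=
  ⟪p - q, p - q⟫ * ⟪r - p, s - p⟫ - ⟪p - q, r - p⟫ * ⟪p - q, s - p⟫

/-- Gram determinant of a tetrahedron -/
noncomputable def gd (p q r s : E) : ℝ :=
  ⟪p - q, p - q⟫ * ⟪r - p, r - p⟫ * ⟪s - p, s - p⟫ + 2 * ⟪p - q, r - p⟫ * ⟪r - p, s - p⟫ * ⟪p - q, s - p⟫
    - ⟪p - q, p - q⟫ * ⟪r - p, s - p⟫ ^ 2 - ⟪r - p, r - p⟫ * ⟪p - q, s - p⟫ ^ 2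
    - ⟪s - p, s - p⟫ * ⟪p - q, r - p⟫ ^ 2

lemma ar_mul_ar (p q r s : E) : ar p q r * ar p q s = nn p q r s ^ 2 + ⟪p - q, p - q⟫ * gd p q r s := by
  unfold ar nn gd; ring

lemma ar_rot (p q r : E) : ar q r p = ar p q r := by
  unfold ar
  simp only [inner_sub_left, inner_sub_right, real_inner_comm q p, real_inner_comm r p,
    real_inner_comm r q]
  ring

lemma ar_swap (p q r : E) : ar q p r = ar p q r := by
  unfold ar
  simp only [inner_sub_left, inner_sub_right, real_inner_comm q p, real_inner_comm r p,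
    real_inner_comm r q]
  ring

lemma ar_swap23 (p q r : E) : ar p r q = ar p q r := by
  rw [ar_rot, ar_swap]

lemma gd_swap12 (p q r s : E) : gd q p r s = gd p q r s := by
  unfold gd
  simp only [inner_sub_left, inner_sub_right, real_inner_comm q p, real_inner_comm r p,
    real_inner_comm r q, real_inner_comm s p, real_inner_comm s q, real_inner_comm s r]
  ring

lemma gd_swap34 (p q r s : E) : gd p q s r = gd p q r s := by
  unfold gd
  rw [real_inner_comm (r - p) (s - p)]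
  ring

lemma gd_swap23 (p q r s : E) : gd p r q s = gd p q r s := by
  unfold gd
  simp only [inner_sub_left, inner_sub_right, real_inner_comm q p, real_inner_comm r p,
    real_inner_comm r q, real_inner_comm s p, real_inner_comm s q, real_inner_comm s r]
  ring


lemma nn_swap34 (p q r s : E) : nn p q s r = nn p q r s := by
  unfold nn
  rw [real_inner_comm (r - p) (s - p)]
  ring

/-- area projection formula: face `q r s` against the three other faces -/
lemma ar_sum (p q r s : E) : ar q r s = nn q r s p + nn q s r p + nn r s q p := by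
  unfold ar nn
  simp only [inner_sub_left, inner_sub_right, real_inner_comm q p, real_inner_comm r p,
    real_inner_comm r q, real_inner_comm s p, real_inner_comm s q, real_inner_comm s r]
  ring

end gram

section edge

variable {E : Type*} [NormedAddCommGroup E] [InnerProductSpace ℝ E] [FiniteDimensional ℝ E]
  [MeasurableSpace E] [BorelSpace E]

/-- `π √(2π) / 2` -/
noncomputable def κ : ℝ := Real.pi * √(2 * Real.pi) / 2

lemma κ_pos : 0 < κ := by unfold κ; positivity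

/-- trigonometric consequences of `l = π/2 + arctan t` -/
lemma trig {l t : ℝ} (h : l = Real.pi / 2 + Real.arctan t) (h0 : 0 < l) :
    l < Real.pi ∧ H l = l * t ∧ l / Real.sin l = l * √(1 + t ^ 2) := by
  have h1 := Real.arctan_lt_pi_div_two t
  have hs : Real.sin l = 1 / √(1 + t ^ 2) := by
    rw [h, add_comm, Real.sin_add_pi_div_two, Real.cos_arctan]
  have hc : Real.cos l = -(t / √(1 + t ^ 2)) := by
    rw [h, add_comm, Real.cos_add_pi_div_two, Real.sin_arctan]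
  have hq : 0 < √(1 + t ^ 2) := Real.sqrt_pos.2 (by positivity)
  refine ⟨by linarith, ?_, ?_⟩
  · rw [H, hs, hc]
    field_simp
  · rw [hs]
    field_simp

lemma gram_aux {e u w : E} (he : e ≠ 0) :
    ‖e‖ ^ 2 * ⟪u - (⟪e, u⟫ / ‖e‖ ^ 2) • e, w - (⟪e, w⟫ / ‖e‖ ^ 2) • e⟫
      = ⟪e, e⟫ * ⟪u, w⟫ - ⟪e, u⟫ * ⟪e, w⟫ := by
  have hn : 0 < ‖e‖ := norm_pos_iff.2 he
  simp only [inner_sub_left, inner_sub_right, real_inner_smul_left, real_inner_smul_right,
    real_inner_self_eq_norm_sq, real_inner_comm e u]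
  field_simp
  ring

lemma perp_gram {z : Fin 4 → E} {j l : Fin 4} (hz : z j ≠ z l) (i m : Fin 4) :
    ‖z j - z l‖ ^ 2 * ⟪perp z j l i, perp z j l m⟫ = nn (z j) (z l) (z i) (z m) :=
  gram_aux (sub_ne_zero.2 hz)

lemma ar_eq_nn (p q r : E) : ar p q r = nn p q r r := by unfold ar nn; ring

variable (c : Crit E (Fin 4))

lemma perp_perp_ne_zero {j l i m : Fin 4} (hjl : j ≠ l) (hij : i ≠ j) (hil : i ≠ l) (hmj : m ≠ j)
    (hml : m ≠ l) (hmi : m ≠ i) (r : ℝ) :
    perp c.z j l m - r • perp c.z j l i ≠ 0 := by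
  intro h
  have := c.nonempty
  set r1 : ℝ := ⟪c.z j - c.z l, c.z i - c.z j⟫ / ‖c.z j - c.z l‖ ^ 2 with hr1
  set r2 : ℝ := ⟪c.z j - c.z l, c.z m - c.z j⟫ / ‖c.z j - c.z l‖ ^ 2 with hr2
  let a : Fin 4 → ℝ := fun n => (if n = m then 1 else 0) + (if n = j then (-1 - r2 + r + r * r1) else 0)
    + (if n = l then r2 - r * r1 else 0) + (if n = i then -r else 0)
  have h2 : ∑ n, a n • c.z n = 0 := by
    simp only [a, add_smul, ite_smul, zero_smul, Finset.sum_add_distrib, Finset.sum_ite_eq',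
      Finset.mem_univ, if_true]
    rw [← h, perp, perp, ← hr1, ← hr2]
    module
  have h3 := const_of_relation c.sum_z (fun i j hij => c.inner_lt hij) h2
  have h4 : a m = a j := h3 m j
  have h5 : a m = a l := h3 m l
  have h6 : a m = a i := h3 m i
  simp only [a, if_true, hmj, hml, hmi, hjl, hjl.symm, hij, hij.symm, hil, hil.symm, hmj.symm,
    hml.symm, hmi.symm, if_false, add_zero, zero_add] at h4 h5 h6
  linarith

lemma tieSet_four {j l i m : Fin 4} (hjl : j ≠ l) (hij : i ≠ j) (hil : i ≠ l) (hmj : m ≠ j)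
    (hml : m ≠ l) (hmi : m ≠ i) (z : Fin 4 → E) :
    tieSet z j l = {x | ⟪perp z j l i, x⟫ < 0 ∧ ⟪perp z j l m, x⟫ < 0} := by
  ext x
  simp only [tieSet, mem_ofPred_eq]
  constructor
  · intro h; exact ⟨h i hij hil, h m hmj hml⟩
  · rintro ⟨h1, h2⟩ n hnj hnl
    have key : ∀ j l i m n : Fin 4, j ≠ l → i ≠ j → i ≠ l → m ≠ j → m ≠ l → m ≠ i → n ≠ j →
        n ≠ l → n = i ∨ n = m := by decide
    rcases key j l i m n hjl hij hil hmj hml hmi hnj hnl with rfl | rfl
    · exact h1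
    · exact h2

lemma edge {j l i m : Fin 4} (hjl : j ≠ l) (hij : i ≠ j) (hil : i ≠ l) (hmj : m ≠ j) (hml : m ≠ l)
    (hmi : m ≠ i) :
    0 < gd (c.z j) (c.z l) (c.z i) (c.z m) ∧
    0 < ar (c.z j) (c.z l) (c.z i) ∧
    Ang (√(κ / √(gd (c.z j) (c.z l) (c.z i) (c.z m)) * ar (c.z j) (c.z l) (c.z m)))
      (√(κ / √(gd (c.z j) (c.z l) (c.z i) (c.z m)) * ar (c.z j) (c.z l) (c.z i)))
      (κ * ‖c.z j - c.z l‖) ∧
    H (κ * ‖c.z j - c.z l‖) =
      κ / √(gd (c.z j) (c.z l) (c.z i) (c.z m)) * nn (c.z j) (c.z l) (c.z i) (c.z m) := by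
  have hz : c.z j ≠ c.z l := fun h => hjl (c.z_injective h)
  have hp := perp_ne_zero c hjl hij hil
  have hq := perp_ne_zero c hjl hmj hml
  have hpq := perp_perp_ne_zero c hjl hij hil hmj hml hmi
  have tie := tie_crit c hjl
  rw [tieSet_four hjl hij hil hmj hml hmi] at tie
  obtain ⟨hX, hw⟩ := wedge_gram hp (hpq _)
  rw [hw] at tie
  have g1 := perp_gram hz i m
  have g2 := perp_gram hz i i
  have g3 := perp_gram hz m m
  rw [← ar_eq_nn, real_inner_self_eq_norm_sq] at g2 g3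
  have g4 := ar_mul_ar (c.z j) (c.z l) (c.z i) (c.z m)
  rw [real_inner_self_eq_norm_sq] at g4
  set p := perp c.z j l i
  set q := perp c.z j l m
  set D := ‖c.z j - c.z l‖ with hD
  set N := nn (c.z j) (c.z l) (c.z i) (c.z m)
  set Ai := ar (c.z j) (c.z l) (c.z i)
  set Am := ar (c.z j) (c.z l) (c.z m)
  set Δ := gd (c.z j) (c.z l) (c.z i) (c.z m)
  set X := ‖p‖ ^ 2 * ‖q‖ ^ 2 - ⟪p, q⟫ ^ 2 with hXdef
  have hDpos : 0 < D := norm_pos_iff.2 (sub_ne_zero.2 hz)
  have hpn : 0 < ‖p‖ := norm_pos_iff.2 hp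
  have hqn : 0 < ‖q‖ := norm_pos_iff.2 hq
  have hAi : 0 < Ai := by rw [← g2]; positivity
  have hAm : 0 < Am := by rw [← g3]; positivity
  have hΔ : Δ = D ^ 2 * X := by
    have : D ^ 2 * Δ = D ^ 2 * (D ^ 2 * X) := by
      have : D ^ 2 * Δ = Ai * Am - N ^ 2 := by linarith
      rw [this, ← g1, ← g2, ← g3, hXdef]; ring
    exact mul_left_cancel₀ (by positivity) this
  have hΔpos : 0 < Δ := by rw [hΔ]; positivity
  have hsΔ : √Δ = D * √X := by
    rw [hΔ, Real.sqrt_mul (by positivity), Real.sqrt_sq hDpos.le]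
  have hsX : 0 < √X := Real.sqrt_pos.2 hX
  set t := ⟪p, q⟫ / √X with ht
  have hl : κ * D = Real.pi / 2 + Real.arctan t := by
    have hpi := Real.pi_pos
    simp only [Fintype.card_fin, Nat.cast_ofNat] at tie
    unfold κ
    field_simp at tie
    linarith
  have hκ := κ_pos
  obtain ⟨t1, t2, t3⟩ := trig hl (by positivity)
  have eN : ⟪p, q⟫ = N / D ^ 2 := by rw [← g1]; field_simp
  have K0 : 0 < κ / √Δ := by have := Real.sqrt_pos.2 hΔpos; positivity
  refine ⟨hΔpos, hAi, ⟨by positivity, t1, ?_⟩, ?_⟩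
  · rw [t3]
    have e1 : √(κ / √Δ * Am) * √(κ / √Δ * Ai) = κ / √Δ * (√Am * √Ai) := by
      rw [Real.sqrt_mul K0.le, Real.sqrt_mul K0.le]
      have : √(κ / √Δ) * √(κ / √Δ) = κ / √Δ := Real.mul_self_sqrt K0.le
      calc √(κ / √Δ) * √Am * (√(κ / √Δ) * √Ai) = (√(κ / √Δ) * √(κ / √Δ)) * (√Am * √Ai) := by ring
        _ = _ := by rw [this]
    have eAm : √Am = D * ‖q‖ := by rw [← g3, ← mul_pow, Real.sqrt_sq (by positivity)]
    have eAi : √Ai = D * ‖p‖ := by rw [← g2, ← mul_pow, Real.sqrt_sq (by positivity)]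
    have e2 : √(1 + t ^ 2) = ‖p‖ * ‖q‖ / √X := by
      have : 1 + t ^ 2 = (‖p‖ * ‖q‖ / √X) ^ 2 := by
        rw [ht, div_pow, div_pow, Real.sq_sqrt hX.le]
        field_simp
        rw [hXdef]
        ring
      rw [this, Real.sqrt_sq (by positivity)]
    rw [e1, eAm, eAi, e2, hsΔ]
    field_simp
  · rw [t2, ht, eN, hsΔ]
    field_simp

end edge

section main

variable {E : Type*} [NormedAddCommGroup E] [InnerProductSpace ℝ E] [FiniteDimensional ℝ E]
  [MeasurableSpace E] [BorelSpace E]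

theorem isEmpty_crit_four : IsEmpty (Crit E (Fin 4)) := by
  refine ⟨fun c => ?_⟩
  set z0 := c.z 0
  set z1 := c.z 1
  set z2 := c.z 2
  set z3 := c.z 3
  obtain ⟨hΔ, _, ang01, H01⟩ := edge c (j := 0) (l := 1) (i := 2) (m := 3) (by decide) (by decide)
    (by decide) (by decide) (by decide) (by decide)
  obtain ⟨_, _, ang02, H02⟩ := edge c (j := 0) (l := 2) (i := 1) (m := 3) (by decide) (by decide)
    (by decide) (by decide) (by decide) (by decide)
  obtain ⟨_, _, ang03, H03⟩ := edge c (j := 0) (l := 3) (i := 1) (m := 2) (by decide) (by decide)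
    (by decide) (by decide) (by decide) (by decide)
  obtain ⟨_, _, ang12, H12⟩ := edge c (j := 1) (l := 2) (i := 0) (m := 3) (by decide) (by decide)
    (by decide) (by decide) (by decide) (by decide)
  obtain ⟨_, _, ang13, H13⟩ := edge c (j := 1) (l := 3) (i := 0) (m := 2) (by decide) (by decide)
    (by decide) (by decide) (by decide) (by decide)
  obtain ⟨_, _, ang23, H23⟩ := edge c (j := 2) (l := 3) (i := 0) (m := 1) (by decide) (by decide)
    (by decide) (by decide) (by decide) (by decide)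
  have hV := c.V_gt
  have hsum := c.sum_z
  have hsq := c.sumsq
  rw [Fin.sum_univ_four] at hsum hsq
  change z0 + z1 + z2 + z3 = 0 at hsum
  change ‖z0‖ ^ 2 + ‖z1‖ ^ 2 + ‖z2‖ ^ 2 + ‖z3‖ ^ 2 = c.V at hsq
  change 0 < gd z0 z1 z2 z3 at hΔ
  change Ang (√(κ / √(gd z0 z1 z2 z3) * ar z0 z1 z3)) (√(κ / √(gd z0 z1 z2 z3) * ar z0 z1 z2))
    (κ * ‖z0 - z1‖) at ang01
  change Ang (√(κ / √(gd z0 z2 z1 z3) * ar z0 z2 z3)) (√(κ / √(gd z0 z2 z1 z3) * ar z0 z2 z1))
    (κ * ‖z0 - z2‖) at ang02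
  change Ang (√(κ / √(gd z0 z3 z1 z2) * ar z0 z3 z2)) (√(κ / √(gd z0 z3 z1 z2) * ar z0 z3 z1))
    (κ * ‖z0 - z3‖) at ang03
  change Ang (√(κ / √(gd z1 z2 z0 z3) * ar z1 z2 z3)) (√(κ / √(gd z1 z2 z0 z3) * ar z1 z2 z0))
    (κ * ‖z1 - z2‖) at ang12
  change Ang (√(κ / √(gd z1 z3 z0 z2) * ar z1 z3 z2)) (√(κ / √(gd z1 z3 z0 z2) * ar z1 z3 z0))
    (κ * ‖z1 - z3‖) at ang13
  change Ang (√(κ / √(gd z2 z3 z0 z1) * ar z2 z3 z1)) (√(κ / √(gd z2 z3 z0 z1) * ar z2 z3 z0))
    (κ * ‖z2 - z3‖) at ang23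
  change H (κ * ‖z0 - z1‖) = κ / √(gd z0 z1 z2 z3) * nn z0 z1 z2 z3 at H01
  change H (κ * ‖z0 - z2‖) = κ / √(gd z0 z2 z1 z3) * nn z0 z2 z1 z3 at H02
  change H (κ * ‖z0 - z3‖) = κ / √(gd z0 z3 z1 z2) * nn z0 z3 z1 z2 at H03
  change H (κ * ‖z1 - z2‖) = κ / √(gd z1 z2 z0 z3) * nn z1 z2 z0 z3 at H12
  change H (κ * ‖z1 - z3‖) = κ / √(gd z1 z3 z0 z2) * nn z1 z3 z0 z2 at H13
  change H (κ * ‖z2 - z3‖) = κ / √(gd z2 z3 z0 z1) * nn z2 z3 z0 z1 at H23
  have d02 : gd z0 z2 z1 z3 = gd z0 z1 z2 z3 := gd_swap23 _ _ _ _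
  have d03 : gd z0 z3 z1 z2 = gd z0 z1 z2 z3 := by rw [gd_swap23, gd_swap34]
  have d12 : gd z1 z2 z0 z3 = gd z0 z1 z2 z3 := by rw [gd_swap23, gd_swap12]
  have d13 : gd z1 z3 z0 z2 = gd z0 z1 z2 z3 := by rw [gd_swap23, gd_swap12, gd_swap34]
  have d23 : gd z2 z3 z0 z1 = gd z0 z1 z2 z3 := by
    rw [gd_swap23, gd_swap12, gd_swap34, gd_swap23]
  have a021 : ar z0 z2 z1 = ar z0 z1 z2 := ar_swap23 _ _ _
  have a032 : ar z0 z3 z2 = ar z0 z2 z3 := ar_swap23 _ _ _
  have a031 : ar z0 z3 z1 = ar z0 z1 z3 := ar_swap23 _ _ _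
  have a120 : ar z1 z2 z0 = ar z0 z1 z2 := ar_rot _ _ _
  have a132 : ar z1 z3 z2 = ar z1 z2 z3 := ar_swap23 _ _ _
  have a130 : ar z1 z3 z0 = ar z0 z1 z3 := ar_rot _ _ _
  have a231 : ar z2 z3 z1 = ar z1 z2 z3 := ar_rot _ _ _
  have a230 : ar z2 z3 z0 = ar z0 z2 z3 := ar_rot _ _ _
  rw [d02, a021] at ang02
  rw [d03, a032, a031] at ang03
  rw [d12, a120] at ang12
  rw [d13, a132, a130] at ang13
  rw [d23, a231, a230] at ang23
  rw [d02] at H02
  rw [d03] at H03
  rw [d12] at H12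
  rw [d13] at H13
  rw [d23] at H23
  set K := κ / √(gd z0 z1 z2 z3) with hK
  have hKpos : 0 < K := by have := Real.sqrt_pos.2 hΔ; have := κ_pos; positivity
  have s0 := ar_sum z0 z1 z2 z3
  have s1 := ar_sum z1 z0 z2 z3
  have s2 := ar_sum z2 z0 z1 z3
  have s3 := ar_sum z3 z0 z1 z2
  have hpos : ∀ {x y l : ℝ}, Ang x (√y) l → 0 < √y := by
    intro x y l h
    have hs : 0 < Real.sin l := Real.sin_pos_of_pos_of_lt_pi h.pos h.lt
    rcases (Real.sqrt_nonneg y).lt_or_eq with h1 | h1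
    · exact h1
    · exfalso
      have := h.eq
      rw [← h1, mul_zero] at this
      have h2 : 0 < l / Real.sin l := div_pos h.pos hs
      linarith
  have p1 := hpos ang23
  have p2 := hpos ang13
  have p3 := hpos ang12
  have p0 := hpos ang12.symm
  have sq : ∀ {y : ℝ}, 0 < √y → √y ^ 2 = y := fun h => Real.sq_sqrt (Real.sqrt_pos.1 h).le
  have main := real_main p0 p1 p2 p3 ang23 ang13 ang12 ang03 ang02 ang01
    (by rw [sq p0, H23, H13, H12, s0, nn_swap34 z1 z2, nn_swap34 z1 z3, nn_swap34 z2 z3]; ring)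
    (by rw [sq p1, H23, H03, H02, s1, nn_swap34 z0 z2, nn_swap34 z0 z3]; ring)
    (by rw [sq p2, H13, H03, H01, s2, nn_swap34 z0 z1]; ring)
    (by rw [sq p3, H12, H02, H01, s3]; ring)
  have hdist : ‖z2 - z3‖ ^ 2 + ‖z1 - z3‖ ^ 2 + ‖z1 - z2‖ ^ 2 + ‖z0 - z3‖ ^ 2 + ‖z0 - z2‖ ^ 2
      + ‖z0 - z1‖ ^ 2 = 4 * c.V := by
    have e : z3 = -(z0 + z1 + z2) := by
      rw [eq_neg_iff_add_eq_zero, ← hsum]; abel
    rw [← hsq]
    simp only [← real_inner_self_eq_norm_sq, e, inner_sub_left, inner_sub_right, inner_add_left,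
      inner_add_right, inner_neg_left, inner_neg_right, real_inner_comm z1 z0,
      real_inner_comm z2 z0, real_inner_comm z2 z1]
    ring
  have hκ : κ ^ 2 = Real.pi ^ 3 / 2 := by
    unfold κ
    rw [div_pow, mul_pow, Real.sq_sqrt (by positivity)]
    ring
  have hfin : Real.pi ^ 3 / 2 * (4 * c.V) < 9 * Real.pi ^ 2 / 4 := by
    rw [← hdist, ← hκ]
    refine lt_of_eq_of_lt ?_ main
    ring
  have hc : cC = 9 / (8 * Real.pi) := rfl
  rw [hc, div_lt_iff₀ (by positivity)] at hV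
  have hpi := Real.pi_pos
  have : Real.pi ^ 3 / 2 * (4 * c.V) = Real.pi ^ 2 / 4 * (c.V * (8 * Real.pi)) := by ring
  rw [this] at hfin
  have h2 : Real.pi ^ 2 / 4 * 9 < Real.pi ^ 2 / 4 * (c.V * (8 * Real.pi)) :=
    mul_lt_mul_of_pos_left hV (by positivity)
  linarith

end main

end Crest.Agent.R215.K4
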