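import Crest.Agent.R215.EnergyCore
import Crest.Agent.R215.ArctanNum
import Crest.Agent.R215.BBGeo
import Crest.Agent.R215.KGen

-- ▼ part R215/K5Real
section

/-!
# Row 215: five cells, the real inequalities
-/

set_option autoImplicit false

open Crest.Agent.Lib.Ehrhard

open Crest.Agent.R215 Crest.Agent.R215.Num

namespace Crest.Agent.R215.K5

lemma r_le {r s : ℝ} (hs : 0 < s) : r ≤ r ^ 2 / (2 * s) + s / 2 := by
  have h : r ^ 2 / (2 * s) + s / 2 - r = (r - s) ^ 2 / (2 * s) := by
    field_simp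
    ring
  have : 0 ≤ (r - s) ^ 2 / (2 * s) := by positivity
  linarith

/-- inequality for the small cells -/
lemma S5 {p r : ℝ} (h : Cell 3.49 p (r ^ 2)) (hr : 0 ≤ r) (hp : p ≤ 0.165) :
    Real.arctan (6.164 * r) + 2.1531 * r ≤ 23.5 * (0.579 * p - r ^ 2) + 2.631 * r ^ 2 := by
  have hp0 := h.pos
  have hy : 0 ≤ 6.164 * r := by positivity
  rcases le_total p (Phi (-1.695)) with h1 | h1
  · have h2 := Phi_hi_1_695
    have h3 := h.small (by norm_num) (by linarith)
    have h4 : r ≤ 1.41422 * p := by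
      refine le_of_sq_le_sq (h3.trans ?_) (by positivity)
      nlinarith [sq_nonneg p]
    rcases le_total p 0.04 with h5 | h5
    · have h6 := arctan_le_self' hy
      nlinarith
    · have h6 := arctan_le_tangent (y0 := 0.2) hy (by norm_num)
      have h7 := arctan_0_2
      norm_num at h6
      nlinarith
  rcases le_total p (Phi (-1.405)) with h2 | h2
  · have g1 := Phi_lo_1_695
    have g2 := Phi_hi_1_405
    have hc := chord_1_695_1_405 h1 h2
    have hR := h.lin (L0 := 0.002) (by norm_num) hc (by linarith) (by norm_num)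
    have h6 := arctan_le_tangent (y0 := 0.5) hy (by norm_num)
    have h7 := arctan_0_5
    have h8 := r_le (r := r) (s := 0.08) (by norm_num)
    norm_num at *
    linarith
  rcases le_total p (Phi (-1.175)) with h3 | h3
  · have g1 := Phi_lo_1_405
    have g2 := Phi_hi_1_175
    have hc := chord_1_405_1_175 h2 h3
    have hR := h.lin (L0 := 0.008) (by norm_num) hc (by linarith) (by norm_num)
    have h6 := arctan_le_tangent (y0 := 0.8) hy (by norm_num)
    have h7 := arctan_0_8
    have h8 := r_le (r := r) (s := 0.13) (by norm_num)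
    norm_num at *
    linarith
  rcases le_total p (Phi (-1.036)) with h4 | h4
  · have g1 := Phi_lo_1_175
    have g2 := Phi_hi_1_036
    have hc := chord_1_175_1_036 h3 h4
    have hR := h.lin (L0 := 0.018) (by norm_num) hc (by linarith) (by norm_num)
    have h6 := arctan_le_tangent (y0 := 1.1) hy (by norm_num)
    have h7 := arctan_1_1
    have h8 := r_le (r := r) (s := 0.18) (by norm_num)
    norm_num at *
    linarith
  · have g1 := Phi_lo_1_036
    have g2 := Phi_lo_0_915
    have hc := chord_1_036_0_915 h4 (by linarith)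
    have hR := h.lin (L0 := 0.022) (by norm_num) hc (by linarith) (by norm_num)
    have h6 := arctan_le_tangent (y0 := 1.3) hy (by norm_num)
    have h7 := arctan_1_3
    have h8 := r_le (r := r) (s := 0.21) (by norm_num)
    norm_num at *
    linarith

lemma line_small {p R : ℝ} (h : Cell 3.49 p R) (hp : p ≤ Phi (-1.036)) : R ≤ 0.2345 * p := by
  have hp0 := h.pos
  have g1 := Phi_hi_1_036
  rcases le_total p 0.117 with h1 | h1
  · have := h.small (by norm_num) (by linarith)
    nlinarith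
  rcases le_total p (Phi (-1.175)) with h2 | h2
  · have g2 := Phi_hi_1_405
    have g3 := Phi_hi_1_175
    have hc := chord_1_405_1_175 (by linarith) h2
    have hR := h.lin (L0 := 0.011) (by norm_num) hc (by linarith) (by norm_num)
    norm_num at *
    linarith
  · have hc := chord_1_175_1_036 h2 hp
    have hR := h.lin (L0 := 0.018) (by norm_num) hc (by linarith) (by norm_num)
    norm_num at *
    linarith

lemma line_mid {p R : ℝ} (h : Cell 3.49 p R) (hp : Phi (-1.036) ≤ p) (hp' : p ≤ Phi (-0.878)) :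
    R ≤ 0.473 * p - 0.03585 := by
  have g1 := Phi_lo_1_036
  have g2 := Phi_hi_0_915
  have g3 := Phi_lo_0_915
  have g4 := Phi_hi_0_878
  rcases le_total p (Phi (-0.915)) with h2 | h2
  · have hc := chord_1_036_0_915 hp h2
    have hR := h.lin (L0 := 0.019) (by norm_num) hc (by linarith) (by norm_num)
    norm_num at *
    linarith
  · have hc := chord_0_915_0_878 h2 hp'
    have hR := h.lin (L0 := 0.028) (by norm_num) hc (by linarith) (by norm_num)
    norm_num at *
    linarith

lemma line_019 {p R : ℝ} (h : Cell 3.49 p R) (hp : p ≤ Phi (-0.878)) : R ≤ 0.2843 * p := by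
  have hp0 := h.pos
  rcases le_total p (Phi (-1.036)) with h2 | h2
  · have := line_small h h2
    linarith
  · have := line_mid h h2 hp
    have g4 := Phi_hi_0_878
    linarith

/-- the main line for the big cells -/
lemma N1 {p R : ℝ} (h : Cell 3.49 p R) (hp : Phi (-0.878) ≤ p) : R ≤ 0.579 * p - 0.0559 := by
  have hp0 := h.pos
  rcases le_total p (Phi (-0.842)) with h1 | h1
  · have g1 := Phi_lo_0_878
    have g2 := Phi_hi_0_842
    have hc := chord_0_878_0_842 hp h1
    have hR := h.lin (L0 := 0.03) (by norm_num) hc (by linarith) (by norm_num)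
    norm_num at *
    linarith
  rcases le_total p (Phi (-0.675)) with h2 | h2
  · have g1 := Phi_lo_0_842
    have g2 := Phi_hi_0_675
    have hc := chord_0_842_0_675 h1 h2
    have hR := h.quad (by norm_num) hc (by linarith) (by linarith)
    nlinarith [sq_nonneg (p - 0.225)]
  rcases le_total p (Phi (-0.483)) with h3 | h3
  · have g1 := Phi_lo_0_675
    have g2 := Phi_hi_0_483
    have hc := chord_0_675_0_483 h2 h3
    have hR := h.quad (by norm_num) hc (by linarith) (by linarith)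
    nlinarith [sq_nonneg (p - 0.31)]
  · have g1 := Phi_lo_0_483
    have g2 := Phi_one_le
    have := h.e1.trans (tan_0_483 (by linarith) h.le_half)
    linarith

/-- small cells: deficiency is nonnegative -/
lemma def_nonneg {p R : ℝ} (h : Cell 3.49 p R) : 0 ≤ 0.579 * p - R := by
  have hp0 := h.pos
  rcases le_total p (Phi (-0.878)) with h1 | h1
  · have := line_019 h h1; linarith
  · have := N1 h h1; linarith

/-- a cell with small deficiency has `p ≤ 0.165` -/
lemma p_le_of_def {p R : ℝ} (h : Cell 3.49 p R) (hd : 0.579 * p - R ≤ 0.0533) : p ≤ 0.165 := by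
  by_contra hcon
  have hcon := (not_le.1 hcon).le
  have hp0 := h.pos
  rcases le_total p (Phi (-0.915)) with h1 | h1
  · have g1 := Phi_hi_1_036
    have g2 := Phi_hi_0_915
    have hc := chord_1_036_0_915 (by linarith) h1
    have hR := h.lin (L0 := 0.0218) (by norm_num) hc (by linarith) (by norm_num)
    norm_num at *
    linarith
  rcases le_total p (Phi (-0.878)) with h2 | h2
  · have g1 := Phi_lo_0_915
    have g2 := Phi_hi_0_878
    have hc := chord_0_915_0_878 h1 h2
    have hR := h.lin (L0 := 0.0256) (by norm_num) hc (by linarith) (by norm_num)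
    norm_num at *
    linarith
  · have := N1 h h2
    linarith

lemma line_165 {p R : ℝ} (h : Cell 3.49 p R) (hp : p ≤ 0.165) : R ≤ 0.2553 * p := by
  have hp0 := h.pos
  rcases le_total p (Phi (-1.036)) with h2 | h2
  · have := line_small h h2
    linarith
  · have g1 := Phi_lo_1_036
    have g2 := Phi_lo_0_915
    have hc := chord_1_036_0_915 h2 (by linarith)
    have hR := h.lin (L0 := 0.0218) (by norm_num) hc (by linarith) (by norm_num)
    norm_num at *
    linarith

/-- energy analysis for five cells -/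
theorem energy5 {p0 p1 p2 p3 p4 R0 R1 R2 R3 R4 : ℝ} (h0 : Cell 3.49 p0 R0) (h1 : Cell 3.49 p1 R1)
    (h2 : Cell 3.49 p2 R2) (h3 : Cell 3.49 p3 R3) (h4 : Cell 3.49 p4 R4)
    (h01 : p0 ≤ p1) (h12 : p1 ≤ p2) (h23 : p2 ≤ p3) (h34 : p3 ≤ p4)
    (hsum : p0 + p1 + p2 + p3 + p4 = 1) (hV : 0.358098 ≤ R0 + R1 + R2 + R3 + R4)
    (hbig : Phi (-0.915) ≤ p2) :
    Phi (-0.878) ≤ p2 ∧ p0 ≤ 0.165 ∧ p1 ≤ 0.165 ∧
    (0.579 * p0 - R0) + (0.579 * p1 - R1) ≤ 0.4113 - (R0 + R1 + R2 + R3 + R4) ∧
    R0 + R1 ≤ 0.04197 ∧ 0.0398 ≤ R2 ∧ 0.0398 ≤ R3 ∧ 0.0398 ≤ R4 := by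
  have q0 := h0.pos
  have q1 := h1.pos
  have g0 := Phi_one_le
  have g1 := Phi_lo_0_915
  have g2 := Phi_hi_0_878
  have key : Phi (-0.878) ≤ p2 := by
    by_contra hcon
    have hcon := (not_le.1 hcon).le
    rcases le_total p3 (Phi (-0.878)) with a3 | a3
    · have e0 := line_019 h0 (by linarith)
      have e1 := line_019 h1 (by linarith)
      have e2 := line_019 h2 hcon
      have e3 := line_019 h3 a3
      have e4 := h4.le_tan (by linarith)
      linarith
    · have g3 := Phi_hi_1_036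
      have e2 := line_mid h2 (by linarith) hcon
      have n3 := N1 h3 a3
      have n4 := N1 h4 (by linarith)
      have t3 := h3.e1.trans (tan_0_385 (by linarith) h3.le_half)
      have t4 := h4.e1.trans (tan_0_385 (by linarith) h4.le_half)
      have s3 := h3.e1.trans (tan_0_25 (by linarith) h3.le_half)
      have s4 := h4.e1.trans (tan_0_25 (by linarith) h4.le_half)
      rcases le_total p1 (Phi (-1.036)) with a1 | a1
      · have e1 := line_small h1 a1
        have e0 := line_small h0 (by linarith)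
        rcases le_total (p0 + p1) 0.06 with b | b <;> linarith
      · have e1 := line_mid h1 a1 (by linarith)
        have g4 := Phi_lo_1_036
        rcases le_total p0 (Phi (-1.036)) with a0 | a0
        · have e0 := line_small h0 a0
          rcases le_total (p1 + p2) 0.365 with b | b <;> linarith
        · have e0 := line_mid h0 a0 (by linarith)
          linarith
  have n2 := N1 h2 key
  have n3 := N1 h3 (by linarith)
  have n4 := N1 h4 (by linarith)
  have d0 := def_nonneg h0
  have d1 := def_nonneg h1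
  have hE : (0.579 * p0 - R0) + (0.579 * p1 - R1) ≤ 0.4113 - (R0 + R1 + R2 + R3 + R4) := by
    linarith
  have c0 : p0 ≤ 0.165 := p_le_of_def h0 (by linarith)
  have c1 : p1 ≤ 0.165 := p_le_of_def h1 (by linarith)
  have l0 := line_165 h0 c0
  have l1 := line_165 h1 c1
  have s2 := h2.e1.trans (tan_0_25 (by linarith) h2.le_half)
  have s3 := h3.e1.trans (tan_0_25 (by linarith) h3.le_half)
  have s4 := h4.e1.trans (tan_0_25 (by linarith) h4.le_half)
  have g5 := Phi_lo_0_878
  refine ⟨key, c0, c1, hE, ?_, ?_, ?_, ?_⟩ <;> linarith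

end Crest.Agent.R215.K5
end

-- ▼ part R215/K5
section

/-!
# Row 215: there is no critical configuration with five cells
-/

set_option autoImplicit false

open MeasureTheory ProbabilityTheory Set Filter Topology
open Crest.Agent.Lib.Ehrhard
open scoped RealInnerProductSpace

open Crest.Agent.R215 Crest.Agent.R215.Num

namespace Crest.Agent.R215.K5

/-- the term with the length of the edge -/
lemma edge_le (w : ℝ) :
    2 * Real.pi * √(2 * Real.pi) / 5 * w ≤ 3 * Real.pi / 10 + 4 * Real.pi ^ 2 / 15 * w ^ 2 := by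
  have h1 : √(2 * Real.pi) ^ 2 = 2 * Real.pi := Real.sq_sqrt (by positivity)
  have hpi := Real.pi_pos
  set a := √(2 * Real.pi) with ha
  have h2 : 3 * Real.pi / 10 + 4 * Real.pi ^ 2 / 15 * w ^ 2 - 2 * Real.pi * a / 5 * w
      = 3 * Real.pi / 10 * (1 - 2 / 3 * (a * w)) ^ 2 := by
    have : (1 - 2 / 3 * (a * w)) ^ 2 = 1 - 4 / 3 * (a * w) + 4 / 9 * (a ^ 2 * w ^ 2) := by ring
    rw [this, h1]
    ring
  have h3 : 0 ≤ 3 * Real.pi / 10 * (1 - 2 / 3 * (a * w)) ^ 2 := by positivity
  linarith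

lemma sqrt12_le : √12 ≤ 3.46411 := by
  rw [Real.sqrt_le_left (by norm_num)]
  norm_num

lemma sqrt3_ge : 1.73205 ≤ √3 := by
  rw [Real.le_sqrt (by norm_num) (by norm_num)]
  norm_num

lemma mono_u {u w σ K : ℝ} (hul : 0.485 ≤ u) (huw : u ≤ w) (hwl : 0.562 ≤ w)
    (hσ : 0 ≤ σ) (hσl : σ ≤ 0.2049) (hK : 3.1498 ≤ K) :
    (w - u) / (2 * u) + (w - u) / (2 * u) + 1.21 * σ / u + K * u ≤ 1.21 * σ / w + K * w := by
  have hwp : 0 < w := by linarith
  have hu : 0 < u := by linarith
  have e1 : 1.21 * σ / u - 1.21 * σ / w = (w - u) * (1.21 * σ / (u * w)) := by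
    field_simp
  have e2 : (w - u) / (2 * u) + (w - u) / (2 * u) = (w - u) * (1 / u) := by
    field_simp
    ring
  have e4 : 1 / u ≤ 2.0619 := by
    rw [div_le_iff₀ hu]
    linarith
  have e5 : 1.21 * σ / (u * w) ≤ 0.9098 := by
    rw [div_le_iff₀ (by positivity)]
    nlinarith
  have e6 : (w - u) * (1 / u + 1.21 * σ / (u * w)) ≤ (w - u) * K :=
    mul_le_mul_of_nonneg_left (by linarith) (by linarith)
  have e7 : (w - u) * (1 / u + 1.21 * σ / (u * w)) = (w - u) * (1 / u) + (w - u) * (1.21 * σ / (u * w)) := by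
    ring
  have e8 : (w - u) * K = K * w - K * u := by ring
  rw [e2]
  linarith

lemma last_angle {u σ : ℝ} (hul : 0.485 ≤ u) (hσ : 0 ≤ σ) (hσl : σ ≤ 0.2049) :
    Real.arctan (2 * σ / √(3 * u ^ 2 - 4 * σ ^ 2)) ≤ 1.21 * σ / u := by
  have hu : 0 < u := by linarith
  have s3 := sqrt3_ge
  have h := arctan_sigma_le (t0 := 0.499) (c := 1.0478) hσ hu (by nlinarith) (by norm_num)
    (by norm_num) (by norm_num) (by norm_num)
  refine h.trans ?_
  have e1 : 1.0478 * (2 * σ / (√3 * u)) = (2.0956 / √3) * (σ / u) := by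
    field_simp
    ring
  have e2 : 1.21 * σ / u = 1.21 * (σ / u) := by ring
  rw [e1, e2]
  refine mul_le_mul_of_nonneg_right ?_ (by positivity)
  rw [div_le_iff₀ (by positivity)]
  linarith

lemma scale_w {w r : ℝ} (hwl : 0.562 ≤ w) (hr : 0 ≤ r) :
    Real.arctan (√12 * r / w) ≤ Real.arctan (6.164 * r) := by
  have hwp : 0 < w := by linarith
  have s12 := sqrt12_le
  refine Real.arctan_strictMono.monotone ?_
  rw [div_le_iff₀ hwp]
  have : √12 ≤ 6.164 * w := by linarith
  calc √12 * r ≤ (6.164 * w) * r := mul_le_mul_of_nonneg_right this hr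
    _ = 6.164 * r * w := by ring

lemma pi_sq_hi : 4 * Real.pi ^ 2 / 15 ≤ 2.63191 := by
  have hpi1 := Real.pi_gt_d6
  have hpi2 := Real.pi_lt_d6
  nlinarith

lemma pi_sq_lo : 2.631 ≤ 4 * Real.pi ^ 2 / 15 := by
  have hpi1 := Real.pi_gt_d6
  nlinarith

lemma final5 {u Ra V p0 p1 r0 r1 σ K : ℝ} (h0 : Cell 3.49 p0 (r0 ^ 2)) (h1 : Cell 3.49 p1 (r1 ^ 2))
    (hr0 : 0 ≤ r0) (hr1 : 0 ≤ r1) (c0 : p0 ≤ 0.165) (c1 : p1 ≤ 0.165) (hu : 0 < u)
    (hV : 0.358098 ≤ V) (hRa : Ra ≤ 0.15916)
    (hE : (0.579 * p0 - r0 ^ 2) + (0.579 * p1 - r1 ^ 2) ≤ 0.4113 - V)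
    (hRS : r0 ^ 2 + r1 ^ 2 ≤ 0.04197)
    (hue : u ^ 2 = min (V - (r0 ^ 2 + r1 ^ 2)) (3 / 2 * (V - (r0 ^ 2 + r1 ^ 2) - Ra)))
    (hσ : 0 ≤ σ) (hσ1 : σ ≤ r0 + r1) (hσ2 : σ ^ 2 ≤ r0 ^ 2 + r1 ^ 2) (hK : 3.1498 ≤ K)
    (hedge : ∀ w : ℝ, K * w ≤ 3 * Real.pi / 10 + 4 * Real.pi ^ 2 / 15 * w ^ 2)
    (hpi : Real.pi ≤ (Real.arctan (√12 * r0 / u) + Real.arctan (√12 * r1 / u))
      + Real.arctan (2 * σ / √(3 * u ^ 2 - 4 * σ ^ 2)) + K * u) :
    False := by
  obtain ⟨e, he⟩ : ∃ e, e = V - (r0 ^ 2 + r1 ^ 2) := ⟨_, rfl⟩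
  rw [← he] at hue
  have he1 : 0.316128 ≤ e := by linarith
  obtain ⟨w, hw0, hw2⟩ : ∃ w : ℝ, 0 ≤ w ∧ w ^ 2 = e :=
    ⟨√e, Real.sqrt_nonneg _, Real.sq_sqrt (by linarith)⟩
  have hwl : 0.562 ≤ w := by
    refine le_of_sq_le_sq ?_ hw0
    rw [hw2]
    norm_num
    linarith
  have huw : u ≤ w := by
    refine le_of_sq_le_sq ?_ hw0
    rw [hw2, hue]
    exact min_le_left _ _
  have hul : 0.485 ≤ u := by
    refine le_of_sq_le_sq ?_ hu.le
    rw [hue]
    refine le_min ?_ ?_
    · norm_num; linarith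
    · norm_num; linarith
  have hσl : σ ≤ 0.2049 := by
    refine le_of_sq_le_sq ?_ (by norm_num)
    norm_num
    linarith
  have hwp : 0 < w := by linarith
  have a1 := last_angle hul hσ hσl
  have b0 := arctan_div_le (a := √12 * r0) (by positivity) hu huw
  have b1 := arctan_div_le (a := √12 * r1) (by positivity) hu huw
  have m1 := mono_u hul huw hwl hσ hσl hK
  have t1 : 1.21 * σ / w ≤ 2.1531 * (r0 + r1) := by
    rw [div_le_iff₀ hwp]
    have : 2.1531 * (r0 + r1) * 0.562 ≤ 2.1531 * (r0 + r1) * w :=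
      mul_le_mul_of_nonneg_left hwl (by positivity)
    linarith
  have hedge := hedge w
  rw [hw2] at hedge
  have f0 := S5 h0 hr0 c0
  have f1 := S5 h1 hr1 c1
  have u0 := scale_w hwl hr0
  have u1 := scale_w hwl hr1
  have hpi1 := Real.pi_gt_d6
  have hpi2 := Real.pi_lt_d6
  have g1 := pi_sq_hi
  have g2 := pi_sq_lo
  have g3 : 4 * Real.pi ^ 2 / 15 * e ≤ 2.63191 * V - 2.631 * (r0 ^ 2 + r1 ^ 2) := by
    have g4 : 4 * Real.pi ^ 2 / 15 * V ≤ 2.63191 * V := mul_le_mul_of_nonneg_right g1 (by linarith)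
    have g5 : 2.631 * (r0 ^ 2 + r1 ^ 2) ≤ 4 * Real.pi ^ 2 / 15 * (r0 ^ 2 + r1 ^ 2) :=
      mul_le_mul_of_nonneg_right g2 (by positivity)
    rw [he]
    linarith only [g4, g5]
  linarith only [hpi, a1, b0, b1, m1, t1, hedge, f0, f1, u0, u1, g3, hE, hV, hpi1]

lemma K_ge : (3.1498 : ℝ) ≤ 2 * Real.pi * √(2 * Real.pi) / 5 := by
  have hs := sqrt_two_pi_gt
  have hpi1 := Real.pi_gt_d6
  have : (3.141592 : ℝ) * 2.5066282 ≤ Real.pi * √(2 * Real.pi) :=
    mul_le_mul hpi1.le hs.le (by norm_num) (by positivity)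
  norm_num at this ⊢
  linarith

variable {E : Type*} [NormedAddCommGroup E] [InnerProductSpace ℝ E] [FiniteDimensional ℝ E]
  [MeasurableSpace E] [BorelSpace E]

theorem isEmpty_crit_five : IsEmpty (Crit E (Fin 5)) := by
  refine ⟨fun c => ?_⟩
  set τ : Equiv.Perm (Fin 5) := Tuple.sort c.p with hτ
  have hmono : Monotone (c.p ∘ τ) := Tuple.monotone_sort c.p
  have hcC := cC_gt
  have hcC' := cC_lt
  have hcell : ∀ i, Cell 3.49 (c.p i) (‖c.z i‖ ^ 2) := by
    intro i
    refine c.cell_facts (by simp) ?_ i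
    simp only [Fintype.card_fin]
    norm_num at *
    linarith
  have hsum : c.p (τ 0) + c.p (τ 1) + c.p (τ 2) + c.p (τ 3) + c.p (τ 4) = 1 := by
    rw [← c.sum_p, ← Equiv.sum_comp τ c.p, Fin.sum_univ_five]
  have hVsum : ‖c.z (τ 0)‖ ^ 2 + ‖c.z (τ 1)‖ ^ 2 + ‖c.z (τ 2)‖ ^ 2 + ‖c.z (τ 3)‖ ^ 2
      + ‖c.z (τ 4)‖ ^ 2 = c.V := by
    rw [← c.sumsq, ← Equiv.sum_comp τ (fun i => ‖c.z i‖ ^ 2), Fin.sum_univ_five]
  have m01 : c.p (τ 0) ≤ c.p (τ 1) := hmono (by decide)
  have m12 : c.p (τ 1) ≤ c.p (τ 2) := hmono (by decide)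
  have m23 : c.p (τ 2) ≤ c.p (τ 3) := hmono (by decide)
  have m34 : c.p (τ 3) ≤ c.p (τ 4) := hmono (by decide)
  have hVgt := c.V_gt
  have hbig : Phi (-0.915) ≤ c.p (τ 2) := by
    obtain ⟨m, hm1, hm2, hm3⟩ := three_big (η := 3.49) (by norm_num) hcell c.sum_p
      (by rw [c.sumsq]; exact hVgt.le) (τ 4) (τ 3)
    obtain ⟨y, rfl⟩ := τ.surjective m
    have hy4 : y ≠ 4 := fun h => hm1 (by rw [h])
    have hy3 : y ≠ 3 := fun h => hm2 (by rw [h])
    have hyy : ∀ y : Fin 5, y ≠ 4 → y ≠ 3 → y ≤ 2 := by decide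
    have hy := hyy y hy4 hy3
    exact hm3.le.trans (hmono hy)
  obtain ⟨k0, k1, k2, k3, k4, k5, k6, k7⟩ := energy5 (hcell (τ 0)) (hcell (τ 1)) (hcell (τ 2))
    (hcell (τ 3)) (hcell (τ 4)) m01 m12 m23 m34 hsum (by rw [hVsum]; linarith) hbig
  rw [hVsum] at k3
  have hne : ∀ a b : Fin 5, a ≠ b → τ a ≠ τ b := fun a b h h' => h (τ.injective h')
  set S : Finset (Fin 5) := ((Finset.univ.erase (τ 4)).erase (τ 3)).erase (τ 2) with hS
  have hS2 : S = {τ 0, τ 1} := by
    ext x
    obtain ⟨y, rfl⟩ := τ.surjective x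
    simp only [hS, Finset.mem_erase, Finset.mem_univ, and_true, Finset.mem_insert,
      Finset.mem_singleton, EmbeddingLike.apply_eq_iff_eq, ne_eq]
    revert y
    decide
  have hR : ∀ i, ‖c.z i‖ ^ 2 ≤ 0.15916 := fun i => (hcell i).e1'
  have hsumS : ∀ f : Fin 5 → ℝ, ∑ i ∈ S, f i = f (τ 0) + f (τ 1) := by
    intro f
    rw [hS2, Finset.sum_pair (hne 0 1 (by decide))]
  obtain ⟨a, ha, u, hu, hu2, hpi⟩ := BBGeo.bb_geo c (j := τ 4) (l := τ 3) (m := τ 2)
    (e := c.V - (‖c.z (τ 0)‖ ^ 2 + ‖c.z (τ 1)‖ ^ 2)) (σ := ‖c.z (τ 0)‖ ^ 2 + ‖c.z (τ 1)‖ ^ 2)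
    (hne _ _ (by decide)) (hne _ _ (by decide)) (hne _ _ (by decide)) (by linarith)
    (by
      have hl : ∀ b ∈ ({τ 4, τ 3, τ 2} : Finset (Fin 5)), 0.0398 ≤ ‖c.z b‖ ^ 2 := by
        intro b hb
        simp only [Finset.mem_insert, Finset.mem_singleton] at hb
        rcases hb with rfl | rfl | rfl <;> assumption
      intro a _ b hb
      have := hR a
      have := hl b hb
      linarith)
    hS (hsumS (fun i => ‖c.z i‖ ^ 2)).symm
    (by
      intro a _
      have := hR a
      linarith)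
    (by linarith)
  rw [hsumS] at hpi
  have hsz : ∑ i ∈ S, c.z i = c.z (τ 0) + c.z (τ 1) := by
    rw [hS2, Finset.sum_pair (hne 0 1 (by decide))]
  have hn1 : ‖∑ i ∈ S, c.z i‖ ≤ ‖c.z (τ 0)‖ + ‖c.z (τ 1)‖ := by
    rw [hsz]; exact norm_add_le _ _
  have hn2 : ‖∑ i ∈ S, c.z i‖ ^ 2 ≤ ‖c.z (τ 0)‖ ^ 2 + ‖c.z (τ 1)‖ ^ 2 := by
    have := BBGeo.norm_sum_sq_le c S
    rw [hsumS] at this
    exact this
  refine final5 (hcell (τ 0)) (hcell (τ 1)) (norm_nonneg _) (norm_nonneg _) k1 k2 hu
    (by linarith) (hR a) k3 k4 hu2 (norm_nonneg _) hn1 hn2 K_ge edge_le ?_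
  simpa using hpi

end Crest.Agent.R215.K5
end

-- ▼ part R215/K6

/-!
# Row 215: there is no critical configuration with six cells
-/

set_option autoImplicit false

open MeasureTheory ProbabilityTheory Set Filter Topology
open Crest.Agent.Lib.Ehrhard
open scoped RealInnerProductSpace

open Crest.Agent.R215 Crest.Agent.R215.Num Crest.Agent.R215.KGen

namespace Crest.Agent.R215.K6

/-- inequality for the small cells -/
lemma Scell {p r : ℝ} (h : Cell 3.35 p (r ^ 2)) (hr : 0 ≤ r) (hp : p ≤ Phi (-0.842)) :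
    Real.arctan (6.8598 * r) + 2.4306 * r ≤ 28.0 * (0.579 * p - r ^ 2) + 2.193 * r ^ 2 := by
  have hp0 := h.pos
  have hy : 0 ≤ 6.8598 * r := by positivity
  rcases le_total p (Phi (-1.695)) with h1 | h1
  · have h2 := Phi_hi_1_695
    have h3 := h.small (by norm_num) (by linarith)
    have h4 : r ≤ 1.41422 * p := by
      refine le_of_sq_le_sq (h3.trans ?_) (by positivity)
      nlinarith [sq_nonneg p]
    have h6 := arctan_le_self' hy
    nlinarith
  rcases le_total p (Phi (-1.405)) with g0 | g0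
  · have a1 := Phi_lo_1_695
    have a2 := Phi_hi_1_405
    have hc := chord_1_695_1_405 h1 g0
    have hR := h.lin (L0 := 0.002) (by norm_num) hc (by linarith) (by norm_num)
    have h6 := arctan_le_tangent (y0 := 0.5) hy (by norm_num)
    have h7 := arctan_0_5
    have h8 := r_le (r := r) (s := 0.08) (by norm_num)
    norm_num at *
    linarith
  rcases le_total p (Phi (-1.175)) with g1 | g1
  · have a1 := Phi_lo_1_405
    have a2 := Phi_hi_1_175
    have hc := chord_1_405_1_175 g0 g1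
    have hR := h.lin (L0 := 0.006) (by norm_num) hc (by linarith) (by norm_num)
    have h6 := arctan_le_tangent (y0 := 0.8) hy (by norm_num)
    have h7 := arctan_0_8
    have h8 := r_le (r := r) (s := 0.13) (by norm_num)
    norm_num at *
    linarith
  rcases le_total p (Phi (-1.036)) with g2 | g2
  · have a1 := Phi_lo_1_175
    have a2 := Phi_hi_1_036
    have hc := chord_1_175_1_036 g1 g2
    have hR := h.lin (L0 := 0.014) (by norm_num) hc (by linarith) (by norm_num)
    have h6 := arctan_le_tangent (y0 := 1.2) hy (by norm_num)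
    have h7 := arctan_1_2
    have h8 := r_le (r := r) (s := 0.18) (by norm_num)
    norm_num at *
    linarith
  rcases le_total p (Phi (-0.915)) with g3 | g3
  · have a1 := Phi_lo_1_036
    have a2 := Phi_hi_0_915
    have hc := chord_1_036_0_915 g2 g3
    have hR := h.lin (L0 := 0.026) (by norm_num) hc (by linarith) (by norm_num)
    have h6 := arctan_le_tangent (y0 := 1.5) hy (by norm_num)
    have h7 := arctan_1_5
    have h8 := r_le (r := r) (s := 0.22) (by norm_num)
    norm_num at *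
    linarith
  · have a1 := Phi_lo_0_915
    have a2 := Phi_hi_0_842
    have hc := chord_0_915_0_842 g3 hp
    have hR := h.lin (L0 := 0.031) (by norm_num) hc (by linarith) (by norm_num)
    have h6 := arctan_le_tangent (y0 := 1.8) hy (by norm_num)
    have h7 := arctan_1_8
    have h8 := r_le (r := r) (s := 0.24) (by norm_num)
    norm_num at *
    linarith

lemma line_tau0 {p R : ℝ} (h : Cell 3.35 p R) (hp : p ≤ Phi (-0.842)) : R ≤ 0.2975 * p := by
  have hp0 := h.pos
  have q1 := Phi_hi_1_036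
  have q2 := Phi_hi_0_915
  have q3 := Phi_hi_0_842
  have q4 := Phi_lo_1_036
  have q5 := Phi_lo_0_915
  rcases le_total p 0.14 with h1 | h1
  · have := h.small (by norm_num) (by linarith)
    nlinarith
  rcases le_total p (Phi (-1.036)) with h2 | h2
  · have g2 := Phi_hi_1_175
    have hc := chord_1_175_1_036 (by linarith) h2
    have hR := h.lin (L0 := 0.018) (by norm_num) hc (by linarith) (by norm_num)
    norm_num at *
    linarith
  rcases le_total p (Phi (-0.915)) with h3 | h3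
  · have hc := chord_1_036_0_915 h2 h3
    have hR := h.lin (L0 := 0.024) (by norm_num) hc (by linarith) (by norm_num)
    norm_num at *
    linarith
  · have hc := chord_0_915_0_842 h3 hp
    have hR := h.lin (L0 := 0.03) (by norm_num) hc (by linarith) (by norm_num)
    norm_num at *
    linarith

/-- the main line for the big cells -/
lemma N1 {p R : ℝ} (h : Cell 3.35 p R) (hp : Phi (-0.915) ≤ p) : R ≤ 0.579 * p - 0.0551 := by
  have hp0 := h.pos
  rcases le_total p (Phi (-0.842)) with h1 | h1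
  · have g1 := Phi_lo_0_915
    have g2 := Phi_hi_0_842
    have hc := chord_0_915_0_842 hp h1
    have hR := h.lin (L0 := 0.026) (by norm_num) hc (by linarith) (by norm_num)
    norm_num at *
    linarith
  rcases le_total p (Phi (-0.675)) with h2 | h2
  · have g1 := Phi_lo_0_842
    have g2 := Phi_hi_0_675
    have hc := chord_0_842_0_675 h1 h2
    have hR := h.quad (by norm_num) hc (by linarith) (by linarith)
    nlinarith [sq_nonneg (p - 0.225)]
  rcases le_total p (Phi (-0.483)) with h3 | h3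
  · have g1 := Phi_lo_0_675
    have g2 := Phi_hi_0_483
    have hc := chord_0_675_0_483 h2 h3
    have hR := h.quad (by norm_num) hc (by linarith) (by linarith)
    nlinarith [sq_nonneg (p - 0.31)]
  · have g1 := Phi_lo_0_483
    have g2 := Phi_one_le
    have := h.e1.trans (tan_0_483 (by linarith) h.le_half)
    linarith

lemma def_nonneg {p R : ℝ} (h : Cell 3.35 p R) : 0 ≤ 0.579 * p - R := by
  have hp0 := h.pos
  rcases le_total p (Phi (-0.842)) with h1 | h1
  · have := line_tau0 h h1; linarith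
  · have g1 := Phi_lo_0_842
    have g2 := Phi_hi_0_915
    have := N1 h (by linarith); linarith

/-- a cell with small deficiency has `p ≤ Φ(-0.842)` -/
lemma p_le_of_def {p R : ℝ} (h : Cell 3.35 p R) (hp : p ≤ 1 / 4) (hd : 0.579 * p - R ≤ 0.0557) :
    p ≤ Phi (-0.842) := by
  by_contra hcon
  have hcon := (not_le.1 hcon).le
  have g1 := Phi_lo_0_842
  rcases le_total p (Phi (-0.675)) with h2 | h2
  · have g2 := Phi_hi_0_675
    have hc := chord_0_842_0_675 hcon h2
    have hR := h.quad (by norm_num) hc (by linarith) (by linarith)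
    nlinarith [sq_nonneg (p - 0.225)]
  · have g2 := Phi_lo_0_483
    have g3 := Phi_lo_0_675
    have hc := chord_0_675_0_483 h2 (by linarith)
    have hR := h.lin (L0 := 0.047) (by norm_num) hc (by linarith) (by norm_num)
    norm_num at *
    linarith

variable {E : Type*} [NormedAddCommGroup E] [InnerProductSpace ℝ E] [FiniteDimensional ℝ E]
  [MeasurableSpace E] [BorelSpace E]
variable {ι : Type*} [Fintype ι] [DecidableEq ι]

theorem false_of_crit (c : Crit E ι) (hk : Fintype.card ι = 6) : False := by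
  have hcC := cC_gt
  have hcC' := cC_lt
  have hη : (3.35 : ℝ) * cC ≤ 1 + ((Fintype.card ι : ℝ) - 1)⁻¹ := by
    rw [hk]
    norm_num at *
    linarith
  have hcell : ∀ i, Cell 3.35 (c.p i) (‖c.z i‖ ^ 2) := fun i => c.cell_facts (by omega) hη i
  obtain ⟨j, l, m, hjl, hmj, hml, hlj, hml', hbig, hSm⟩ := exists_big c (by omega) (by norm_num) hη
  obtain ⟨S, hS⟩ : ∃ S, S = ((Finset.univ.erase j).erase l).erase m := ⟨_, rfl⟩
  rw [← hS] at hSm
  have hV : 0.358098 ≤ c.V := by have := c.V_gt; linarith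
  have sp := sum_split hjl hmj hml c.p
  have sR := sum_split hjl hmj hml (fun i => ‖c.z i‖ ^ 2)
  rw [← hS, c.sum_p] at sp
  rw [← hS, c.sumsq] at sR
  have nj := N1 (hcell j) (by linarith)
  have nl := N1 (hcell l) (by linarith)
  have nm := N1 (hcell m) hbig
  have hdef : ∑ i ∈ S, (0.579 * c.p i - ‖c.z i‖ ^ 2) ≤ 0.4137 - c.V := by
    rw [Finset.sum_sub_distrib, ← Finset.mul_sum]
    linarith
  have hp4 : ∀ i ∈ S, c.p i ≤ Phi (-0.842) := by
    intro i hi
    have h1 := four_p_le c hjl hmj hml hlj hml' (by rw [← hS]; exact hi) (hSm i hi)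
    refine p_le_of_def (hcell i) h1 ?_
    have h2 : 0.579 * c.p i - ‖c.z i‖ ^ 2 ≤ ∑ i ∈ S, (0.579 * c.p i - ‖c.z i‖ ^ 2) :=
      Finset.single_le_sum (fun i _ => def_nonneg (hcell i)) hi
    linarith
  have hτ : ∑ i ∈ S, ‖c.z i‖ ^ 2 ≤ 0.2975 * ∑ i ∈ S, c.p i := by
    rw [Finset.mul_sum]
    exact Finset.sum_le_sum fun i hi => line_tau0 (hcell i) (hp4 i hi)
  rw [Finset.sum_sub_distrib, ← Finset.mul_sum] at hdef
  have hE := hdef
  obtain ⟨RS, hRS⟩ : ∃ x, x = ∑ i ∈ S, ‖c.z i‖ ^ 2 := ⟨_, rfl⟩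
  obtain ⟨PS, hPS⟩ : ∃ x, x = ∑ i ∈ S, c.p i := ⟨_, rfl⟩
  rw [← hRS, ← hPS] at hτ hE
  rw [← hRS] at sR
  rw [← hPS] at sp
  have g1 := Phi_lo_0_915
  have g2 := Phi_one_le
  have sj := (hcell j).e1.trans (tan_0_25 (by linarith) (hcell j).le_half)
  have sl := (hcell l).e1.trans (tan_0_25 (by linarith) (hcell l).le_half)
  have sm := (hcell m).e1.trans (tan_0_25 (by linarith) (hcell m).le_half)
  have tj := (hcell j).e1.trans (tan_0_483 (by linarith) (hcell j).le_half)
  have tl := (hcell l).e1.trans (tan_0_483 (by linarith) (hcell l).le_half)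
  have tm := (hcell m).e1.trans (tan_0_483 (by linarith) (hcell m).le_half)
  have hpi1 := Real.pi_gt_d6
  have hpi2 := Real.pi_lt_d6
  refine gen_final c hjl hmj hml hS (k0 := 6) (by norm_num) hk.ge (Λ := 28) (β := 0.579)
    (κ := 2.193) (A := 6.8598) (B := 2.4306) (D := 0.4137) (u0 := 0.505) (cc := 1.063) (t0 := 0.5547)
    (ρ := 0.0588) (by norm_num) ?_ (by norm_num) ?_ ?_ (fun i => (hcell i).e1') ?_ (by norm_num) ?_ ?_
    (by norm_num) (by norm_num) (by norm_num) (by norm_num) (by norm_num) (by norm_num)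
    (by norm_num) (by norm_num) ?_ ?_
  · intro i hi
    have := Scell (hcell i) (norm_nonneg _) (hp4 i hi)
    norm_num at this ⊢
    linarith
  · rw [Finset.sum_sub_distrib, ← Finset.mul_sum]
    exact hdef
  · intro b hb
    simp only [Finset.mem_insert, Finset.mem_singleton] at hb
    rcases hb with rfl | rfl | rfl <;> linarith
  · rw [← hRS]; linarith
  · rw [← hRS]; norm_num; linarith
  · intro a ha
    rw [← hRS]
    simp only [Finset.mem_insert, Finset.mem_singleton] at ha
    norm_num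
    rcases ha with rfl | rfl | rfl <;> linarith
  · have g3 := pi_sq_lo
    norm_num at g3 ⊢
    linarith
  · have g3 : 4 * Real.pi ^ 2 / (3 * (6:ℕ)) ≤ 2.19325 := by
      have g3 := pi_sq_hi
      norm_num at g3 ⊢
      linarith
    have g4 : 4 * Real.pi ^ 2 / (3 * (6:ℕ)) * c.V ≤ 2.19325 * c.V :=
      mul_le_mul_of_nonneg_right g3 (by linarith)
    norm_num at g4 hV hpi1 hpi2 ⊢
    linarith only [g4, hV, hpi1, hpi2]

theorem isEmpty_crit_six : IsEmpty (Crit E (Fin 6)) := ⟨fun c => false_of_crit c (by simp)⟩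

end Crest.Agent.R215.K6
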